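import Mathlib
import Vale.Agent.P116.PBC.Final
import Vale.Agent.P116.PBC.N

/-!
# Spaces of structures inside a node, and the metric

`SQ K Q` is the type of finite families of disjoint pieces inside `Q`. The distance of two such
families is the supremum, over all contexts `O` (families of pieces disjoint from `Q`) and all
points of a fixed circle around everything, of the distance of the Koebe maps.
-/

open Set Filter Topology Metric Bornology

namespace Vale.Agent.P116.Slow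

open H906 PBC

open Classical in
/-- the Koebe map of a family of sets -/
noncomputable def KM (S : Set (Set ℂ)) : ℂ → ℂ := if h : Adm S then kF fk ⟨S, h⟩ else id

lemma KM_eq (S : Str) : KM S.1 = kF fk S := by
  have h : Adm S.1 := S.2
  rw [KM, dif_pos h]

lemma KM_nu {S : Set (Set ℂ)} (h : Adm S) : NU (⋃₀ S)ᶜ (KM S) := by
  have h1 := (kmap fk ⟨S, h⟩).nu
  rwa [← KM_eq ⟨S, h⟩] at h1

/-- structures inside `Q` -/
def SQ (K Q : Set ℂ) : Type := {S : Set (Set ℂ) // NS K Q S}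

/-- contexts of `Q` -/
def CQ (K Q : Set ℂ) : Type := {O : Set (Set ℂ) // NS K (lev K 0) O ∧ ∀ P ∈ O, Disjoint P Q}

variable {K Q : Set ℂ}

lemma ns_empty : NS K Q ∅ where
  fin := finite_empty
  pc _ hP := hP.elim
  disj _ hP := hP.elim
  sub _ hP := hP.elim

lemma ns_mono {Q' : Set ℂ} {S : Set (Set ℂ)} (h : NS K Q S) (hQ : Q ⊆ Q') : NS K Q' S :=
  ⟨h.fin, h.pc, h.disj, fun P hP => (h.sub P hP).trans hQ⟩

lemma fullN (hK : IsCompact K) (hf : Full K) : FullN K := by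
  intro S h1 h2 h3
  refine full_nodes hK hf h1 (fun P hP => ?_) h3
  rcases h2 P hP with h | h
  · exact Or.inl h.1
  · exact Or.inr h

lemma ns_adm (hK : IsCompact K) (hf : Full K) {S : Set (Set ℂ)} (h : NS K Q S) : Adm S :=
  adm_of_pc hK (fullN hK hf) h.fin h.pc h.disj

lemma ns_union {S O : Set (Set ℂ)} (hQ : Q ⊆ lev K 0) (h : NS K Q S) (hO : NS K (lev K 0) O)
    (hd : ∀ P ∈ O, Disjoint P Q) : NS K (lev K 0) (O ∪ S) where
  fin := hO.fin.union h.fin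
  pc := by
    rintro P (hP | hP)
    · exact hO.pc P hP
    · exact h.pc P hP
  disj := by
    rintro P (hP | hP) P' (hP' | hP') hne
    · exact hO.disj P hP P' hP' hne
    · exact (hd P hP).mono_right (h.sub P' hP')
    · exact ((hd P' hP').mono_right (h.sub P hP)).symm
    · exact h.disj P hP P' hP' hne
  sub := by
    rintro P (hP | hP)
    · exact hO.sub P hP
    · exact (h.sub P hP).trans hQ

lemma nd_sub_lev0 (n : ℕ) (x : ℂ) : nd K n x ⊆ lev K 0 :=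
  (nd_subset n x).trans (lev_anti (Nat.zero_le n))

/-- the supremum which defines the distance is taken over a bounded family -/
noncomputable def dF (K Q : Set ℂ) (ρ : ℝ) (a a' : SQ K Q) (x : CQ K Q × sphere (0:ℂ) ρ) : ℝ :=
  ‖KM (x.1.1 ∪ a.1) x.2 - KM (x.1.1 ∪ a'.1) x.2‖

/-- the distance -/
noncomputable def dQ (K Q : Set ℂ) (ρ : ℝ) (a a' : SQ K Q) : ℝ := ⨆ x, dF K Q ρ a a' x

/-- the hypotheses on the data: `ρ` is the radius of a far circle -/
structure Far (K : Set ℂ) (R ρ : ℝ) : Prop where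
  cpt : IsCompact K
  full : Full K
  rpos : 0 < R
  sub : lev K 0 ⊆ closedBall 0 R
  lt : 2 * R < ρ

lemma exists_far (hK : IsCompact K) (hf : Full K) : ∃ R ρ : ℝ, Far K R ρ := by
  obtain ⟨R, hR, hRK⟩ := lev_bdd hK 0
  exact ⟨R, 2 * R + 1, hK, hf, hR, hRK, by linarith⟩

variable {R ρ : ℝ}

lemma Far.pos (h : Far K R ρ) : 0 < ρ := by have := h.rpos; have := h.lt; linarith

/-- the uniform bound at far points -/
lemma Far.bound (h : Far K R ρ) {S : Set (Set ℂ)} (hS : NS K (lev K 0) S) {z : ℂ}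
    (hz : 2 * R < ‖z‖) : ‖KM S z - z‖ ≤ 24 * R ^ 2 / ‖z‖ :=
  (KM_nu (ns_adm h.cpt h.full hS)).tail h.rpos
    (compl_subset_compl.2 (sUnion_subset fun P hP => (hS.sub P hP).trans h.sub)) hz

lemma Far.bound' (h : Far K R ρ) {S : Set (Set ℂ)} (hS : NS K (lev K 0) S)
    (z : sphere (0:ℂ) ρ) : ‖KM S z - z‖ ≤ 24 * R ^ 2 / ρ := by
  have hz : ‖(z : ℂ)‖ = ρ := by simp
  have := h.bound hS (z := z) (by rw [hz]; exact h.lt)
  rwa [hz] at this

lemma Far.union (_h : Far K R ρ) (hQ : Q ⊆ lev K 0) (a : SQ K Q) (O : CQ K Q) :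
    NS K (lev K 0) (O.1 ∪ a.1) := ns_union hQ a.2 O.2.1 O.2.2

lemma Far.bdd (h : Far K R ρ) (hQ : Q ⊆ lev K 0) (a a' : SQ K Q) :
    BddAbove (range (dF K Q ρ a a')) := by
  refine ⟨24 * R ^ 2 / ρ + 24 * R ^ 2 / ρ, ?_⟩
  rintro _ ⟨⟨O, z⟩, rfl⟩
  have h1 := h.bound' (h.union hQ a O) z
  have h2 := h.bound' (h.union hQ a' O) z
  have e : KM (O.1 ∪ a.1) z - KM (O.1 ∪ a'.1) z =
      (KM (O.1 ∪ a.1) z - z) - (KM (O.1 ∪ a'.1) z - z) := by ring
  simp only [dF]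
  rw [e]
  exact (norm_sub_le _ _).trans (add_le_add h1 h2)

lemma Far.le_dQ (h : Far K R ρ) (hQ : Q ⊆ lev K 0) (a a' : SQ K Q) (O : CQ K Q)
    (z : sphere (0:ℂ) ρ) : ‖KM (O.1 ∪ a.1) z - KM (O.1 ∪ a'.1) z‖ ≤ dQ K Q ρ a a' :=
  le_ciSup (h.bdd hQ a a') (O, z)

lemma nonempty_CQ : Nonempty (CQ K Q) := ⟨⟨∅, ns_empty, fun _ hP => hP.elim⟩⟩

lemma Far.nonempty (h : Far K R ρ) : Nonempty (CQ K Q × sphere (0:ℂ) ρ) := by
  have h1 : Nonempty (sphere (0:ℂ) ρ) := (NormedSpace.sphere_nonempty.2 h.pos.le).to_subtype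
  have h2 : Nonempty (CQ K Q) := nonempty_CQ
  exact inferInstance

lemma Far.dQ_le (h : Far K R ρ) {a a' : SQ K Q} {C : ℝ}
    (hC : ∀ (O : CQ K Q) (z : sphere (0:ℂ) ρ), ‖KM (O.1 ∪ a.1) z - KM (O.1 ∪ a'.1) z‖ ≤ C) :
    dQ K Q ρ a a' ≤ C := by
  have := h.nonempty (Q := Q)
  exact ciSup_le fun x => hC x.1 x.2

lemma Far.dQ_self (h : Far K R ρ) (a : SQ K Q) : dQ K Q ρ a a = 0 := by
  have := h.nonempty (Q := Q)
  simp [dQ, dF]

lemma dQ_comm (a a' : SQ K Q) : dQ K Q ρ a a' = dQ K Q ρ a' a := by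
  unfold dQ dF
  congr 1
  funext x
  rw [norm_sub_rev]

lemma Far.dQ_nonneg (h : Far K R ρ) (hQ : Q ⊆ lev K 0) (a a' : SQ K Q) : 0 ≤ dQ K Q ρ a a' := by
  obtain ⟨x⟩ := h.nonempty (Q := Q)
  exact (norm_nonneg _).trans (h.le_dQ hQ a a' x.1 x.2)

lemma Far.dQ_triangle (h : Far K R ρ) (hQ : Q ⊆ lev K 0) (a b c : SQ K Q) :
    dQ K Q ρ a c ≤ dQ K Q ρ a b + dQ K Q ρ b c := by
  refine h.dQ_le fun O z => ?_
  have e : KM (O.1 ∪ a.1) z - KM (O.1 ∪ c.1) z =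
      (KM (O.1 ∪ a.1) z - KM (O.1 ∪ b.1) z) + (KM (O.1 ∪ b.1) z - KM (O.1 ∪ c.1) z) := by ring
  rw [e]
  exact (norm_add_le _ _).trans (add_le_add (h.le_dQ hQ a b O z) (h.le_dQ hQ b c O z))

/-- the pseudometric space of structures inside `Q` -/
@[reducible] noncomputable def Far.pms (h : Far K R ρ) (hQ : Q ⊆ lev K 0) :
    PseudoMetricSpace (SQ K Q) where
  dist a a' := dQ K Q ρ a a'
  dist_self a := h.dQ_self a
  dist_comm a a' := dQ_comm a a'
  dist_triangle a b c := h.dQ_triangle hQ a b c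

/-- union with a fixed family does not increase the distance -/
lemma Far.dQ_union_le (h : Far K R ρ) {Q' : Set ℂ} (hQ : Q ⊆ lev K 0) (hQ' : Q' ⊆ Q)
    {a a' : SQ K Q'} {b b' : SQ K Q} {T : Set (Set ℂ)} (hT : NS K Q T)
    (hTd : ∀ P ∈ T, Disjoint P Q') (hb : b.1 = T ∪ a.1) (hb' : b'.1 = T ∪ a'.1) :
    dQ K Q ρ b b' ≤ dQ K Q' ρ a a' := by
  refine h.dQ_le fun O z => ?_
  have hO : NS K (lev K 0) (O.1 ∪ T) ∧ ∀ P ∈ O.1 ∪ T, Disjoint P Q' := by
    refine ⟨ns_union hQ hT O.2.1 O.2.2, ?_⟩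
    rintro P (hP | hP)
    · exact (O.2.2 P hP).mono_right hQ'
    · exact hTd P hP
  have := h.le_dQ (hQ'.trans hQ) a a' ⟨O.1 ∪ T, hO⟩ z
  rw [hb, hb', ← union_assoc, ← union_assoc]
  exact this

end Vale.Agent.P116.Slow
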