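import Mathlib
import Vale.Agent.P116.Slow.Def

/-!
The families `ES K PP idx δ T Q` of structures inside `Q`: pieces are nondegenerate components or
small nodes of components in `PP`; all components in `T` are covered.
-/

open Set Filter Topology Metric Bornology

namespace Vale.Agent.P116.Slow

open H906 PBC

variable {K Q R : Set ℂ} {PP : Set (Set ℂ)} {idx : Set ℂ → ℕ} {δ δ' : ℝ} {T T' : Set (Set ℂ)}
  {S : Set (Set ℂ)}

/-! ### structures -/

theorem ns_rs (h : NS K Q S) (R : Set ℂ) : NS K R (rs R S) where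
  fin := h.fin.subset fun _ h => h.1
  pc A hA := h.pc A hA.1
  disj A hA A' hA' := h.disj A hA.1 A' hA'.1
  sub _ hA := hA.2

/-- children of a node of level `n` -/
def chn (K : Set ℂ) (n : ℕ) (Q : Set ℂ) : Set (Set ℂ) := {R | R ∈ nodes K (n + 1) ∧ R ⊆ Q}

lemma finite_chn (hK : IsCompact K) (n : ℕ) (Q : Set ℂ) : (chn K n Q).Finite :=
  (finite_nodes hK (n + 1)).subset fun _ h => h.1

lemma nd_mem_chn {n : ℕ} {x y : ℂ} (hy : y ∈ K) (hyx : y ∈ nd K n x) :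
    nd K (n + 1) y ∈ chn K n (nd K n x) :=
  ⟨⟨y, hy, rfl⟩, nd_eq hyx ▸ nd_anti (Nat.le_succ n)⟩

lemma comp_subset_nd {p : Set ℂ} (hp : p ∈ comps K) {y : ℂ} (hy : y ∈ p) (n : ℕ) :
    p ⊆ nd K n y := by
  rw [comps_eq hp hy]
  exact connectedComponentIn_mono _ (subset_lev n)

lemma comps_subset {p : Set ℂ} (hp : p ∈ comps K) : p ⊆ K := by
  obtain ⟨x, _, rfl⟩ := hp
  exact connectedComponentIn_subset _ _

lemma comps_nonempty {p : Set ℂ} (hp : p ∈ comps K) : p.Nonempty := by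
  obtain ⟨x, hx, rfl⟩ := hp
  exact ⟨x, mem_connectedComponentIn hx⟩

lemma comps_disjoint {p q : Set ℂ} (hp : p ∈ comps K) (hq : q ∈ comps K) (hne : p ≠ q) :
    Disjoint p q := by
  rw [disjoint_left]
  intro x hx hx'
  exact hne ((comps_eq hp hx).trans (comps_eq hq hx').symm)

/-- a component meeting a node is inside it -/
lemma comp_subset_node {p : Set ℂ} (hp : p ∈ comps K) {n : ℕ} {x : ℂ}
    (h : (p ∩ nd K n x).Nonempty) : p ⊆ nd K n x := by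
  obtain ⟨y, hy, hyx⟩ := h
  exact (comp_subset_nd hp hy n).trans (nd_eq hyx).subset

/-- a node meeting a node of smaller level is inside it -/
lemma nd_subset_node {m n : ℕ} (h : n ≤ m) {x y : ℂ} (hne : (nd K m y ∩ nd K n x).Nonempty) :
    nd K m y ⊆ nd K n x := by
  obtain ⟨z, hz, hzx⟩ := hne
  rw [← nd_eq hz, ← nd_eq hzx]
  exact nd_anti h

/-- a node is not a component -/
lemma nd_notMem_comps (hK : IsCompact K) {n : ℕ} {x : ℂ} (hx : x ∈ K) : nd K n x ∉ comps K := by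
  intro h
  have h1 : nd K n x ⊆ K := comps_subset h
  have h2 : frontier (nd K n x) = ∅ := by
    rw [← subset_empty_iff]
    intro z hz
    have h3 : z ∈ nd K n x := by
      have := hz.1
      rwa [(isCompact_nd hK n x).isClosed.closure_eq] at this
    exact disjoint_left.1 (frontier_nd_disjoint n x) hz (h1 h3)
  rcases frontier_eq_empty_iff.1 h2 with h4 | h4
  · have := mem_nd hx n
    rw [h4] at this
    exact this
  · have h5 := (isCompact_nd hK n x).isBounded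
    rw [h4] at h5
    exact (NormedSpace.unbounded_univ ℝ ℂ) h5

/-- a node is not in a small neighbourhood of a component inside it -/
lemma nd_not_subset_thickening (hK : IsCompact K) {n : ℕ} {x : ℂ} {p : Set ℂ} (hp : p ∈ comps K)
    (hpx : p ⊆ nd K n x) {e : ℝ} (he : e ≤ lr n) : ¬ nd K n x ⊆ thickening e p := by
  intro h
  have hpc := comps_isCompact hK hp
  obtain ⟨z, hz, hmax⟩ := hpc.exists_isMaxOn (comps_nonempty hp) Complex.continuous_re.continuousOn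
  have h1 : z + lr n ∈ nd K n x := by
    refine closedBall_subset_nd (comps_subset hp hz) (hpx hz) ?_
    rw [mem_closedBall, dist_eq_norm, add_sub_cancel_left, Complex.norm_real,
      Real.norm_of_nonneg (lr_pos n).le]
  obtain ⟨w, hw, hwd⟩ := mem_thickening_iff.1 (h h1)
  have h2 : w.re ≤ z.re := hmax hw
  have h3 : lr n ≤ dist (z + (lr n : ℂ)) w := by
    rw [dist_eq_norm]
    refine le_trans ?_ (Complex.re_le_norm _)
    rw [Complex.sub_re, Complex.add_re, Complex.ofReal_re]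
    linarith
  linarith

/-- a piece inside a node, different from it, is in a child -/
lemma pc_subset_child {n : ℕ} {x : ℂ} {A : Set ℂ} (hA : Pc K A)
    (hAx : A ⊆ nd K n x) (hne : A ≠ nd K n x) : ∃ R ∈ chn K n (nd K n x), A ⊆ R := by
  rcases hA with ⟨hA, -⟩ | ⟨m, y, hy, rfl⟩
  · obtain ⟨y, hy⟩ := comps_nonempty hA
    exact ⟨_, nd_mem_chn (comps_subset hA hy) (hAx hy), comp_subset_nd hA hy _⟩
  · have hyx : y ∈ nd K n x := hAx (mem_nd hy m)
    refine ⟨_, nd_mem_chn hy hyx, nd_anti ?_⟩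
    by_contra hmn
    refine hne (hAx.antisymm ?_)
    rw [← nd_eq hyx]
    exact nd_anti (by omega)

lemma node_disjoint {n : ℕ} {R R' : Set ℂ} (hR : R ∈ nodes K n) (hR' : R' ∈ nodes K n)
    (hne : R ≠ R') : Disjoint R R' := by
  rw [disjoint_left]
  intro z hz hz'
  exact hne (nodes_disj hR hR' ⟨z, hz, hz'⟩)

lemma chn_disjoint {n : ℕ} {R R' : Set ℂ} (hR : R ∈ chn K n Q) (hR' : R' ∈ chn K n Q)
    (hne : (R ∩ R').Nonempty) : R = R' := nodes_disj hR.1 hR'.1 hne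

/-- a structure inside a node which does not contain the node is the union of its parts inside
the children -/
theorem eq_iUnion_rs {n : ℕ} {x : ℂ} (h : NS K (nd K n x) S)
    (hne : nd K n x ∉ S) : S = ⋃ R ∈ chn K n (nd K n x), rs R S := by
  ext A
  constructor
  · intro hA
    obtain ⟨R, hR, hAR⟩ := pc_subset_child (h.pc A hA) (h.sub A hA)
      (fun h' => hne (h' ▸ hA))
    exact mem_iUnion₂.2 ⟨R, hR, hA, hAR⟩
  · intro hA
    obtain ⟨R, hR, hAR⟩ := mem_iUnion₂.1 hA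
    exact hAR.1

/-- union of structures inside the children -/
theorem ns_iUnion (hK : IsCompact K) {n : ℕ} {H : Set ℂ → Set (Set ℂ)}
    (h : ∀ R ∈ chn K n Q, NS K R (H R)) : NS K Q (⋃ R ∈ chn K n Q, H R) where
  fin := (finite_chn hK n Q).biUnion fun R hR => (h R hR).fin
  pc A hA := by
    obtain ⟨R, hR, hAR⟩ := mem_iUnion₂.1 hA
    exact (h R hR).pc A hAR
  disj := by
    intro A hA A' hA' hne
    obtain ⟨R, hR, hAR⟩ := mem_iUnion₂.1 hA
    obtain ⟨R', hR', hAR'⟩ := mem_iUnion₂.1 hA'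
    by_cases hRR : R = R'
    · subst hRR
      exact (h R hR).disj A hAR A' hAR' hne
    · rw [disjoint_left]
      intro z hz hz'
      exact hRR (chn_disjoint hR hR' ⟨z, (h R hR).sub A hAR hz, (h R' hR').sub A' hAR' hz'⟩)
  sub A hA := by
    obtain ⟨R, hR, hAR⟩ := mem_iUnion₂.1 hA
    exact ((h R hR).sub A hAR).trans hR.2

theorem rs_iUnion {n : ℕ} {H : Set ℂ → Set (Set ℂ)}
    (h : ∀ R ∈ chn K n Q, NS K R (H R)) (hR : R ∈ chn K n Q) :
    rs R (⋃ R ∈ chn K n Q, H R) = H R := by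
  ext A
  constructor
  · rintro ⟨hA, hAR⟩
    obtain ⟨R', hR', hAR'⟩ := mem_iUnion₂.1 hA
    obtain ⟨z, hz⟩ := ((h R' hR').pc A hAR').nontriv.nonempty
    rwa [chn_disjoint hR hR' ⟨z, hAR hz, (h R' hR').sub A hAR' hz⟩]
  · intro hA
    exact ⟨mem_iUnion₂.2 ⟨R, hR, hA⟩, (h R hR).sub A hA⟩

/-! ### the root -/

lemma pc_subset_node0 {A : Set ℂ} (hA : Pc K A) : ∃ R ∈ nodes K 0, A ⊆ R := by
  rcases hA with ⟨hA, -⟩ | ⟨m, y, hy, rfl⟩
  · obtain ⟨y, hy⟩ := comps_nonempty hA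
    exact ⟨_, ⟨y, comps_subset hA hy, rfl⟩, comp_subset_nd hA hy _⟩
  · exact ⟨_, ⟨y, hy, rfl⟩, nd_anti (Nat.zero_le m)⟩

theorem eq_Un_rs {L : Set ℂ} (h : NS K L S) : S = Un K 0 fun R => rs R S := by
  ext A
  constructor
  · intro hA
    obtain ⟨R, hR, hAR⟩ := pc_subset_node0 (h.pc A hA)
    exact mem_Un.2 ⟨R, hR, hA, hAR⟩
  · intro hA
    obtain ⟨R, hR, hAR⟩ := mem_Un.1 hA
    exact hAR.1

lemma node0_subset {R : Set ℂ} (hR : R ∈ nodes K 0) : R ⊆ lev K 0 := by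
  obtain ⟨x, hx, rfl⟩ := hR
  exact nd_subset 0 x

theorem ns_Un (hK : IsCompact K) {H : Set ℂ → Set (Set ℂ)}
    (h : ∀ R ∈ nodes K 0, NS K R (H R)) : NS K (lev K 0) (Un K 0 H) where
  fin := Un_fin hK h
  pc := Un_pc h
  disj := Un_disj h
  sub A hA := by
    obtain ⟨R, hR, hAR⟩ := mem_Un.1 hA
    exact ((h R hR).sub A hAR).trans (node0_subset hR)

/-! ### merging -/

/-- replace all pieces meeting `Q` by `Q` -/
def mrg (Q : Set ℂ) (S : Set (Set ℂ)) : Set (Set ℂ) := insert Q {A | A ∈ S ∧ Disjoint A Q}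

theorem ns_mrg {L : Set ℂ} (h : NS K L S) (hQ : Pc K Q) (hQL : Q ⊆ L) : NS K L (mrg Q S) where
  fin := (h.fin.subset fun _ h => h.1).insert Q
  pc := by
    rintro A (rfl | hA)
    · exact hQ
    · exact h.pc A hA.1
  disj := by
    rintro A (rfl | hA) A' (rfl | hA') hne
    · exact absurd rfl hne
    · exact hA'.2.symm
    · exact hA.2
    · exact h.disj A hA.1 A' hA'.1 hne
  sub := by
    rintro A (rfl | hA)
    · exact hQL
    · exact h.sub A hA.1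

/-- merging again at a bigger set -/
theorem mrg_mrg {Q' : Set ℂ} (h : Q ⊆ Q') (hne : Q.Nonempty) : mrg Q' (mrg Q S) = mrg Q' S := by
  ext A
  constructor
  · rintro (rfl | ⟨rfl | hA, hd⟩)
    · exact mem_insert _ _
    · obtain ⟨z, hz⟩ := hne
      exact absurd (h hz) (disjoint_left.1 hd hz)
    · exact Or.inr ⟨hA.1, hd⟩
  · rintro (rfl | ⟨hA, hd⟩)
    · exact mem_insert _ _
    · exact Or.inr ⟨Or.inr ⟨hA, hd.mono_right h⟩, hd⟩

/-! ### the distance of unions -/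

/-- the distance, for raw families -/
noncomputable def dd (K Q : Set ℂ) (ρ : ℝ) (S S' : Set (Set ℂ)) : ℝ :=
  ⨆ x : CQ K Q × sphere (0:ℂ) ρ, ‖KM (x.1.1 ∪ S) x.2 - KM (x.1.1 ∪ S') x.2‖

lemma dQ_eq_dd (ρ : ℝ) (a a' : SQ K Q) : dQ K Q ρ a a' = dd K Q ρ a.1 a'.1 := rfl

lemma Far.le_dd {ρ₀ ρ : ℝ} (h : Far K ρ₀ ρ) (hQ : Q ⊆ lev K 0) {S S' : Set (Set ℂ)}
    (hS : NS K Q S) (hS' : NS K Q S') {O : Set (Set ℂ)} (hO : NS K (lev K 0) O)
    (hOQ : ∀ P ∈ O, Disjoint P Q) (z : sphere (0:ℂ) ρ) :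
    ‖KM (O ∪ S) z - KM (O ∪ S') z‖ ≤ dd K Q ρ S S' :=
  h.le_dQ hQ ⟨S, hS⟩ ⟨S', hS'⟩ ⟨O, hO, hOQ⟩ z

/-- union of families inside disjoint sets is 1-Lipschitz for the sum of the distances -/
theorem Far.dd_biUnion {ρ₀ ρ : ℝ} (h : Far K ρ₀ ρ) (C : Finset (Set ℂ))
    {H H' : Set ℂ → Set (Set ℂ)} (hC : ∀ R ∈ C, R ⊆ lev K 0)
    (hd : ∀ R ∈ C, ∀ R' ∈ C, R ≠ R' → Disjoint R R')
    (hH : ∀ R ∈ C, NS K R (H R)) (hH' : ∀ R ∈ C, NS K R (H' R)) {O : Set (Set ℂ)}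
    (hO : NS K (lev K 0) O) (hOC : ∀ P ∈ O, ∀ R ∈ C, Disjoint P R) (z : sphere (0:ℂ) ρ) :
    ‖KM (O ∪ ⋃ R ∈ C, H R) z - KM (O ∪ ⋃ R ∈ C, H' R) z‖ ≤ ∑ R ∈ C, dd K R ρ (H R) (H' R) := by
  classical
  induction C using Finset.induction_on generalizing O with
  | empty => simp
  | @insert R C hRC ih =>
    have e1 : O ∪ ⋃ A ∈ insert R C, H A = (O ∪ ⋃ A ∈ C, H A) ∪ H R := by
      rw [Finset.set_biUnion_insert]
      ac_rfl
    have e2 : O ∪ ⋃ A ∈ insert R C, H' A = (O ∪ H' R) ∪ ⋃ A ∈ C, H' A := by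
      rw [Finset.set_biUnion_insert]
      ac_rfl
    have e3 : (O ∪ ⋃ A ∈ C, H A) ∪ H' R = (O ∪ H' R) ∪ ⋃ A ∈ C, H A := by ac_rfl
    have hR := Finset.mem_insert_self R C
    have hm : ∀ A ∈ C, A ∈ insert R C := fun A hA => Finset.mem_insert_of_mem hA
    have hne : ∀ A ∈ C, A ≠ R := fun A hA h => hRC (h ▸ hA)
    -- the context of `R`
    have hO1 : NS K (lev K 0) (O ∪ ⋃ A ∈ C, H A) := by
      refine ⟨hO.fin.union (C.finite_toSet.biUnion fun A hA => (hH A (hm A hA)).fin), ?_, ?_, ?_⟩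
      · rintro P (hP | hP)
        · exact hO.pc P hP
        · obtain ⟨A, hA, hPA⟩ := mem_iUnion₂.1 hP
          exact (hH A (hm A hA)).pc P hPA
      · rintro P (hP | hP) P' (hP' | hP') hPP
        · exact hO.disj P hP P' hP' hPP
        · obtain ⟨A, hA, hPA⟩ := mem_iUnion₂.1 hP'
          exact (hOC P hP A (hm A hA)).mono_right ((hH A (hm A hA)).sub P' hPA)
        · obtain ⟨A, hA, hPA⟩ := mem_iUnion₂.1 hP
          exact ((hOC P' hP' A (hm A hA)).mono_right ((hH A (hm A hA)).sub P hPA)).symm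
        · obtain ⟨A, hA, hPA⟩ := mem_iUnion₂.1 hP
          obtain ⟨A', hA', hPA'⟩ := mem_iUnion₂.1 hP'
          by_cases hAA : A = A'
          · subst hAA
            exact (hH A (hm A hA)).disj P hPA P' hPA' hPP
          · exact (hd A (hm A hA) A' (hm A' hA') hAA).mono ((hH A (hm A hA)).sub P hPA)
              ((hH A' (hm A' hA')).sub P' hPA')
      · rintro P (hP | hP)
        · exact hO.sub P hP
        · obtain ⟨A, hA, hPA⟩ := mem_iUnion₂.1 hP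
          exact ((hH A (hm A hA)).sub P hPA).trans (hC A (hm A hA))
    have h1 : ∀ P ∈ O ∪ ⋃ A ∈ C, H A, Disjoint P R := by
      rintro P (hP | hP)
      · exact hOC P hP R hR
      · obtain ⟨A, hA, hPA⟩ := mem_iUnion₂.1 hP
        exact (hd A (hm A hA) R hR (hne A hA)).mono_left ((hH A (hm A hA)).sub P hPA)
    have h2 := h.le_dd (hC R hR) (hH R hR) (hH' R hR) hO1 h1 z
    have hO2 : NS K (lev K 0) (O ∪ H' R) :=
      ns_union (hC R hR) (hH' R hR) hO fun P hP => hOC P hP R hR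
    have h3 := ih (fun A hA => hC A (hm A hA)) (fun A hA A' hA' => hd A (hm A hA) A' (hm A' hA'))
      (fun A hA => hH A (hm A hA)) (fun A hA => hH' A (hm A hA)) hO2 (by
        rintro P (hP | hP) A hA
        · exact hOC P hP A (hm A hA)
        · exact (hd A (hm A hA) R hR (hne A hA)).symm.mono_left ((hH' R hR).sub P hP))
    rw [Finset.sum_insert hRC, e1, e2]
    have e4 : KM ((O ∪ ⋃ A ∈ C, H A) ∪ H R) z - KM ((O ∪ H' R) ∪ ⋃ A ∈ C, H' A) z =
        (KM ((O ∪ ⋃ A ∈ C, H A) ∪ H R) z - KM ((O ∪ ⋃ A ∈ C, H A) ∪ H' R) z) +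
        (KM ((O ∪ H' R) ∪ ⋃ A ∈ C, H A) z - KM ((O ∪ H' R) ∪ ⋃ A ∈ C, H' A) z) := by
      rw [e3]
      ring
    rw [e4]
    exact (norm_add_le _ _).trans (add_le_add h2 h3)

theorem Far.dd_nonneg {ρ₀ ρ : ℝ} (h : Far K ρ₀ ρ) (hQ : Q ⊆ lev K 0) {S S' : Set (Set ℂ)}
    (hS : NS K Q S) (hS' : NS K Q S') : 0 ≤ dd K Q ρ S S' :=
  h.dQ_nonneg hQ ⟨S, hS⟩ ⟨S', hS'⟩

/-- **join over the children is 1-Lipschitz** -/
theorem Far.dd_chn {ρ₀ ρ : ℝ} (h : Far K ρ₀ ρ) {n : ℕ} (hQ : Q ⊆ lev K 0)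
    {H H' : Set ℂ → Set (Set ℂ)}
    (hH : ∀ R ∈ chn K n Q, NS K R (H R)) (hH' : ∀ R ∈ chn K n Q, NS K R (H' R)) :
    dd K Q ρ (⋃ R ∈ chn K n Q, H R) (⋃ R ∈ chn K n Q, H' R) ≤
      ∑ R ∈ (finite_chn h.cpt n Q).toFinset, dd K R ρ (H R) (H' R) := by
  have := h.nonempty (Q := Q)
  refine ciSup_le fun x => ?_
  have h1 := h.dd_biUnion (finite_chn h.cpt n Q).toFinset (H := H) (H' := H')
    (fun R hR => (((finite_chn h.cpt n Q).mem_toFinset.1 hR).2).trans hQ)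
    (fun R hR R' hR' hne => node_disjoint ((finite_chn h.cpt n Q).mem_toFinset.1 hR).1
      ((finite_chn h.cpt n Q).mem_toFinset.1 hR').1 hne)
    (fun R hR => hH R ((finite_chn h.cpt n Q).mem_toFinset.1 hR))
    (fun R hR => hH' R ((finite_chn h.cpt n Q).mem_toFinset.1 hR)) x.1.2.1
    (fun P hP R hR => (x.1.2.2 P hP).mono_right ((finite_chn h.cpt n Q).mem_toFinset.1 hR).2) x.2
  simpa only [Set.Finite.mem_toFinset] using h1

/-- join at the root -/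
theorem Far.dd_Un {ρ₀ ρ : ℝ} (h : Far K ρ₀ ρ) {H H' : Set ℂ → Set (Set ℂ)}
    (hH : ∀ R ∈ nodes K 0, NS K R (H R)) (hH' : ∀ R ∈ nodes K 0, NS K R (H' R))
    (z : sphere (0:ℂ) ρ) :
    ‖KM (Un K 0 H) z - KM (Un K 0 H') z‖ ≤
      ∑ R ∈ (finite_nodes h.cpt 0).toFinset, dd K R ρ (H R) (H' R) := by
  have h1 := h.dd_biUnion (finite_nodes h.cpt 0).toFinset (H := H) (H' := H') (O := ∅)
    (fun R hR => node0_subset ((finite_nodes h.cpt 0).mem_toFinset.1 hR))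
    (fun R hR R' hR' hne => node_disjoint ((finite_nodes h.cpt 0).mem_toFinset.1 hR)
      ((finite_nodes h.cpt 0).mem_toFinset.1 hR') hne)
    (fun R hR => hH R ((finite_nodes h.cpt 0).mem_toFinset.1 hR))
    (fun R hR => hH' R ((finite_nodes h.cpt 0).mem_toFinset.1 hR)) ns_empty
    (fun P hP => hP.elim) z
  simp only [Set.Finite.mem_toFinset, empty_union] at h1
  exact h1

/-! ### small structures -/

/-- small pieces: nondegenerate components, or nodes `nd K m x`, `x ∈ p ∈ PP`, in the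
`δ / 2 ^ idx p`-neighbourhood of `p` -/
def PcS (K : Set ℂ) (PP : Set (Set ℂ)) (idx : Set ℂ → ℕ) (δ : ℝ) (A : Set ℂ) : Prop :=
  (A ∈ comps K ∧ A.Nontrivial) ∨
    ∃ p ∈ PP, ∃ m, ∃ x ∈ p, A = nd K m x ∧ A ⊆ thickening (δ / 2 ^ idx p) p

/-- the family `E t Q`, `t = (δ, T)` -/
structure ES (K : Set ℂ) (PP : Set (Set ℂ)) (idx : Set ℂ → ℕ) (δ : ℝ) (T : Set (Set ℂ))
    (Q : Set ℂ) (S : Set (Set ℂ)) : Prop where
  ns : NS K Q S
  sm : ∀ A ∈ S, PcS K PP idx δ A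
  cov : ∀ q ∈ T, q ⊆ Q → ∃ A ∈ S, q ⊆ A

lemma PcS.mono (h : PcS K PP idx δ R) (hd : δ ≤ δ') : PcS K PP idx δ' R := by
  rcases h with h | ⟨p, hp, m, x, hx, rfl, h⟩
  · exact Or.inl h
  · refine Or.inr ⟨p, hp, m, x, hx, rfl, h.trans (thickening_mono ?_ _)⟩
    gcongr

lemma ES.mono (h : ES K PP idx δ T Q S) (hd : δ ≤ δ') (hT : T' ⊆ T) :
    ES K PP idx δ' T' Q S where
  ns := h.ns
  sm := fun A hA => (h.sm A hA).mono hd
  cov := fun q hq hqQ => h.cov q (hT hq) hqQ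

lemma PcS.pc (hPP : PP ⊆ comps K) (h : PcS K PP idx δ R) : Pc K R := by
  rcases h with h | ⟨p, hp, m, x, hx, rfl, h⟩
  · exact Or.inl h
  · exact Or.inr ⟨m, x, comps_subset (hPP hp) hx, rfl⟩

/-- small pieces are in deep levels -/
lemma PcS.subset_lev (hPP : PP ⊆ comps K) (h : PcS K PP idx δ R) (hδ : 0 ≤ δ) {n : ℕ}
    (hn : δ ≤ lr n) : R ⊆ lev K n := by
  rcases h with ⟨h, -⟩ | ⟨p, hp, m, x, hx, rfl, h⟩
  · exact (comps_subset h).trans (H906.subset_lev n)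
  · have h1 : δ / 2 ^ idx p ≤ lr n :=
      (div_le_self hδ (one_le_pow₀ (by norm_num))).trans hn
    refine h.trans ((thickening_mono h1 _).trans ((thickening_subset_cthickening _ _).trans ?_))
    exact (cthickening_subset_of_subset _ (comps_subset (hPP hp))).trans (subset_fil _)

/-- (nonempty) -/
theorem es_nonempty (hT : T.Finite) (hTc : ∀ q ∈ T, q ∈ comps K ∧ q.Nontrivial) (Q : Set ℂ) :
    ES K PP idx δ T Q {q | q ∈ T ∧ q ⊆ Q} where
  ns :=
    { fin := hT.subset fun _ h => h.1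
      pc := fun A hA => Or.inl (hTc A hA.1)
      disj := fun A hA A' hA' hne => comps_disjoint (hTc A hA.1).1 (hTc A' hA'.1).1 hne
      sub := fun _ hA => hA.2 }
  sm := fun A hA => Or.inl (hTc A hA.1)
  cov := fun q hq hqQ => ⟨q, ⟨hq, hqQ⟩, Subset.rfl⟩

/-- (E1) -/
theorem es_iUnion (hK : IsCompact K) (hTc : ∀ q ∈ T, q ∈ comps K) {n : ℕ} {x : ℂ}
    {H : Set ℂ → Set (Set ℂ)} (h : ∀ R ∈ chn K n (nd K n x), ES K PP idx δ T R (H R)) :
    ES K PP idx δ T (nd K n x) (⋃ R ∈ chn K n (nd K n x), H R) where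
  ns := ns_iUnion hK fun R hR => (h R hR).ns
  sm A hA := by
    obtain ⟨R, hR, hAR⟩ := mem_iUnion₂.1 hA
    exact (h R hR).sm A hAR
  cov q hq hqQ := by
    obtain ⟨y, hy⟩ := comps_nonempty (hTc q hq)
    have h1 := nd_mem_chn (comps_subset (hTc q hq) hy) (hqQ hy)
    obtain ⟨A, hA, hqA⟩ := (h _ h1).cov q hq (comp_subset_nd (hTc q hq) hy _)
    exact ⟨A, mem_iUnion₂.2 ⟨_, h1, hA⟩, hqA⟩

/-- (E1) at the root -/
theorem es_Un (hK : IsCompact K) (hTc : ∀ q ∈ T, q ∈ comps K)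
    {H : Set ℂ → Set (Set ℂ)} (h : ∀ R ∈ nodes K 0, ES K PP idx δ T R (H R)) :
    ES K PP idx δ T (lev K 0) (Un K 0 H) where
  ns := ns_Un hK fun R hR => (h R hR).ns
  sm A hA := by
    obtain ⟨R, hR, hAR⟩ := mem_Un.1 hA
    exact (h R hR).sm A hAR
  cov q hq _ := by
    obtain ⟨y, hy⟩ := comps_nonempty (hTc q hq)
    have h1 : nd K 0 y ∈ nodes K 0 := ⟨y, comps_subset (hTc q hq) hy, rfl⟩
    obtain ⟨A, hA, hqA⟩ := (h _ h1).cov q hq (comp_subset_nd (hTc q hq) hy _)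
    exact ⟨A, mem_Un.2 ⟨_, h1, hA⟩, hqA⟩

/-- (E2) at the root -/
theorem ES.rs0 (hTc : ∀ q ∈ T, q ∈ comps K) (h : ES K PP idx δ T (lev K 0) S)
    (hR : R ∈ nodes K 0) : ES K PP idx δ T R (rs R S) where
  ns := ns_rs h.ns R
  sm A hA := h.sm A hA.1
  cov q hq hqR := by
    obtain ⟨A, hA, hqA⟩ := h.cov q hq (hqR.trans (node0_subset hR))
    obtain ⟨R', hR', hAR'⟩ := pc_subset_node0 (h.ns.pc A hA)
    obtain ⟨y, hy⟩ := comps_nonempty (hTc q hq)
    have : R' = R := nodes_disj hR' hR ⟨y, hAR' (hqA hy), hqR hy⟩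
    exact ⟨A, ⟨hA, this ▸ hAR'⟩, hqA⟩

/-- deep structures do not contain the node -/
theorem ES.nd_notMem (hK : IsCompact K) (hPP : PP ⊆ comps K) {n : ℕ} {x : ℂ} (hx : x ∈ K)
    (hδ : 0 ≤ δ) (hn : δ ≤ lr n) (h : ES K PP idx δ T (nd K n x) S) : nd K n x ∉ S := by
  intro hmem
  rcases h.sm _ hmem with ⟨h1, -⟩ | ⟨p, hp, m, y, hy, heq, hth⟩
  · exact nd_notMem_comps hK hx h1
  · have h1 : δ / 2 ^ idx p ≤ lr n :=
      (div_le_self hδ (one_le_pow₀ (by norm_num))).trans hn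
    refine nd_not_subset_thickening hK (hPP hp) ?_ h1 hth
    rw [heq]
    exact comp_subset_nd (hPP hp) hy m

/-- (E2) restriction to a child -/
theorem ES.rs (hK : IsCompact K) (hPP : PP ⊆ comps K) (hTc : ∀ q ∈ T, q ∈ comps K)
    {n : ℕ} {x : ℂ} (hx : x ∈ K) (hδ : 0 ≤ δ) (hn : δ ≤ lr n)
    (h : ES K PP idx δ T (nd K n x) S) (hR : R ∈ chn K n (nd K n x)) :
    ES K PP idx δ T R (rs R S) where
  ns := ns_rs h.ns R
  sm A hA := h.sm A hA.1
  cov q hq hqR := by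
    obtain ⟨A, hA, hqA⟩ := h.cov q hq (hqR.trans hR.2)
    obtain ⟨R', hR', hAR'⟩ := pc_subset_child (h.ns.pc A hA) (h.ns.sub A hA)
      (fun h' => h.nd_notMem hK hPP hx hδ hn (h' ▸ hA))
    obtain ⟨y, hy⟩ := comps_nonempty (hTc q hq)
    have : R' = R := chn_disjoint hR' hR ⟨y, hAR' (hqA hy), hqR hy⟩
    exact ⟨A, ⟨hA, this ▸ hAR'⟩, hqA⟩

/-- (E2) -/
theorem ES.exists_join (hK : IsCompact K) (hPP : PP ⊆ comps K) (hTc : ∀ q ∈ T, q ∈ comps K)
    {n : ℕ} {x : ℂ} (hx : x ∈ K) (hδ : 0 ≤ δ) (hn : δ ≤ lr n)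
    (h : ES K PP idx δ T (nd K n x) S) :
    ∃ H : Set ℂ → Set (Set ℂ), (∀ R ∈ chn K n (nd K n x), ES K PP idx δ T R (H R)) ∧
      S = ⋃ R ∈ chn K n (nd K n x), H R :=
  ⟨fun R => PBC.rs R S, fun _ hR => h.rs hK hPP hTc hx hδ hn hR,
    eq_iUnion_rs h.ns (h.nd_notMem hK hPP hx hδ hn)⟩

/-- (E3) -/
theorem es_singleton (hK : IsCompact K) (hf : H906.Full K) (hPP : PP ⊆ comps K)
    {p : Set ℂ} (hp : p ∈ PP) {x : ℂ} (hx : x ∈ p) (hδ : 0 < δ) :
    ∃ m₀, ∀ m ≥ m₀, ES K PP idx δ T (nd K m x) {nd K m x} := by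
  have hxK : x ∈ K := comps_subset (hPP hp) hx
  have hpos : 0 < δ / 2 ^ idx p := by positivity
  obtain ⟨m₀, hm₀⟩ := exists_nd_subset hK hf hxK (W := thickening (δ / 2 ^ idx p) p)
    isOpen_thickening (by
      rw [← comps_eq (hPP hp) hx]
      exact self_subset_thickening hpos p)
  refine ⟨m₀, fun m hm => ⟨⟨finite_singleton _, ?_, ?_, ?_⟩, ?_, ?_⟩⟩
  · rintro _ rfl
    exact Or.inr ⟨m, x, hxK, rfl⟩
  · rintro _ rfl _ rfl hne
    exact absurd rfl hne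
  · rintro _ rfl
    exact Subset.rfl
  · rintro _ rfl
    exact Or.inr ⟨p, hp, m, x, hx, rfl, (nd_anti hm).trans hm₀⟩
  · exact fun q _ hq => ⟨_, rfl, hq⟩

/-- (excess) every piece is a small neighbourhood of a component; the sizes are summable -/
theorem ES.excess (hPP : PP ⊆ comps K) (hidx : InjOn idx PP) (hδ : 0 ≤ δ)
    (h : ES K PP idx δ T Q S) : ∃ (p : Set ℂ → Set ℂ) (e : Set ℂ → ℝ),
      (∀ A ∈ S, p A ∈ comps K ∧ p A ⊆ A ∧ 0 ≤ e A ∧ A ⊆ cthickening (e A) (p A) ∧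
        (p A ∈ PP ∨ (p A = A ∧ e A = 0 ∧ A.Nontrivial))) ∧
      InjOn p S ∧ ∀ F : Finset (Set ℂ), (↑F : Set (Set ℂ)) ⊆ S → ∑ A ∈ F, e A ≤ 2 * δ := by
  classical
  have key : ∀ A : Set ℂ, ∃ (q : Set ℂ) (t : ℝ), A ∈ S → q ∈ comps K ∧ q ⊆ A ∧ 0 ≤ t ∧
      A ⊆ cthickening t q ∧ ((q ∈ PP ∧ t = δ / 2 ^ idx q) ∨ (q = A ∧ t = 0 ∧ A.Nontrivial)) := by
    intro A
    by_cases hA : A ∈ S
    · rcases h.sm A hA with ⟨h1, h2⟩ | ⟨q, hq, m, y, hy, rfl, hth⟩
      · exact ⟨A, 0, fun _ => ⟨h1, Subset.rfl, le_rfl, self_subset_cthickening _,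
          Or.inr ⟨rfl, rfl, h2⟩⟩⟩
      · exact ⟨q, δ / 2 ^ idx q, fun _ => ⟨hPP hq, comp_subset_nd (hPP hq) hy m, by positivity,
          hth.trans (thickening_subset_cthickening _ _), Or.inl ⟨hq, rfl⟩⟩⟩
    · exact ⟨∅, 0, fun h => absurd h hA⟩
  choose p e hpe using key
  have hinj : InjOn p S := by
    intro A hA A' hA' hpp
    by_contra hne
    obtain ⟨z, hz⟩ := comps_nonempty (hpe A hA).1
    exact disjoint_left.1 (h.ns.disj A hA A' hA' hne) ((hpe A hA).2.1 hz)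
      ((hpe A' hA').2.1 (hpp ▸ hz))
  refine ⟨p, e, fun A hA => ?_, hinj, fun F hF => ?_⟩
  · obtain ⟨h1, h2, h3, h4, h5⟩ := hpe A hA
    exact ⟨h1, h2, h3, h4, h5.imp And.left id⟩
  · -- only the pieces with `p A ∈ PP` count
    set F' := F.filter fun A => p A ∈ PP ∧ e A = δ / 2 ^ idx (p A) with hF'
    have h1 : ∑ A ∈ F, e A ≤ ∑ A ∈ F', δ / 2 ^ idx (p A) := by
      have : ∑ A ∈ F', e A = ∑ A ∈ F, e A := by
        refine Finset.sum_subset (Finset.filter_subset _ _) fun A hA hA' => ?_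
        obtain ⟨-, -, -, -, h5⟩ := hpe A (hF hA)
        rcases h5 with h5 | h5
        · exact absurd (Finset.mem_filter.2 ⟨hA, h5⟩) hA'
        · exact h5.2.1
      rw [← this]
      exact Finset.sum_le_sum fun A hA => (Finset.mem_filter.1 hA).2.2.le
    refine h1.trans ?_
    have hinj' : Set.InjOn (fun A => idx (p A)) (F' : Set (Set ℂ)) := by
      intro A hA A' hA' hAA
      have hA1 := Finset.mem_filter.1 (Finset.mem_coe.1 hA)
      have hA1' := Finset.mem_filter.1 (Finset.mem_coe.1 hA')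
      exact hinj (hF hA1.1) (hF hA1'.1) (hidx hA1.2.1 hA1'.2.1 hAA)
    have h2 : ∑ A ∈ F', δ / 2 ^ idx (p A) = δ * ∑ i ∈ F'.image (fun A => idx (p A)),
        (1 / 2 : ℝ) ^ i := by
      rw [Finset.sum_image (fun A hA A' hA' h => hinj' hA hA' h), Finset.mul_sum]
      refine Finset.sum_congr rfl fun A _ => ?_
      rw [one_div, inv_pow, div_eq_mul_inv]
    rw [h2]
    have h3 : ∑ i ∈ F'.image (fun A => idx (p A)), (1 / 2 : ℝ) ^ i ≤ 2 := by
      have := Summable.sum_le_tsum (F'.image fun A => idx (p A)) (fun i _ => by positivity)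
        summable_geometric_two
      rwa [tsum_geometric_two] at this
    nlinarith

end Vale.Agent.P116.Slow
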