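import Mathlib
import Vale.Agent.P116.Slow.E

/-!
The tree of nodes, with the spaces of structures, joins and the small structures.
-/

open Set Filter Topology Metric Bornology

namespace Vale.Agent.P116.Slow

open H906 PBC

/-- nodes of tree level `n`: the root is `lev K 0`, then the nodes of `K` -/
def nods (K : Set ℂ) : ℕ → Set (Set ℂ)
  | 0 => {lev K 0}
  | n + 1 => nodes K n

/-- the tree -/
def Tn (K : Set ℂ) : Type := {q : ℕ × Set ℂ // q.2 ∈ nods K q.1}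

variable {K : Set ℂ}

/-- level -/
def Tn.lv (q : Tn K) : ℕ := q.1.1

/-- the underlying set -/
def Tn.st (q : Tn K) : Set ℂ := q.1.2

lemma Tn.mem (q : Tn K) : q.st ∈ nods K q.lv := q.2

lemma Tn.ext' {q q' : Tn K} (h1 : q.lv = q'.lv) (h2 : q.st = q'.st) : q = q' :=
  Subtype.ext (Prod.ext h1 h2)

/-- the root -/
def rt (K : Set ℂ) : Tn K := ⟨(0, lev K 0), rfl⟩

@[simp] lemma rt_lv : (rt K).lv = 0 := rfl
@[simp] lemma rt_st : (rt K).st = lev K 0 := rfl

/-- the node of tree level `n + 1` at `x` -/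
def nt (n : ℕ) {x : ℂ} (hx : x ∈ K) : Tn K := ⟨(n + 1, nd K n x), ⟨x, hx, rfl⟩⟩

@[simp] lemma nt_lv (n : ℕ) {x : ℂ} (hx : x ∈ K) : (nt n hx).lv = n + 1 := rfl
@[simp] lemma nt_st (n : ℕ) {x : ℂ} (hx : x ∈ K) : (nt n hx).st = nd K n x := rfl

/-- the branch of `x` -/
def br {x : ℂ} (hx : x ∈ K) : ℕ → Tn K
  | 0 => rt K
  | n + 1 => nt n hx

lemma finite_nods (hK : IsCompact K) (n : ℕ) : (nods K n).Finite := by
  cases n with
  | zero => exact finite_singleton _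
  | succ n => exact finite_nodes hK n

lemma nods_sub {n : ℕ} {Q : Set ℂ} (h : Q ∈ nods K n) : Q ⊆ lev K 0 := by
  cases n with
  | zero => exact (mem_singleton_iff.1 h).subset
  | succ n =>
    obtain ⟨x, -, rfl⟩ := h
    exact nd_sub_lev0 n x

lemma nods_nonempty (hne : K.Nonempty) {n : ℕ} {Q : Set ℂ} (h : Q ∈ nods K n) : Q.Nonempty := by
  cases n with
  | zero =>
    rw [mem_singleton_iff.1 h]
    exact hne.mono (H906.subset_lev 0)
  | succ n =>
    obtain ⟨x, hx, rfl⟩ := h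
    exact ⟨x, mem_nd hx n⟩

lemma nods_disj {n : ℕ} {Q Q' : Set ℂ} (h : Q ∈ nods K n) (h' : Q' ∈ nods K n)
    (hne : (Q ∩ Q').Nonempty) : Q = Q' := by
  cases n with
  | zero => exact (mem_singleton_iff.1 h).trans (mem_singleton_iff.1 h').symm
  | succ n => exact nodes_disj h h' hne

lemma countable_Tn (hK : IsCompact K) : Countable (Tn K) := by
  have h1 : ({q : ℕ × Set ℂ | q.2 ∈ nods K q.1}).Countable := by
    have h2 : {q : ℕ × Set ℂ | q.2 ∈ nods K q.1} = ⋃ n, Prod.mk n '' nods K n := by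
      ext ⟨n, Q⟩
      rw [mem_iUnion]
      constructor
      · intro h
        exact ⟨n, Q, h, rfl⟩
      · rintro ⟨i, Q', h, h'⟩
        obtain ⟨rfl, rfl⟩ := Prod.mk.inj h'
        exact h
    rw [h2]
    exact countable_iUnion fun n => ((finite_nods hK n).image _).countable
  exact h1.to_subtype

/-- the children -/
def chs (q : Tn K) : Set (Tn K) := {r | r.lv = q.lv + 1 ∧ r.st ⊆ q.st}

lemma finite_chs (hK : IsCompact K) (q : Tn K) : (chs q).Finite := by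
  refine Set.Finite.of_finite_image (f := Tn.st) ((finite_nods hK (q.lv + 1)).subset ?_) ?_
  · rintro _ ⟨r, ⟨hr, -⟩, rfl⟩
    rw [← hr]
    exact r.mem
  · rintro r ⟨hr, -⟩ r' ⟨hr', -⟩ h
    exact Tn.ext' (hr.trans hr'.symm) h

/-- the finite set of children -/
noncomputable def cht (hK : IsCompact K) (q : Tn K) : Finset (Tn K) := (finite_chs hK q).toFinset

lemma mem_cht (hK : IsCompact K) {q r : Tn K} : r ∈ cht hK q ↔ r.lv = q.lv + 1 ∧ r.st ⊆ q.st := by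
  rw [cht, Set.Finite.mem_toFinset]
  rfl

lemma chs_disj {q r r' : Tn K} (h : r ∈ chs q) (h' : r' ∈ chs q) (hne : (r.st ∩ r'.st).Nonempty) :
    r = r' := by
  have h1 := r.mem
  rw [h.1] at h1
  have h2 := r'.mem
  rw [h'.1] at h2
  exact Tn.ext' (h.1.trans h'.1.symm) (nods_disj h1 h2 hne)

/-- the parent is unique -/
lemma chs_parent (hne : K.Nonempty) {q q' r : Tn K} (h : r ∈ chs q) (h' : r ∈ chs q') : q = q' := by
  obtain ⟨z, hz⟩ := nods_nonempty hne r.mem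
  have h1 : q.lv = q'.lv := by
    have := h.1.symm.trans h'.1
    omega
  have h2 := q'.mem
  rw [← h1] at h2
  exact Tn.ext' h1 (nods_disj q.mem h2 ⟨z, h.2 hz, h'.2 hz⟩)

lemma br_succ_mem {x : ℂ} (hx : x ∈ K) (k : ℕ) : br hx (k + 1) ∈ chs (br hx k) := by
  cases k with
  | zero => exact ⟨rfl, nd_sub_lev0 0 x⟩
  | succ k => exact ⟨rfl, nd_anti (Nat.le_succ k)⟩

lemma br_lv {x : ℂ} (hx : x ∈ K) (k : ℕ) : (br hx k).lv = k := by
  cases k <;> rfl

/-- every piece inside a node which is not the node is in a child -/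
lemma pc_subset_chs {q : Tn K} {A : Set ℂ} (hA : Pc K A) (hAq : A ⊆ q.st) (hne : A ≠ q.st) :
    ∃ r ∈ chs q, A ⊆ r.st := by
  obtain ⟨⟨n, Q⟩, hq⟩ := q
  cases n with
  | zero =>
    obtain ⟨R, ⟨x, hx, rfl⟩, hAR⟩ := pc_subset_node0 hA
    refine ⟨nt 0 hx, ⟨rfl, ?_⟩, hAR⟩
    have : Q = lev K 0 := hq
    subst this
    exact nd_sub_lev0 0 x
  | succ n =>
    obtain ⟨x, hx, hxQ⟩ := hq
    have hxQ' : nd K n x = Q := hxQ
    subst hxQ'
    obtain ⟨R, ⟨⟨y, hy, rfl⟩, hRx⟩, hAR⟩ := pc_subset_child hA hAq hne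
    exact ⟨nt (n + 1) hy, ⟨rfl, hRx⟩, hAR⟩

/-- components inside a node are inside a child -/
lemma comp_subset_chs {q : Tn K} {p : Set ℂ} (hp : p ∈ comps K) (hpq : p ⊆ q.st) :
    ∃ r ∈ chs q, p ⊆ r.st := by
  obtain ⟨y, hy⟩ := comps_nonempty hp
  have hyK := comps_subset hp hy
  refine ⟨nt q.lv hyK, ⟨rfl, ?_⟩, comp_subset_nd hp hy _⟩
  obtain ⟨⟨n, Q⟩, hq⟩ := q
  cases n with
  | zero =>
    have : Q = lev K 0 := hq
    subst this
    exact nd_sub_lev0 0 y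
  | succ n =>
    obtain ⟨x, hx, hxQ⟩ := hq
    have hxQ' : nd K n x = Q := hxQ
    subst hxQ'
    have h1 : y ∈ nd K n x := hpq hy
    change nd K (n + 1) y ⊆ nd K n x
    rw [← nd_eq h1]
    exact nd_anti (Nat.le_succ n)

/-! ### structures on the tree -/

/-- structures inside a tree node -/
abbrev SN (q : Tn K) : Type := SQ K q.st

/-- union over the children, raw -/
def jn (q : Tn K) (a : ∀ r : Tn K, SN r) : Set (Set ℂ) := ⋃ r ∈ chs q, (a r).1

lemma mem_jn {q : Tn K} {a : ∀ r : Tn K, SN r} {A : Set ℂ} :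
    A ∈ jn q a ↔ ∃ r ∈ chs q, A ∈ (a r).1 := by
  rw [jn, mem_iUnion₂]
  constructor
  · rintro ⟨r, h, h'⟩; exact ⟨r, h, h'⟩
  · rintro ⟨r, h, h'⟩; exact ⟨r, h, h'⟩

lemma ns_jn (hK : IsCompact K) (q : Tn K) (a : ∀ r : Tn K, SN r) : NS K q.st (jn q a) where
  fin := (finite_chs hK q).biUnion fun r _ => (a r).2.fin
  pc A hA := by
    obtain ⟨r, -, hAr⟩ := mem_jn.1 hA
    exact (a r).2.pc A hAr
  disj := by
    intro A hA A' hA' hne
    obtain ⟨r, hr, hAr⟩ := mem_jn.1 hA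
    obtain ⟨r', hr', hAr'⟩ := mem_jn.1 hA'
    by_cases h : r = r'
    · subst h
      exact (a r).2.disj A hAr A' hAr' hne
    · rw [disjoint_left]
      intro z hz hz'
      exact h (chs_disj hr hr' ⟨z, (a r).2.sub A hAr hz, (a r').2.sub A' hAr' hz'⟩)
  sub A hA := by
    obtain ⟨r, hr, hAr⟩ := mem_jn.1 hA
    exact ((a r).2.sub A hAr).trans hr.2

/-- join -/
def join (hK : IsCompact K) (q : Tn K) (a : ∀ r : Tn K, SN r) : SN q := ⟨jn q a, ns_jn hK q a⟩

/-- the join is 1-Lipschitz -/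
theorem Far.dQ_join {R ρ : ℝ} (h : Far K R ρ) (q : Tn K) (a a' : ∀ r : Tn K, SN r) :
    dQ K q.st ρ (join h.cpt q a) (join h.cpt q a') ≤
      ∑ r ∈ cht h.cpt q, dQ K r.st ρ (a r) (a' r) := by
  classical
  -- the families as functions of sets
  set n := q.lv + 1 with hn
  set H : (∀ r : Tn K, SN r) → Set ℂ → Set (Set ℂ) := fun a Q =>
    if hQ : Q ∈ nods K n then (a ⟨(n, Q), hQ⟩).1 else ∅ with hH
  have hHr : ∀ (a : ∀ r : Tn K, SN r) (r : Tn K), r ∈ chs q → H a r.st = (a r).1 := by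
    rintro a ⟨⟨m, Q⟩, hQ⟩ ⟨hr, -⟩
    have hm : m = n := hr
    subst hm
    simp only [hH, Tn.st]
    rw [dif_pos hQ]
  set C : Finset (Set ℂ) := (cht h.cpt q).image Tn.st with hC
  have hCm : ∀ Q ∈ C, ∃ r ∈ chs q, r.st = Q := by
    intro Q hQ
    obtain ⟨r, hr, rfl⟩ := Finset.mem_image.1 hQ
    exact ⟨r, (mem_cht h.cpt).1 hr, rfl⟩
  have hU : ∀ a : ∀ r : Tn K, SN r, (⋃ Q ∈ C, H a Q) = jn q a := by
    intro a
    ext A
    rw [mem_iUnion₂, mem_jn]
    constructor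
    · rintro ⟨Q, hQ, hA⟩
      obtain ⟨r, hr, rfl⟩ := hCm Q hQ
      rw [hHr a r hr] at hA
      exact ⟨r, hr, hA⟩
    · rintro ⟨r, hr, hA⟩
      refine ⟨r.st, Finset.mem_image_of_mem _ ((mem_cht h.cpt).2 hr), ?_⟩
      rwa [hHr a r hr]
  refine h.dQ_le fun O z => ?_
  have h1 := h.dd_biUnion C (H := H a) (H' := H a') (O := O.1)
    (fun Q hQ => by
      obtain ⟨r, hr, rfl⟩ := hCm Q hQ
      exact nods_sub r.mem)
    (fun Q hQ Q' hQ' hne => by
      obtain ⟨r, hr, rfl⟩ := hCm Q hQ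
      obtain ⟨r', hr', rfl⟩ := hCm Q' hQ'
      rw [disjoint_left]
      intro w hw hw'
      exact hne (congrArg Tn.st (chs_disj hr hr' ⟨w, hw, hw'⟩)))
    (fun Q hQ => by
      obtain ⟨r, hr, rfl⟩ := hCm Q hQ
      rw [hHr a r hr]
      exact (a r).2)
    (fun Q hQ => by
      obtain ⟨r, hr, rfl⟩ := hCm Q hQ
      rw [hHr a' r hr]
      exact (a' r).2)
    O.2.1 (fun P hP Q hQ => by
      obtain ⟨r, hr, rfl⟩ := hCm Q hQ
      exact (O.2.2 P hP).mono_right hr.2) z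
  rw [hU a, hU a'] at h1
  refine h1.trans ?_
  rw [hC, Finset.sum_image]
  · refine Finset.sum_le_sum fun r hr => ?_
    rw [hHr a r ((mem_cht h.cpt).1 hr), hHr a' r ((mem_cht h.cpt).1 hr)]
    exact le_rfl
  · intro r hr r' hr' h'
    have h1 := (mem_cht h.cpt).1 hr
    have h2 := (mem_cht h.cpt).1 hr'
    exact Tn.ext' (h1.1.trans h2.1.symm) h'

/-! ### small structures on the tree -/

variable {PP : Set (Set ℂ)} {idx : Set ℂ → ℕ} {δ : ℝ} {T : Set (Set ℂ)}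

theorem es_join (hK : IsCompact K) (hTc : ∀ q ∈ T, q ∈ comps K) (q : Tn K)
    {a : ∀ r : Tn K, SN r} (h : ∀ r ∈ chs q, ES K PP idx δ T r.st (a r).1) :
    ES K PP idx δ T q.st (join hK q a).1 where
  ns := ns_jn hK q a
  sm A hA := by
    obtain ⟨r, hr, hAr⟩ := mem_jn.1 hA
    exact (h r hr).sm A hAr
  cov p hp hpq := by
    obtain ⟨r, hr, hpr⟩ := comp_subset_chs (hTc p hp) hpq
    obtain ⟨A, hA, hpA⟩ := (h r hr).cov p hp hpr
    exact ⟨A, mem_jn.2 ⟨r, hr, hA⟩, hpA⟩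

open Classical in
/-- the node itself, as a family (empty at the root) -/
noncomputable def onS (q : Tn K) : Set (Set ℂ) := if Pc K q.st then {q.st} else ∅

lemma ns_onS (q : Tn K) : NS K q.st (onS q) := by
  classical
  by_cases h : Pc K q.st
  · rw [onS, if_pos h]
    exact ⟨finite_singleton _, by rintro _ rfl; exact h, by
      rintro _ rfl _ rfl hne
      exact absurd rfl hne, by rintro _ rfl; exact Subset.rfl⟩
  · rw [onS, if_neg h]
    exact ns_empty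

/-- the node itself, as a structure (empty at the root) -/
noncomputable def on (q : Tn K) : SN q := ⟨onS q, ns_onS q⟩

lemma on_nt (n : ℕ) {x : ℂ} (hx : x ∈ K) : (on (nt n hx)).1 = {nd K n x} := by
  have h : Pc K (nt n hx).st := Or.inr ⟨n, x, hx, rfl⟩
  change onS (nt n hx) = _
  rw [onS, if_pos h]
  rfl

theorem es_on (hK : IsCompact K) (hf : H906.Full K) (hPP : PP ⊆ comps K)
    {p : Set ℂ} (hp : p ∈ PP) {x : ℂ} (hxp : x ∈ p) (hx : x ∈ K) (hδ : 0 < δ) :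
    ∃ m₀, ∀ m ≥ m₀, ES K PP idx δ T (br hx m).st (on (br hx m)).1 := by
  obtain ⟨m₀, hm₀⟩ := es_singleton (T := T) hK hf (idx := idx) hPP hp hxp hδ
  refine ⟨m₀ + 1, fun m hm => ?_⟩
  obtain ⟨m', rfl⟩ : ∃ m', m = m' + 1 := ⟨m - 1, by omega⟩
  change ES K PP idx δ T (nd K m' x) (on (nt m' hx)).1
  rw [on_nt]
  exact hm₀ m' (by omega)

end Vale.Agent.P116.Slow
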