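import Mathlib
import Vale.Agent.P116.Slow.Def
import Vale.Agent.P116.Slow.E
import Vale.Agent.P116.PBC.Two2
import Vale.Agent.P116.PBC.Tr
import Vale.Agent.P116.PBC.SD
import Vale.Agent.P116.PBC.GCM

/-!
Weakly slow points are good.
-/

open Set Filter Topology Metric Bornology
open scoped Real

namespace Vale.Agent.P116.Slow

open H906 PBC

variable {K : Set ℂ}

/-- limits of disks: the limit disk is strictly omitted -/
lemma lt_of_disks {h : FK} {𝔊 : Ultrafilter Str} (hK : IsCompact K) (hf : Full K)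
    (hG : Fine K (𝔊 : Filter Str)) {g : ℂ → ℂ}
    (hg : TendstoLocallyUniformlyOn (kF h) g (𝔊 : Filter Str) Kᶜ)
    {cS : Str → ℂ} {rS : Str → ℝ} {c : ℂ} {r : ℝ} (hc : Tendsto cS 𝔊 (𝓝 c))
    (hr : Tendsto rS 𝔊 (𝓝 r)) (hr0 : ∀ᶠ S in (𝔊 : Filter Str), 0 ≤ rS S)
    (hom : ∀ᶠ S in (𝔊 : Filter Str), ∀ w ∈ closedBall (cS S) (rS S),
      w ∉ kF h S '' ((⋃₀ S.1)ᶜ ∩ Kᶜ)) {z : ℂ} (hz : z ∉ K) : r < ‖g z - c‖ := by
  by_contra hle
  rw [not_lt] at hle
  set w : Str → ℂ := fun S => if ‖g z - cS S‖ ≤ rS S then g z else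
    cS S + ((rS S / ‖g z - cS S‖ : ℝ) : ℂ) * (g z - cS S) with hw
  have hwm : ∀ S, 0 ≤ rS S → w S ∈ closedBall (cS S) (rS S) := by
    intro S hS
    simp only [hw]
    split_ifs with hif
    · rwa [mem_closedBall, dist_eq_norm]
    · rw [mem_closedBall, dist_eq_norm, add_sub_cancel_left, norm_mul, Complex.norm_real,
        Real.norm_of_nonneg (div_nonneg hS (norm_nonneg _))]
      rw [div_mul_cancel₀]
      rw [not_le] at hif
      exact (hS.trans_lt hif).ne'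
  have hwd : ∀ S, 0 ≤ rS S → dist (w S) (g z) ≤ max 0 (‖g z - cS S‖ - rS S) := by
    intro S hS
    simp only [hw]
    split_ifs with hif
    · rw [dist_self]
      exact le_max_left _ _
    · rw [not_le] at hif
      have hpos : 0 < ‖g z - cS S‖ := hS.trans_lt hif
      have hne : (‖g z - cS S‖ : ℂ) ≠ 0 := by exact_mod_cast hpos.ne'
      have e : cS S + ((rS S / ‖g z - cS S‖ : ℝ) : ℂ) * (g z - cS S) - g z =
          -(((‖g z - cS S‖ - rS S) / ‖g z - cS S‖ : ℝ) : ℂ) * (g z - cS S) := by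
        push_cast
        field_simp
        ring
      rw [dist_eq_norm, e, norm_mul, norm_neg, Complex.norm_real,
        Real.norm_of_nonneg (div_nonneg (by linarith) hpos.le), div_mul_cancel₀ _ hpos.ne']
      exact le_max_right _ _
  have hwlim : Tendsto w 𝔊 (𝓝 (g z)) := by
    rw [tendsto_iff_dist_tendsto_zero]
    have h2 : Tendsto (fun S => max 0 (‖g z - cS S‖ - rS S)) 𝔊
        (𝓝 (max 0 (‖g z - c‖ - r))) :=
      (tendsto_const_nhds).max (((tendsto_const_nhds.sub hc).norm).sub hr)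
    rw [max_eq_left (by linarith)] at h2
    refine tendsto_of_tendsto_of_tendsto_of_le_of_le' tendsto_const_nhds h2
      (Eventually.of_forall fun S => dist_nonneg) ?_
    filter_upwards [hr0] with S hS using hwd S hS
  have h3 := omit_of_lim hK hf hG hg hwlim (by
    filter_upwards [hom, hr0] with S h1 h2 using h1 _ (hwm S h2))
  exact h3 ⟨z, hz, rfl⟩

open Classical in
/-- merge as a structure -/
noncomputable def mS (Q : Set ℂ) (S : Str) : Str :=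
  if h : Adm (mrg Q S.1) then ⟨mrg Q S.1, h⟩ else S

lemma mS_val {Q : Set ℂ} {S : Str} (h : Adm (mrg Q S.1)) : (mS Q S).1 = mrg Q S.1 := by
  rw [mS, dif_pos h]

lemma kF_mS {Q : Set ℂ} {S : Str} (h : Adm (mrg Q S.1)) : kF fk (mS Q S) = KM (mrg Q S.1) := by
  rw [mS, dif_pos h, KM, dif_pos h]

theorem ws (hK : IsCompact K) (hf : Full K) {g : ℂ} (hg : g ∈ K) {𝔊 : Ultrafilter Str}
    (hG : Fine K (𝔊 : Filter Str)) (hNS : ∀ᶠ S : Str in (𝔊 : Filter Str), NS K (lev K 0) S.1)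
    {ρ₀ : ℝ} (hρ₀ : 0 < ρ₀) (hρK : sphere (0:ℂ) ρ₀ ⊆ Kᶜ)
    (hslow : ∀ ε > 0, ∀ k₀, ∃ k ≥ k₀, ∀ᶠ S : Str in (𝔊 : Filter Str), ∀ z ∈ sphere (0:ℂ) ρ₀,
      ‖kF fk S z - KM (mrg (nd K k g) S.1) z‖ ≤ ε)
    {φ : ℂ → ℂ} (hφ : TendstoLocallyUniformlyOn (kF fk) φ (𝔊 : Filter Str) Kᶜ) :
    GoodAt fk K (𝔊 : Filter Str) g := by
  classical
  obtain ⟨R, hR, hRK⟩ := lev_bdd hK 0
  set R' := R + 1 with hR'
  have hR'0 : 0 < R' := by positivity
  -- levels
  have hs : ∀ n : ℕ, ∃ k ≥ n, ∀ᶠ S : Str in (𝔊 : Filter Str), ∀ z ∈ sphere (0:ℂ) ρ₀,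
      ‖kF fk S z - KM (mrg (nd K k g) S.1) z‖ ≤ 1 / ((n:ℝ) + 1) := fun n =>
    hslow _ (by positivity) n
  choose k hkn hk using hs
  have hadm : ∀ n, ∀ᶠ S : Str in (𝔊 : Filter Str), Adm (mrg (nd K (k n) g) S.1) := by
    intro n
    filter_upwards [hNS] with S hS
    exact ns_adm hK hf (ns_mrg hS (Or.inr ⟨k n, g, hg, rfl⟩) (nd_sub_lev0 _ _))
  set V : Ultrafilter ℕ := Ultrafilter.of (atTop : Filter ℕ) with hV
  have hVtop : (V : Filter ℕ) ≤ atTop := Ultrafilter.of_le _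
  set 𝔊' : Ultrafilter Str := V.bind fun n => 𝔊.map (mS (nd K (k n) g)) with h𝔊'
  have hev : ∀ p : Str → Prop, (∀ᶠ S in (𝔊' : Filter Str), p S) ↔
      ∀ᶠ n in (V : Filter ℕ), ∀ᶠ S in (𝔊 : Filter Str), p (mS (nd K (k n) g) S) := by
    intro p
    have : (𝔊' : Filter Str) = Filter.bind (V : Filter ℕ)
        (fun n => ((𝔊.map (mS (nd K (k n) g)) : Ultrafilter Str) : Filter Str)) := rfl
    rw [this, Filter.eventually_bind]
    rfl
  have hG' : Fine K (𝔊' : Filter Str) := by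
    intro n
    rw [hev]
    filter_upwards [hVtop (eventually_ge_atTop n)] with m hm
    filter_upwards [hadm m, hG n] with S hS1 hS2 P hP
    rw [mS_val hS1] at hP
    rcases hP with rfl | ⟨hP, -⟩
    · exact (nd_subset _ _).trans (lev_anti (hm.trans (hkn m)))
    · exact hS2 P hP
  have hφ' : TendstoLocallyUniformlyOn (kF fk) φ (𝔊' : Filter Str) Kᶜ := by
    refine lim_of_circle hK hf hG hG' hρ₀ hρK hφ fun z hz => ?_
    rw [Metric.tendsto_nhds]
    intro ε hε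
    rw [hev]
    obtain ⟨N, hN⟩ := exists_nat_one_div_lt (show (0:ℝ) < ε / 2 by positivity)
    filter_upwards [hVtop (eventually_ge_atTop N)] with n hn
    filter_upwards [hadm n, hk n, (Metric.tendsto_nhds.1 (hφ.tendsto_at (hρK hz)) (ε / 2)
      (by positivity))] with S h1 h2 h3
    have h4 := h2 z hz
    rw [kF_mS h1]
    have h5 : 1 / ((n:ℝ) + 1) ≤ 1 / ((N:ℝ) + 1) := by
      have : (N:ℝ) ≤ n := by exact_mod_cast hn
      gcongr
    have h6 := dist_triangle (KM (mrg (nd K (k n) g) S.1) z) (kF fk S z) (φ z)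
    have h7 : dist (KM (mrg (nd K (k n) g) S.1) z) (kF fk S z) =
        ‖kF fk S z - KM (mrg (nd K (k n) g) S.1) z‖ := by
      rw [dist_comm, dist_eq_norm]
    linarith
  have hbd₀ : ∀ 𝔉 : Ultrafilter Str, Fine K (𝔉 : Filter Str) →
      ∀ᶠ S : Str in (𝔉 : Filter Str), (⋃₀ S.1 : Set ℂ) ⊆ closedBall (0:ℂ) R := by
    intro 𝔉 hF
    filter_upwards [hF 0] with S hS
    exact sUnion_subset fun P hP => (hS P hP).trans hRK
  -- the disks
  have hpg : ∀ᶠ S in (𝔊' : Filter Str), ∃ P ∈ S.1, g ∈ P := by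
    rw [hev]
    refine Eventually.of_forall fun n => ?_
    filter_upwards [hadm n] with S hS
    rw [mS_val hS]
    exact ⟨_, mem_insert _ _, mem_nd hg _⟩
  set cS : Str → ℂ := fun S => kc fk S (pg g S) with hcS
  set rS : Str → ℝ := fun S => kr fk S (pg g S) with hrS
  have hr0 : ∀ᶠ S in (𝔊' : Filter Str), 0 ≤ rS S := by
    filter_upwards [hpg] with S hS
    exact ((kmap fk S).rpos _ (pg_mem hS).1).le
  have hbd : ∀ᶠ S in (𝔊' : Filter Str), ‖cS S‖ ≤ 5 * R' ∧ rS S ≤ 5 * R' := by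
    filter_upwards [hpg, hbd₀ 𝔊' hG', hr0] with S hS hS2 hS3
    obtain ⟨hP1, hP2⟩ := pg_mem hS
    have h1 : kT fk S (ball 0 R') ⊆ closedBall 0 (5 * R') :=
      (kmap fk S).Tm_bound S.2 hR'0 (hS2.trans (closedBall_subset_closedBall (by linarith)))
    refine disk_bdd hS3 ?_
    intro w hw
    refine h1 (Or.inr (mem_iUnion₂.2 ⟨pg g S, ⟨hP1, g, ?_, hP2⟩, hw⟩))
    have := hS2 (subset_sUnion_of_mem hP1 hP2)
    rw [mem_closedBall] at this
    rw [mem_ball]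
    linarith
  obtain ⟨c, -, hc⟩ := (isCompact_closedBall (0 : ℂ) (5 * R')).ultrafilter_le_nhds
    (𝔊'.map cS) (by
      rw [le_principal_iff, Ultrafilter.coe_map, Filter.mem_map]
      filter_upwards [hbd] with S hS
      rw [mem_preimage, mem_closedBall, dist_zero_right]
      exact hS.1)
  obtain ⟨r, -, hr⟩ := (isCompact_Icc (a := (0:ℝ)) (b := 5 * R')).ultrafilter_le_nhds
    (𝔊'.map rS) (by
      rw [le_principal_iff, Ultrafilter.coe_map, Filter.mem_map]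
      filter_upwards [hbd, hr0] with S hS hS2
      exact ⟨hS2, hS.2⟩)
  have hc' : Tendsto cS 𝔊' (𝓝 c) := hc
  have hr' : Tendsto rS 𝔊' (𝓝 r) := hr
  have hrr : 0 ≤ r := ge_of_tendsto hr' hr0
  refine ⟨c, r, hrr, ?_, ?_⟩
  swap
  · intro z hz
    have h1 : r < ‖φ z - c‖ := lt_of_disks hK hf hG' hφ' hc' hr' hr0 (by
      filter_upwards [hpg] with S hS w hw
      rintro ⟨z, ⟨hz, -⟩, rfl⟩
      exact (kmap fk S).notMem hz (pg_mem hS).1 hw) hz
    refine ⟨(‖φ z - c‖ - r) / 2, by linarith, ?_⟩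
    exact (((hφ.tendsto_at hz).sub_const c).norm).eventually (lt_mem_nhds (by linarith))
  intro ε hε
  by_contra hbad
  rw [not_exists] at hbad
  obtain ⟨w₀, hw1, hw2, hw3⟩ := exists_w0 hK hf hG hg hφ (cS := fun _ => c) (rS := fun _ => r)
    tendsto_const_nhds tendsto_const_nhds (Eventually.of_forall fun _ => hrr) hε hbad
  set Q := nd K 0 g with hQ
  obtain ⟨δ₁, hδ₁, hQev⟩ := hw2 0
  obtain ⟨m, hm0, hm⟩ : ∃ m : ℕ, 0 < m ∧ π * (5 * R') ^ 2 + 2 * π + 36 + 1 ≤ ε / 8 * √m := by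
    have h1 : Tendsto (fun m : ℕ => ε / 8 * √(m:ℝ)) atTop atTop :=
      (Real.tendsto_sqrt_atTop.comp tendsto_natCast_atTop_atTop).const_mul_atTop (by positivity)
    obtain ⟨m, hm1, hm2⟩ := ((h1.eventually_ge_atTop (π * (5 * R') ^ 2 + 2 * π + 36 + 1)).and
      (eventually_gt_atTop 0)).exists
    exact ⟨m, hm2, hm1⟩
  obtain ⟨ρ, hρ1, hρ2, hρ3⟩ := choose_annuli (K := K) (𝔊 := 𝔊) (g := g) (w₀ := w₀)
    (fun η hη => small_disks hK hf hG hg hw2 hη) hδ₁ m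
  obtain ⟨k₀, hk₀, hmin⟩ := (Finset.range m).exists_min_image ρ ⟨0, by simpa using hm0⟩
  set τ := min (ρ k₀) (ε / 8) with hτ
  have hτ0 : 0 < τ := lt_min (hρ1 k₀).1 (by positivity)
  obtain ⟨z, hzK, hzw⟩ := hw3 τ hτ0
  obtain ⟨N, hN⟩ := exists_notMem_lev hK hf hzK
  set pA : Str → Prop := fun S => ‖kF fk S z - w₀‖ < τ ∧ (⋃₀ S.1 : Set ℂ) ⊆ closedBall (0:ℂ) R ∧
      z ∉ (⋃₀ S.1 : Set ℂ) ∧ (∀ P ∈ S.1, (P ∩ Q).Nonempty → P ⊆ Q) with hpA
  have hA : ∀ 𝔉 : Ultrafilter Str, Fine K (𝔉 : Filter Str) →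
      TendstoLocallyUniformlyOn (kF fk) φ (𝔉 : Filter Str) Kᶜ →
      ∀ᶠ S in (𝔉 : Filter Str), pA S := by
    intro 𝔉 hF hφF
    have h1 : Tendsto (fun S => ‖kF fk S z - w₀‖) 𝔉 (𝓝 ‖φ z - w₀‖) :=
      ((hφF.tendsto_at hzK).sub_const w₀).norm
    filter_upwards [h1.eventually (gt_mem_nhds hzw), hbd₀ 𝔉 hF, hF N, hF 0] with S h2 h3 h4 h5
    refine ⟨h2, h3, ?_, fun P hP hne => hole_in_node hK S h5 hP (by rwa [inter_comm])⟩
    rintro ⟨P, hP, hzP⟩
    exact hN (h4 P hP hzP)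
  have hA' : ∀ᶠ S in (𝔊' : Filter Str), pA S ∧ ‖cS S - c‖ < ε / 8 ∧ |rS S - r| < ε / 8 := by
    filter_upwards [hA 𝔊' hG' hφ', hc'.eventually (ball_mem_nhds c (show 0 < ε / 8 by positivity)),
      hr'.eventually (ball_mem_nhds r (show 0 < ε / 8 by positivity))] with S h1 h2 h3
    refine ⟨h1, ?_, ?_⟩
    · rwa [dist_eq_norm] at h2
    · rwa [Real.dist_eq] at h3
  rw [hev] at hA'
  obtain ⟨n, hn⟩ := hA'.exists
  set L := nd K (k n) g with hL
  have hLQ : L ⊆ Q := nd_anti (Nat.zero_le _)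
  obtain ⟨δ₂, hδ₂, hLev⟩ := hw2 (k n)
  obtain ⟨S, ⟨⟨hA1, hA2, hA3, hA4⟩, hA5, hA6⟩, ⟨hB1, hB2, hB3, hB4⟩, hSadm, hSfine, hBQ, hBL, hBone⟩ :=
    (hn.and ((hA 𝔊 hG hφ).and ((hadm n).and ((hG (k n)).and (hQev.and (hLev.and
      (hρ3 (k n)))))))).exists
  set S' := mS L S with hS'
  have hS'v : S'.1 = mrg L S.1 := mS_val hSadm
  have hLS' : L ∈ S'.1 := by
    rw [hS'v]
    exact mem_insert _ _
  have hpgS' : pg g S' = L := pg_eq hLS' (mem_nd hg _)
  have hJ : ∀ P ∈ S.1, P ∈ S'.1 ∧ Disjoint P L ∨ P ⊆ L := by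
    intro P hP
    by_cases hd : Disjoint P L
    · left
      refine ⟨?_, hd⟩
      rw [hS'v]
      exact Or.inr ⟨hP, hd⟩
    · right
      rw [not_disjoint_iff_nonempty_inter, inter_comm] at hd
      exact hole_in_node hK S hSfine hP hd
  have hJ2 : ∀ P ∈ S'.1, P ⊆ Q → P ∈ S.1 ∨ P = L := by
    intro P hP _
    rw [hS'v] at hP
    rcases hP with h1 | ⟨h1, -⟩
    · exact Or.inr h1
    · exact Or.inl h1
  have hmap := kmap fk S
  have hQR : Q ⊆ ball 0 R' := by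
    intro y hy
    have h1 : y ∈ lev K 0 := nd_subset 0 g hy
    have h2 := hRK h1
    rw [mem_closedBall] at h2
    rw [mem_ball]
    linarith
  have hR2 : closedBall (0:ℂ) R ⊆ closedBall 0 R' := closedBall_subset_closedBall (by linarith)
  have h2ρ : ∀ k, ball w₀ (2 * ρ k) ⊆ ball w₀ δ₁ := fun k => ball_subset_ball (hρ1 k).2
  have hfin := two2 fk S S' (Q := Q) (L := L) hR'0 hQR (hB2.trans hR2) (hA2.trans hR2) hB4 hA4 hLS'
    (fun P hP _ => (hJ P hP).imp And.left id) hJ2 (hBL (mem_ball_self hδ₂)) hm0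
    (fun k _ => (hρ1 k).1) (fun k _ l _ hkl => hρ2 k l hkl)
    (fun k _ => (h2ρ k).trans hBQ)
    (fun P hP _ hPL k hk l hl h1 h2 => by
      rcases hJ P hP with ⟨-, h3⟩ | h3
      · exact hBone P hP h3 k hk l hl h1 h2
      · exact absurd h3 hPL)
    (fun J hJ k _ => pack_round J (fun P hP => hmap.rpos P (hJ P hP))
      (fun P hP P' hP' hne => hmap.disj P (hJ P hP) P' (hJ P' hP') hne) w₀ (hρ1 k).1)
    (ε := ε / 8) (by positivity) hm hB3 hA3 (z := z)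
    (fun k hk => by
      rw [mem_ball, dist_eq_norm]
      exact hB1.trans_le ((min_le_left _ _).trans (hmin k (by simpa using hk))))
  have h4 : kc fk S' L = cS S' := by rw [hcS]; simp only; rw [hpgS']
  have h5 : kr fk S' L = rS S' := by rw [hrS]; simp only; rw [hpgS']
  rw [mem_closedBall, h4, h5, dist_eq_norm] at hfin
  have h6 : ‖w₀ - c‖ ≤ ‖kF fk S' z - w₀‖ + ‖kF fk S' z - cS S'‖ + ‖cS S' - c‖ := by
    have e : w₀ - c = -(kF fk S' z - w₀) + (kF fk S' z - cS S') + (cS S' - c) := by ring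
    rw [e]
    refine (norm_add₃_le).trans ?_
    rw [norm_neg]
  have h7 : τ ≤ ε / 8 := min_le_right _ _
  rw [abs_lt] at hA6
  linarith [hA6.2]

end Vale.Agent.P116.Slow
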