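import Mathlib
import Vale.Agent.P116.H906.Asm
import Vale.Agent.P116.H906.Erm

/-!
The complementary component of the limit domain which corresponds to a good end.
-/

open Set Filter Topology Metric Bornology

namespace Vale.Agent.P116.Slow

open H906

variable {h : FK} {K : Set ℂ} {𝔊 : Ultrafilter Str}

/-- there is a value in the shadow of each end -/
theorem exists_shadow (hK : IsCompact K) (hf : Full K) (hG : Fine K (𝔊 : Filter Str))
    {g : ℂ → ℂ} (hlim : TendstoLocallyUniformlyOn (kF h) g (𝔊 : Filter Str) Kᶜ) {x : ℂ}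
    (hx : x ∈ K) :
    ∃ w, w ∉ g '' Kᶜ ∧ ∀ n, ∀ᶠ S in (𝔊 : Filter Str), w ∈ kT h S (nd K n x) := by
  have hfr : ∀ n, (frontier (nd K n x)).Nonempty := by
    intro n
    by_contra hne
    rw [not_nonempty_iff_eq_empty] at hne
    rcases frontier_eq_empty_iff.1 hne with h4 | h4
    · have := mem_nd hx n
      rw [h4] at this
      exact this
    · have h5 := (isCompact_nd hK n x).isBounded
      rw [h4] at h5
      exact (NormedSpace.unbounded_univ ℝ ℂ) h5
  choose z hzE using hfr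
  obtain ⟨R, hR, hRK⟩ := lev_bdd hK 0
  have hexh : Exh (𝔊 : Filter Str) Kᶜ (fun S : Str => (⋃₀ S.1)ᶜ) (kF h) R := hG.exh hK hf hR hRK
  have hfnu : NU Kᶜ g := hexh.lim_nu hlim
  have hznd : ∀ n, z n ∈ nd K n x := fun n =>
    (isCompact_nd hK n x).isClosed.frontier_subset (hzE n)
  have hzK : ∀ n, z n ∉ K := fun n => disjoint_left.1 (frontier_nd_disjoint n x) (hzE n)
  have hzR : ∀ n, ‖z n‖ ≤ R := by
    intro n
    have h1 : z n ∈ closedBall (0 : ℂ) R := hRK (lev_anti (Nat.zero_le n) (nd_subset n x (hznd n)))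
    rwa [mem_closedBall, dist_zero_right] at h1
  have htail : (closedBall (0 : ℂ) R)ᶜ ⊆ Kᶜ := compl_subset_compl.2 ((subset_lev 0).trans hRK)
  have hfz : ∀ n, g (z n) ∈ closedBall (0 : ℂ) (5 * R) := by
    intro n
    rw [mem_closedBall, dist_zero_right]
    exact hfnu.norm_le hR htail (hzK n) (hzR n)
  set 𝓥 : Ultrafilter ℕ := Ultrafilter.of atTop with h𝓥
  have h𝓥le : (𝓥 : Filter ℕ) ≤ atTop := Ultrafilter.of_le _
  obtain ⟨x', -, hx'⟩ := (isCompact_closedBall (0 : ℂ) R).ultrafilter_le_nhds (𝓥.map z) (by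
    rw [le_principal_iff, Ultrafilter.coe_map, Filter.mem_map]
    exact Eventually.of_forall fun n => by
      show z n ∈ closedBall (0 : ℂ) R
      rw [mem_closedBall, dist_zero_right]
      exact hzR n)
  have hx'' : Tendsto z 𝓥 (𝓝 x') := hx'
  obtain ⟨w₀, -, hw₀⟩ := (isCompact_closedBall (0 : ℂ) (5 * R)).ultrafilter_le_nhds
    (𝓥.map (fun n => g (z n))) (by
      rw [le_principal_iff, Ultrafilter.coe_map, Filter.mem_map]
      exact Eventually.of_forall hfz)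
  have hw₀' : Tendsto (fun n => g (z n)) 𝓥 (𝓝 w₀) := hw₀
  have hxK : x' ∈ K := by
    by_contra hxK
    obtain ⟨n, hn⟩ := exists_notMem_lev hK hf hxK
    have h1 : ∀ᶠ m in (𝓥 : Filter ℕ), z m ∉ lev K n :=
      hx''.eventually ((isClosed_lev n).isOpen_compl.mem_nhds hn)
    have h2 : ∀ᶠ m in (𝓥 : Filter ℕ), n ≤ m := h𝓥le (eventually_ge_atTop n)
    obtain ⟨m, hm1, hm2⟩ := (h1.and h2).exists
    exact hm1 (lev_anti hm2 (nd_subset m x (hznd m)))
  have hw₀K : w₀ ∉ g '' Kᶜ :=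
    cluster_notMem hK.isClosed.isOpen_compl hfnu.diff hfnu.inj (fun h => h hxK) hx''
      (Eventually.of_forall hzK) hw₀'
  refine ⟨w₀, hw₀K, fun n => ?_⟩
  obtain ⟨ξ, hξK, hξ⟩ := exists_node_val hK hf hG hlim hw₀K n
  obtain ⟨δ, hδ, hball⟩ := ball_in_node hK hf hG hlim hw₀K hξ
  have h1 : ∀ᶠ j in (𝓥 : Filter ℕ), g (z j) ∈ ball w₀ δ :=
    hw₀'.eventually (ball_mem_nhds w₀ hδ)
  have h2 : ∀ᶠ j in (𝓥 : Filter ℕ), n ≤ j := h𝓥le (eventually_ge_atTop n)
  obtain ⟨j, hj1, hj2⟩ := (h1.and h2).exists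
  have h3 : ∀ᶠ S in (𝔊 : Filter Str), kF h S (z j) ∈ ball w₀ δ :=
    (hlim.tendsto_at (hzK j)).eventually (isOpen_ball.mem_nhds hj1)
  have h4 : ∀ᶠ S : Str in (𝔊 : Filter Str), Disjoint ({z j} : Set ℂ) (⋃₀ S.1) :=
    hG.disj hK hf isCompact_singleton (disjoint_singleton_left.2 (hzK j))
  obtain ⟨S, ⟨hS1, hS2⟩, hS3⟩ := ((h3.and h4).and hball).exists
  have h5 : z j ∈ nd K n ξ := by
    by_contra h6
    exact (kmap h S).notMem_Tm (disjoint_singleton_left.1 hS2) h6 (hS3 hS1)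
  have h6 : z j ∈ nd K n x := nd_anti hj2 (hznd j)
  have h7 : nd K n ξ = nd K n x := (nd_eq h5).symm.trans (nd_eq h6)
  rw [h7] at hξ
  exact hξ

/-- each omitted value is in the shadow of an end -/
theorem exists_end (hK : IsCompact K) (hf : Full K) (hG : Fine K (𝔊 : Filter Str)) {g : ℂ → ℂ}
    (hg : TendstoLocallyUniformlyOn (kF h) g (𝔊 : Filter Str) Kᶜ) {w : ℂ} (hw : w ∉ g '' Kᶜ) :
    ∃ x ∈ K, ∀ n, ∀ᶠ S in (𝔊 : Filter Str), w ∈ kT h S (nd K n x) := by
  have hnode := exists_node_val hK hf hG hg hw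
  choose ξ hξK hξ using hnode
  have hanti : ∀ n, nd K (n + 1) (ξ (n + 1)) ⊆ nd K n (ξ n) := by
    intro n
    have h1 : nd K (n + 1) (ξ (n + 1)) ⊆ nd K n (ξ (n + 1)) := nd_anti (Nat.le_succ n)
    by_cases heq : nd K n (ξ (n + 1)) = nd K n (ξ n)
    · rw [← heq]
      exact h1
    · exfalso
      obtain ⟨S, ⟨hS1, hS2⟩, hS3⟩ := (((hξ (n + 1)).and (hξ n)).and (hG n)).exists
      exact disjoint_left.1 (kT_nd_disjoint (h := h) hK S hS3 heq) (Tm_mono h1 hS1) hS2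
  obtain ⟨x, hx⟩ : (⋂ n, nd K n (ξ n) ∩ K).Nonempty := by
    refine IsCompact.nonempty_iInter_of_sequence_nonempty_isCompact_isClosed
      (fun n => nd K n (ξ n) ∩ K) (fun n => inter_subset_inter_left _ (hanti n))
      (fun n => ⟨ξ n, mem_nd (hξK n) n, hξK n⟩) ((isCompact_nd hK 0 _).inter_right hK.isClosed)
      (fun n => ((isCompact_nd hK n _).inter_right hK.isClosed).isClosed)
  have hxK : x ∈ K := (mem_iInter.1 hx 0).2
  have hxn : ∀ n, nd K n x = nd K n (ξ n) := fun n => nd_eq (mem_iInter.1 hx n).1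
  exact ⟨x, hxK, fun n => by rw [hxn n]; exact hξ n⟩

/-- the component of a point in the shadow of a good end is its disk -/
theorem comp_of_shadow (hK : IsCompact K) (hf : Full K) (hG : Fine K (𝔊 : Filter Str))
    {g : ℂ → ℂ} (hg : TendstoLocallyUniformlyOn (kF h) g (𝔊 : Filter Str) Kᶜ) {x : ℂ}
    {c : ℂ} {r : ℝ}
    (hG1 : ∀ ε > 0, ∃ n, ∀ᶠ S in (𝔊 : Filter Str), kT h S (nd K n x) ⊆ closedBall c (r + ε))
    (hG2 : ∀ z ∉ K, ∃ δ > 0, ∀ᶠ S in (𝔊 : Filter Str), r + δ < ‖kF h S z - c‖)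
    {w : ℂ} (hw : w ∉ g '' Kᶜ) (hw1 : ∀ n, ∀ᶠ S in (𝔊 : Filter Str), w ∈ kT h S (nd K n x)) :
    w ∈ closedBall c r ∧ closedBall c r ⊆ (g '' Kᶜ)ᶜ ∧
      connectedComponentIn (g '' Kᶜ)ᶜ w = closedBall c r := by
  have hmem : ∀ v, (∀ n, ∀ᶠ S in (𝔊 : Filter Str), v ∈ kT h S (nd K n x)) → v ∈ closedBall c r := by
    intro v hv
    rw [mem_closedBall]
    refine le_of_forall_pos_le_add fun ε hε => ?_
    obtain ⟨n, hn⟩ := hG1 ε hε
    obtain ⟨S, hS1, hS2⟩ := ((hv n).and hn).exists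
    exact hS2 hS1
  have hball : closedBall c r ⊆ (g '' Kᶜ)ᶜ := by
    rintro v hv ⟨z, hz, rfl⟩
    obtain ⟨δ, hδ, hev⟩ := hG2 z hz
    have h1 : Tendsto (fun S => ‖kF h S z - c‖) 𝔊 (𝓝 ‖g z - c‖) :=
      ((hg.tendsto_at hz).sub_const c).norm
    have h2 : r + δ ≤ ‖g z - c‖ := ge_of_tendsto h1 (hev.mono fun S hS => hS.le)
    rw [mem_closedBall, dist_eq_norm] at hv
    linarith
  refine ⟨hmem w hw1, hball, ?_⟩
  apply Subset.antisymm
  · intro v hv
    refine hmem v fun n => ?_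
    set E := connectedComponentIn (g '' Kᶜ)ᶜ w with hE
    have hEsub : E ⊆ (g '' Kᶜ)ᶜ := connectedComponentIn_subset _ _
    -- open sets
    set UU : ℂ → Set ℂ := fun y => {v | ∃ δ > 0, ∀ᶠ S in (𝔊 : Filter Str),
      ball v δ ⊆ kT h S (nd K n y)} with hUU
    have hopen : ∀ y, IsOpen (UU y) := by
      intro y
      rw [Metric.isOpen_iff]
      rintro v ⟨δ, hδ, hv⟩
      refine ⟨δ / 2, by positivity, fun u hu => ⟨δ / 2, by positivity, ?_⟩⟩
      filter_upwards [hv] with S hS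
      refine Subset.trans (ball_subset_ball' ?_) hS
      rw [mem_ball] at hu
      linarith
    have hsep : ∀ y y', nd K n y ≠ nd K n y' → Disjoint (UU y) (UU y') := by
      intro y y' hne
      rw [disjoint_left]
      rintro v ⟨δ, hδ, hv⟩ ⟨δ', hδ', hv'⟩
      obtain ⟨S, ⟨hS1, hS2⟩, hS3⟩ := ((hv.and hv').and (hG n)).exists
      exact disjoint_left.1 (kT_nd_disjoint (h := h) hK S hS3 hne) (hS1 (mem_ball_self hδ))
        (hS2 (mem_ball_self hδ'))
    have hwU : w ∈ UU x := ball_in_node hK hf hG hg hw (hw1 n)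
    have hcov : E ⊆ UU x ∪ ⋃ y ∈ {y | nd K n y ≠ nd K n x}, UU y := by
      intro u hu
      obtain ⟨y, -, hy⟩ := exists_node_val hK hf hG hg (hEsub hu) n
      have hyU : u ∈ UU y := ball_in_node hK hf hG hg (hEsub hu) hy
      by_cases heq : nd K n y = nd K n x
      · left
        simp only [hUU, mem_ofPred_eq] at hyU ⊢
        rwa [heq] at hyU
      · exact Or.inr (mem_iUnion₂.2 ⟨y, heq, hyU⟩)
    have h2 := isPreconnected_iff_subset_of_disjoint.1
      (isPreconnected_connectedComponentIn (F := (g '' Kᶜ)ᶜ) (x := w)) (UU x)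
      (⋃ y ∈ {y | nd K n y ≠ nd K n x}, UU y) (hopen x)
      (isOpen_biUnion fun y _ => hopen y) hcov (by
        rw [eq_empty_iff_forall_notMem]
        rintro u ⟨-, hu1, hu2⟩
        obtain ⟨y, hy, hu3⟩ := mem_iUnion₂.1 hu2
        exact disjoint_left.1 (hsep x y (fun h => hy h.symm)) hu1 hu3)
    rcases h2 with h2 | h2
    · obtain ⟨δ, hδ, hv2⟩ := h2 hv
      filter_upwards [hv2] with S hS using hS (mem_ball_self hδ)
    · exfalso
      obtain ⟨y, hy, hu3⟩ := mem_iUnion₂.1 (h2 (mem_connectedComponentIn hw))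
      exact disjoint_left.1 (hsep x y (fun h => hy h.symm)) hwU hu3
  · exact (convex_closedBall c r).isPreconnected.subset_connectedComponentIn (hmem w hw1) hball

/-- the complementary component `C` of `K`-complement at `x` corresponds under `g` to a closed
round disk (or point) which is a complementary component of the image domain -/
def Disked (K : Set ℂ) (g : ℂ → ℂ) (x : ℂ) : Prop :=
  ∃ (c : ℂ) (r : ℝ), 0 ≤ r ∧ closedBall c r ⊆ (g '' Kᶜ)ᶜ ∧
    (∀ w ∈ closedBall c r, connectedComponentIn (g '' Kᶜ)ᶜ w = closedBall c r) ∧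
    ∀ ε > 0, ∃ n, g '' (nd K n x \ K) ⊆ closedBall c (r + ε)

/-- **good ends become disks** -/
theorem disked_of_good (hK : IsCompact K) (hf : Full K) (hG : Fine K (𝔊 : Filter Str))
    {g : ℂ → ℂ} (hg : TendstoLocallyUniformlyOn (kF h) g (𝔊 : Filter Str) Kᶜ) {x : ℂ}
    (hx : x ∈ K) (hgood : GoodAt h K (𝔊 : Filter Str) x) : Disked K g x := by
  obtain ⟨c, r, hr, hG1, hG2⟩ := hgood
  obtain ⟨w, hw, hw1⟩ := exists_shadow hK hf hG hg hx
  obtain ⟨h1, h2, h3⟩ := comp_of_shadow hK hf hG hg hG1 hG2 hw hw1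
  refine ⟨c, r, hr, h2, fun v hv => ?_, fun ε hε => ?_⟩
  · rw [← h3]
    rw [← h3] at hv
    exact (connectedComponentIn_eq hv).symm
  · obtain ⟨n, hn⟩ := hG1 ε hε
    refine ⟨n, ?_⟩
    rintro _ ⟨z, ⟨hz, hzK⟩, rfl⟩
    have h4 : Tendsto (fun S => kF h S z) 𝔊 (𝓝 (g z)) := hg.tendsto_at hzK
    refine isClosed_closedBall.mem_of_tendsto h4 ?_
    have h5 : ∀ᶠ S : Str in (𝔊 : Filter Str), Disjoint ({z} : Set ℂ) (⋃₀ S.1) :=
      hG.disj hK hf isCompact_singleton (disjoint_singleton_left.2 hzK)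
    filter_upwards [hn, h5] with S hS hS2
    exact hS (Or.inl ⟨z, ⟨hz, disjoint_singleton_left.1 hS2⟩, rfl⟩)

end Vale.Agent.P116.Slow
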