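import Mathlib
import Vale.Agent.P116.FK.Q
import Vale.Agent.P116.FK.S2
import Vale.Agent.P116.FK.S1
import Vale.Agent.P116.FK.CT
import Vale.Agent.P116.FK.E

/-!
# Stokes' formula with a jump
-/

open Set Metric Filter Topology Complex Bornology MeasureTheory
open scoped ComplexConjugate Real Manifold

namespace Vale.Agent.P116.Slow

open FK

lemma hQ : Spec.Q := q s1 s2 FK.E.e4 FK.E.e5

/-- the flux of a Cauchy transform through a collar off the support vanishes -/
lemma flux_ct {n : ℕ} {P : Fin n → Set ℂ} {e : Fin n → ℂ → ℂ} {R R₀ ρ : ℝ} (F : Fam P e R R₀)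
    {κ : ℂ → ℂ} (hκ : Continuous κ) {A : Set ℂ} (hA : IsCompact A) (h0 : ∀ z ∉ A, κ z = 0)
    (j : Fin n) (hPA : Disjoint (P j) A) (heA : Disjoint (e j '' ann 1 R) A)
    (h1 : 1 < ρ) (h2 : ρ < R) : flux (e j) ρ (CT κ) = 0 := by
  obtain ⟨c, r, hPar⟩ := F.par j
  have hρ0 : 0 < ρ := by linarith
  have hann : ∀ θ : ℝ, circleMap 0 ρ θ ∈ ann 1 R := by
    intro θ
    have : ‖circleMap 0 ρ θ‖ = ρ := by simp [abs_of_pos hρ0]
    exact ⟨by rw [this]; exact h1, by rw [this]; exact h2⟩
  have hopen1 : IsOpen {ζ : ℂ | 1 < ‖ζ‖} := isOpen_lt continuous_const continuous_norm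
  have hec : Continuous fun θ : ℝ => e j (circleMap 0 ρ θ) := by
    rw [continuous_iff_continuousAt]
    intro θ
    have h3 : ContinuousAt (e j) (circleMap 0 ρ θ) :=
      (hPar.diff.continuousOn).continuousAt (hopen1.mem_nhds (hann θ).1)
    exact h3.comp (continuous_circleMap 0 ρ).continuousAt
  have hedc : Continuous fun θ : ℝ => deriv (e j) (circleMap 0 ρ θ) := by
    rw [continuous_iff_continuousAt]
    intro θ
    have h3 : ContinuousAt (deriv (e j)) (circleMap 0 ρ θ) :=
      ((hPar.diff.deriv hopen1).continuousOn).continuousAt (hopen1.mem_nhds (hann θ).1)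
    exact h3.comp (continuous_circleMap 0 ρ).continuousAt
  set K : ℝ → ℂ → ℂ := fun θ w => deriv (circleMap 0 ρ) θ *
    ((w - e j (circleMap 0 ρ θ))⁻¹ * κ w * deriv (e j) (circleMap 0 ρ θ)) with hK
  have e1 : flux (e j) ρ (CT κ) = ∫ θ in (0:ℝ)..2 * π, ∫ w, K θ w := by
    rw [flux, circleIntegral]
    apply intervalIntegral.integral_congr
    intro θ _
    simp only [hK, smul_eq_mul, CT]
    rw [← integral_mul_const, ← integral_const_mul]
  have hcK : Continuous (Function.uncurry K) := by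
    rw [continuous_iff_continuousAt]
    rintro ⟨θ, w⟩
    by_cases hw : w ∈ A
    · have hne : w - e j (circleMap 0 ρ θ) ≠ 0 := by
        intro h3
        rw [sub_eq_zero.1 h3] at hw
        exact Set.disjoint_left.1 heA (mem_image_of_mem _ (hann θ)) hw
      have c1 : Continuous fun x : ℝ × ℂ => deriv (circleMap 0 ρ) x.1 := by
        simp only [deriv_circleMap]
        fun_prop
      have c2 : Continuous fun x : ℝ × ℂ => x.2 - e j (circleMap 0 ρ x.1) :=
        continuous_snd.sub (hec.comp continuous_fst)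
      have c3 : ContinuousAt (fun x : ℝ × ℂ => (x.2 - e j (circleMap 0 ρ x.1))⁻¹) (θ, w) :=
        c2.continuousAt.inv₀ hne
      exact c1.continuousAt.mul ((c3.mul (hκ.comp continuous_snd).continuousAt).mul
        (hedc.comp continuous_fst).continuousAt)
    · have h3 : (fun _ => (0 : ℂ)) =ᶠ[𝓝 (θ, w)] Function.uncurry K := by
        have h4 : ∀ᶠ x : ℝ × ℂ in 𝓝 (θ, w), x.2 ∈ Aᶜ :=
          (continuous_snd.continuousAt).eventually (hA.isClosed.isOpen_compl.mem_nhds hw)
        filter_upwards [h4] with x hx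
        simp only [Function.uncurry, hK]
        rw [h0 x.2 hx]
        simp
      exact continuousAt_const.congr h3
  have hint : Integrable (Function.uncurry K)
      ((volume.restrict (Set.uIoc 0 (2 * π))).prod (volume : Measure ℂ)) := by
    have hcomp : IsCompact (Icc (0:ℝ) (2 * π) ×ˢ A) := isCompact_Icc.prod hA
    obtain ⟨M, hM⟩ := hcomp.exists_bound_of_continuousOn hcK.continuousOn
    have h3 : Integrable (A.indicator fun _ => M) (volume : Measure ℂ) :=
      (integrable_indicator_iff hA.isClosed.measurableSet).2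
        (integrableOn_const (hs := hA.measure_lt_top.ne))
    have : IsFiniteMeasure ((volume : Measure ℝ).restrict (Set.uIoc 0 (2 * π))) := by
      unfold Set.uIoc
      infer_instance
    have h4 := h3.comp_snd ((volume : Measure ℝ).restrict (Set.uIoc 0 (2 * π)))
    refine h4.mono' hcK.aestronglyMeasurable ?_
    have h5 : ∀ᵐ x : ℝ × ℂ ∂((volume.restrict (Set.uIoc 0 (2 * π))).prod (volume : Measure ℂ)),
        x.1 ∈ Set.uIoc 0 (2 * π) := by
      have h6 : ∀ᵐ θ : ℝ ∂(volume.restrict (Set.uIoc 0 (2 * π))), θ ∈ Set.uIoc 0 (2 * π) :=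
        ae_restrict_mem measurableSet_uIoc
      exact Measure.quasiMeasurePreserving_fst.ae h6
    filter_upwards [h5] with x hx
    by_cases hw : x.2 ∈ A
    · rw [indicator_of_mem hw]
      refine hM x ⟨?_, hw⟩
      rw [uIoc_of_le (by positivity)] at hx
      exact Ioc_subset_Icc_self hx
    · rw [indicator_of_notMem hw]
      simp only [Function.uncurry, hK]
      rw [h0 x.2 hw]
      simp
  rw [e1, intervalIntegral_integral_swap hint]
  have h3 : ∀ w, (∫ θ in (0:ℝ)..2 * π, K θ w) = 0 := by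
    intro w
    by_cases hw : w ∈ A
    · have hwP : w ∈ (P j)ᶜ := fun h => Set.disjoint_left.1 hPA h hw
      rw [← hPar.image] at hwP
      obtain ⟨η, hη, rfl⟩ := hwP
      have hηR : R ≤ ‖η‖ := by
        by_contra h
        exact Set.disjoint_left.1 heA (mem_image_of_mem _ ⟨hη, not_le.1 h⟩) hw
      have h4 := FK.E.e5 (F.cont j) hPar h1 (h2.trans_le hηR)
      have h5 : (∫ θ in (0:ℝ)..2 * π, K θ (e j η)) =
          -κ (e j η) * ∮ ζ in C(0, ρ), deriv (e j) ζ / (e j ζ - e j η) := by
        rw [circleIntegral, ← intervalIntegral.integral_const_mul]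
        apply intervalIntegral.integral_congr
        intro θ _
        simp only [hK, smul_eq_mul]
        rw [← neg_sub (e j (circleMap 0 ρ θ)) (e j η), inv_neg]
        ring
      rw [h5, h4, mul_zero]
    · simp only [hK, h0 w hw]
      simp
  simp only [h3, integral_zero]

lemma hasCompactSupport_of {κ : ℂ → ℂ} {A : Set ℂ} (hA : IsCompact A) (h0 : ∀ z ∉ A, κ z = 0) :
    HasCompactSupport κ := HasCompactSupport.intro hA h0

lemma ct_mul_tendsto {κ : ℂ → ℂ} (hκ : Continuous κ) {A : Set ℂ} (hA : IsCompact A)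
    (h0 : ∀ z ∉ A, κ z = 0) :
    Tendsto (fun z => z * CT κ z) (cobounded ℂ) (𝓝 (-∫ w, κ w)) := by
  have hs := hasCompactSupport_of hA h0
  have hi : Integrable κ := hκ.integrable_of_hasCompactSupport hs
  obtain ⟨M, hM⟩ := hA.isBounded.subset_closedBall 0
  have hκ' : Continuous fun w => w * κ w := continuous_id.mul hκ
  have h0' : ∀ z ∉ A, z * κ z = 0 := fun z hz => by rw [h0 z hz, mul_zero]
  have hs' := hasCompactSupport_of hA h0'
  have hi' : Integrable fun w => w * κ w := hκ'.integrable_of_hasCompactSupport hs'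
  have h1 : Tendsto (CT fun w => w * κ w) (cobounded ℂ) (𝓝 0) :=
    ct_tendsto hi' (M := M) fun w hw => h0' w fun h => hw (hM h)
  have h2 := h1.const_add (-∫ w, κ w)
  rw [add_zero] at h2
  refine h2.congr' ?_
  filter_upwards [tendsto_norm_cobounded_atTop.eventually (eventually_gt_atTop M)] with z hz
  have hzA : z ∉ A := by
    intro h
    have := hM h
    rw [mem_closedBall_zero_iff] at this
    linarith
  have hin : Integrable fun w => -κ w := hi.neg
  rw [CT, CT, ← integral_const_mul, ← integral_neg, ← integral_add hin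
    (integrable_inv_sub_mul hκ' hs' z)]
  refine integral_congr_ae (Eventually.of_forall fun w => ?_)
  simp only
  by_cases hw : w ∈ A
  · have hne : w - z ≠ 0 := by
      intro h
      rw [sub_eq_zero.1 h] at hw
      exact hzA hw
    field_simp
    ring
  · rw [h0 w hw]
    simp

lemma db_const (a : ℂ) (z : ℂ) : db (fun _ => a) z = 0 := by
  simp [db]

/-- the d-bar derivative of a glued function -/
lemma db_glue {χ G1 G2 : ℂ → ℂ} {z : ℂ} (hχ : DifferentiableAt ℝ χ z)
    (h1 : DifferentiableAt ℂ G1 z) (h2 : DifferentiableAt ℂ G2 z) :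
    db (fun w => χ w * G1 w + (1 - χ w) * G2 w) z = db χ z * (G1 z - G2 z) := by
  have k1 : HasFDerivAt G1 (fderiv ℝ G1 z) z := (h1.restrictScalars ℝ).hasFDerivAt
  have k2 : HasFDerivAt G2 (fderiv ℝ G2 z) z := (h2.restrictScalars ℝ).hasFDerivAt
  have k3 := (hχ.hasFDerivAt.mul k1).add ((hχ.hasFDerivAt.const_sub 1).mul k2)
  have k4 : fderiv ℝ (fun w => χ w * G1 w + (1 - χ w) * G2 w) z = _ := k3.fderiv
  have e1 := db_eq_zero h1
  have e2 := db_eq_zero h2
  simp only [db] at e1 e2 ⊢
  rw [k4]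
  simp only [add_apply, smul_apply, smul_eq_mul,
    neg_apply]
  linear_combination χ z * e1 + (1 - χ z) * e2

variable {n : ℕ} {P : Fin n → Set ℂ} {e : Fin n → ℂ → ℂ} {R R₀ ρ : ℝ}

/-- transition data -/
structure Trans (P : Fin n → Set ℂ) (e : Fin n → ℂ → ℂ) (R : ℝ) (χ : ℂ → ℂ)
    (A N1 N2 U : Set ℂ) : Prop where
  cpt : IsCompact A
  open1 : IsOpen N1
  open2 : IsOpen N2
  cov : ∀ z, z ∈ A ∨ z ∈ N1 ∨ z ∈ N2
  smooth : ContDiff ℝ 1 χ
  one : ∀ z ∈ N1, χ z = 1
  zero : ∀ z ∈ N2, χ z = 0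
  openU : IsOpen U
  sub : A ⊆ U
  subP : U ⊆ (⋃ j, P j)ᶜ
  bdd : IsBounded N1
  loc : ∀ j, P j ∪ e j '' ann 1 R ⊆ N1 ∨ P j ∪ e j '' ann 1 R ⊆ N2
  dis : ∀ z ∈ A, z ∉ N1 ∧ z ∉ N2

variable {χ : ℂ → ℂ} {A N1 N2 U : Set ℂ}

lemma Trans.disj (H : Trans P e R χ A N1 N2 U) {z : ℂ} (h1 : z ∈ N1) (h2 : z ∈ N2) : False := by
  have := H.one z h1
  rw [H.zero z h2] at this
  exact zero_ne_one this

lemma Trans.db_zero (H : Trans P e R χ A N1 N2 U) {z : ℂ} (hz : z ∉ A) : db χ z = 0 := by
  rcases H.cov z with h | h | h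
  · exact absurd h hz
  · have h1 : χ =ᶠ[𝓝 z] fun _ => 1 := by
      filter_upwards [H.open1.mem_nhds h] with w hw using H.one w hw
    rw [db_congr h1, db_const]
  · have h1 : χ =ᶠ[𝓝 z] fun _ => 0 := by
      filter_upwards [H.open2.mem_nhds h] with w hw using H.zero w hw
    rw [db_congr h1, db_const]

open Classical in
/-- the glued function -/
noncomputable def gl (N1 : Set ℂ) (G1 G2 : ℂ → ℂ) (z : ℂ) : ℂ := if z ∈ N1 then G1 z else G2 z

lemma Trans.kap_cont (H : Trans P e R χ A N1 N2 U) {J : ℂ → ℂ} (hJ : ContinuousOn J U) :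
    Continuous fun z => db χ z * J z := by
  rw [continuous_iff_continuousAt]
  intro z
  by_cases hz : z ∈ A
  · exact (continuous_db H.smooth).continuousAt.mul
      (hJ.continuousAt (H.openU.mem_nhds (H.sub hz)))
  · have h1 : (fun _ => (0 : ℂ)) =ᶠ[𝓝 z] fun z => db χ z * J z := by
      filter_upwards [H.cpt.isClosed.isOpen_compl.mem_nhds hz] with w hw
      rw [H.db_zero hw, zero_mul]
    exact continuousAt_const.congr h1

lemma Trans.kap_zero (H : Trans P e R χ A N1 N2 U) (J : ℂ → ℂ) :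
    ∀ z ∉ A, db χ z * J z = 0 := fun z hz => by rw [H.db_zero hz, zero_mul]

lemma Trans.kap_int (H : Trans P e R χ A N1 N2 U) {J : ℂ → ℂ} (hJ : ContinuousOn J U) :
    Integrable fun z => db χ z * J z :=
  (H.kap_cont hJ).integrable_of_hasCompactSupport (hasCompactSupport_of H.cpt (H.kap_zero J))

theorem stokes_jump (F : Fam P e R R₀) (H : Trans P e R χ A N1 N2 U) {G1 G2 : ℂ → ℂ}
    (hG1 : DifferentiableOn ℂ G1 ((N1 ∪ U) ∩ (⋃ j, P j)ᶜ))
    (hG2 : DifferentiableOn ℂ G2 ((N2 ∪ U) ∩ (⋃ j, P j)ᶜ)) {a : ℂ}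
    (ha : Tendsto (fun z => z * G2 z) (cobounded ℂ) (𝓝 a)) (h1 : 1 < ρ) (h2 : ρ < R) :
    ‖∑ j, flux (e j) ρ (gl N1 G1 G2) - 2 * π * I * a‖ ≤ ∫ z, ‖db χ z * (G1 z - G2 z)‖ := by
  classical
  set Ω := (⋃ j, P j)ᶜ with hΩ
  have hΩo : IsOpen Ω := F.isOpen
  have hρ0 : 0 < ρ := by linarith
  have hUo := H.openU
  have hann : ∀ ζ ∈ sphere (0:ℂ) ρ, ζ ∈ ann 1 R := by
    intro ζ hζ
    rw [mem_sphere_zero_iff_norm] at hζ
    exact ⟨by rw [hζ]; exact h1, by rw [hζ]; exact h2⟩
  set κ : ℂ → ℂ := fun z => db χ z * (G1 z - G2 z) with hκ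
  have dG1 : ∀ z ∈ U, DifferentiableAt ℂ G1 z := fun z hz =>
    hG1.differentiableAt (((H.open1.union hUo).inter hΩo).mem_nhds ⟨Or.inr hz, H.subP hz⟩)
  have dG2 : ∀ z ∈ U, DifferentiableAt ℂ G2 z := fun z hz =>
    hG2.differentiableAt (((H.open2.union hUo).inter hΩo).mem_nhds ⟨Or.inr hz, H.subP hz⟩)
  have hJc : ContinuousOn (fun z => G1 z - G2 z) U := fun z hz =>
    ((dG1 z hz).continuousAt.sub (dG2 z hz).continuousAt).continuousWithinAt
  have hκc : Continuous κ := H.kap_cont hJc
  have hκ0 : ∀ z ∉ A, κ z = 0 := H.kap_zero _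
  have hκs := hasCompactSupport_of H.cpt hκ0
  have hκi : Integrable κ := H.kap_int hJc
  -- the cutoff near `A`
  obtain ⟨L, hLc, hAL, hLU⟩ := exists_compact_between H.cpt hUo H.sub
  obtain ⟨L', hLc', hAL', hLL'⟩ := exists_compact_between H.cpt isOpen_interior hAL
  obtain ⟨η₀, h0, h1', -⟩ := exists_contMDiffMap_zero_one_of_isClosed (n := 1) 𝓘(ℝ, ℂ)
    (s := (interior L)ᶜ) (t := L') isOpen_interior.isClosed_compl hLc'.isClosed
    (Set.disjoint_left.2 fun w hw hw' => hw (hLL' hw'))
  have hη : ContDiff ℝ 1 fun z => ((η₀ z : ℝ) : ℂ) :=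
    Complex.ofRealCLM.contDiff.comp η₀.contMDiff.contDiff
  set η : ℂ → ℂ := fun z => ((η₀ z : ℝ) : ℂ) with hηd
  have hη0 : ∀ z ∉ L, η z = 0 := by
    intro z hz
    have h3 : z ∈ (interior L)ᶜ := fun h => hz (interior_subset h)
    have h4 := h0 h3
    simp only [hηd]
    rw [h4]
    simp
  have hη1 : ∀ z ∈ L', η z = 1 := by
    intro z hz
    have h4 := h1' hz
    simp only [hηd]
    rw [h4]
    simp
  set Gh : ℂ → ℂ := fun z => χ z * G1 z + (1 - χ z) * G2 z with hGh
  set v : ℂ → ℂ := fun z => η z * Gh z with hv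
  have hv0 : ∀ z ∉ L, v z = 0 := fun z hz => by simp only [hv]; rw [hη0 z hz, zero_mul]
  have hvc : ContDiff ℝ 1 v := by
    rw [contDiff_iff_contDiffAt]
    intro z
    by_cases hz : z ∈ L
    · have hzU := hLU hz
      have c1 : ContDiffAt ℝ 1 G1 z :=
        ((hG1.analyticAt (((H.open1.union hUo).inter hΩo).mem_nhds
          ⟨Or.inr hzU, H.subP hzU⟩)).contDiffAt (n := 1)).restrict_scalars ℝ
      have c2 : ContDiffAt ℝ 1 G2 z :=
        ((hG2.analyticAt (((H.open2.union hUo).inter hΩo).mem_nhds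
          ⟨Or.inr hzU, H.subP hzU⟩)).contDiffAt (n := 1)).restrict_scalars ℝ
      have c3 : ContDiffAt ℝ 1 χ z := H.smooth.contDiffAt
      exact hη.contDiffAt.mul ((c3.mul c1).add ((contDiffAt_const.sub c3).mul c2))
    · have h3 : v =ᶠ[𝓝 z] fun _ => (0 : ℂ) := by
        filter_upwards [hLc.isClosed.isOpen_compl.mem_nhds hz] with w hw using hv0 w hw
      exact (contDiffAt_const (c := (0 : ℂ))).congr_of_eventuallyEq h3
  have hvs : HasCompactSupport v := hasCompactSupport_of hLc hv0
  have hdbv : ∀ z ∈ interior L', db v z = κ z := by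
    intro z hz
    have h3 : v =ᶠ[𝓝 z] Gh := by
      filter_upwards [isOpen_interior.mem_nhds hz] with w hw
      simp only [hv]
      rw [hη1 w (interior_subset hw), one_mul]
    have hzU : z ∈ U := hLU (interior_subset (hLL' (interior_subset hz)))
    rw [db_congr h3, hGh, db_glue (H.smooth.differentiable (by simp) z) (dG1 z hzU) (dG2 z hzU)]
  have hdbvc : Continuous (db v) := continuous_db hvc
  have hdbv0 : ∀ z ∉ L, db v z = 0 := by
    intro z hz
    have h3 : v =ᶠ[𝓝 z] fun _ => (0 : ℂ) := by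
      filter_upwards [hLc.isClosed.isOpen_compl.mem_nhds hz] with w hw using hv0 w hw
    rw [db_congr h3, db_const]
  have hdbvs := hasCompactSupport_of hLc hdbv0
  set κ' : ℂ → ℂ := fun z => κ z - db v z with hκ'
  have hκ'c : Continuous κ' := hκc.sub hdbvc
  have hAL2 : A ⊆ L := hAL.trans interior_subset
  have hκ's : HasCompactSupport κ' := hasCompactSupport_of hLc fun z hz => by
    simp only [hκ']
    rw [hκ0 z (fun h => hz (hAL2 h)), hdbv0 z hz, sub_zero]
  have hκ'i : Integrable κ' := hκ'c.integrable_of_hasCompactSupport hκ's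
  have hCT' : DifferentiableOn ℂ (CT κ') (interior L') := by
    have := ct_diff hκ'i (S := (interior L')ᶜ) isOpen_interior.isClosed_compl (fun w hw => by
      rw [mem_compl_iff, not_not] at hw
      simp only [hκ']
      rw [hdbv w hw, sub_self])
    rwa [compl_compl] at this
  have hCTA : DifferentiableOn ℂ (CT κ) Aᶜ := ct_diff hκi H.cpt.isClosed hκ0
  have hsplit : ∀ z, CT κ z = CT κ' z - 2 * π * v z := by
    intro z
    have h3 := pompeiu_at hvc hvs z
    have h4 : CT κ z = CT κ' z + CT (db v) z := by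
      rw [CT, CT, CT, ← integral_add (integrable_inv_sub_mul hκ'c hκ's z)
        (integrable_inv_sub_mul hdbvc hdbvs z)]
      refine integral_congr_ae (Eventually.of_forall fun w => ?_)
      simp only [hκ']
      ring
    rw [h4, h3]
    ring
  have hpi : (2 * π : ℂ) ≠ 0 := by
    have := Real.pi_pos
    exact mul_ne_zero two_ne_zero (by exact_mod_cast this.ne')
  obtain ⟨k, hk⟩ : ∃ k : ℂ, 2 * π * k = 1 := ⟨_, mul_inv_cancel₀ hpi⟩
  set Hf : ℂ → ℂ := fun z => Gh z + k * CT κ z with hHf
  have hHd : DifferentiableOn ℂ Hf Ω := by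
    intro z hz
    refine DifferentiableAt.differentiableWithinAt ?_
    by_cases hzA : z ∈ A
    · have h3 : Hf =ᶠ[𝓝 z] fun z => k * CT κ' z := by
        filter_upwards [isOpen_interior.mem_nhds (hAL' hzA)] with w hw
        simp only [hHf]
        have h4 : v w = Gh w := by
          simp only [hv]
          rw [hη1 w (interior_subset hw), one_mul]
        rw [hsplit w, h4]
        linear_combination (-Gh w) * hk
      rw [h3.differentiableAt_iff]
      exact (hCT'.differentiableAt (isOpen_interior.mem_nhds (hAL' hzA))).const_mul _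
    · have h5 : DifferentiableAt ℂ (CT κ) z :=
        hCTA.differentiableAt (H.cpt.isClosed.isOpen_compl.mem_nhds hzA)
      rcases H.cov z with h | h | h
      · exact absurd h hzA
      · have h3 : Hf =ᶠ[𝓝 z] fun z => G1 z + k * CT κ z := by
          filter_upwards [H.open1.mem_nhds h] with w hw
          simp only [hHf, hGh]
          rw [H.one w hw]
          ring
        rw [h3.differentiableAt_iff]
        exact (hG1.differentiableAt (((H.open1.union hUo).inter hΩo).mem_nhds
          ⟨Or.inl h, hz⟩)).add (h5.const_mul _)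
      · have h3 : Hf =ᶠ[𝓝 z] fun z => G2 z + k * CT κ z := by
          filter_upwards [H.open2.mem_nhds h] with w hw
          simp only [hHf, hGh]
          rw [H.zero w hw]
          ring
        rw [h3.differentiableAt_iff]
        exact (hG2.differentiableAt (((H.open2.union hUo).inter hΩo).mem_nhds
          ⟨Or.inl h, hz⟩)).add (h5.const_mul _)
  have hlim : Tendsto (fun z => z * Hf z) (cobounded ℂ) (𝓝 (a + k * (-∫ w, κ w))) := by
    have h3 := ha.add ((ct_mul_tendsto hκc H.cpt hκ0).const_mul k)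
    refine h3.congr' ?_
    obtain ⟨M, hM⟩ := (H.bdd.union H.cpt.isBounded).subset_closedBall 0
    filter_upwards [tendsto_norm_cobounded_atTop.eventually (eventually_gt_atTop M)] with z hz
    have hz2 : z ∈ N2 := by
      rcases H.cov z with h | h | h
      · have := hM (Or.inr h)
        rw [mem_closedBall_zero_iff] at this
        linarith
      · have := hM (Or.inl h)
        rw [mem_closedBall_zero_iff] at this
        linarith
      · exact h
    simp only [hHf, hGh]
    rw [H.zero z hz2]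
    ring
  have hst := hQ F hHd hlim h1 h2
  have hfl : ∀ j, flux (e j) ρ Hf = flux (e j) ρ (gl N1 G1 G2) := by
    intro j
    have hdis : Disjoint (P j ∪ e j '' ann 1 R) A := by
      rw [Set.disjoint_left]
      intro z hz hzA
      rcases H.loc j with h | h
      · exact (H.dis z hzA).1 (h hz)
      · exact (H.dis z hzA).2 (h hz)
    have h3 := flux_ct F hκc H.cpt hκ0 j (hdis.mono_left subset_union_left)
      (hdis.mono_left subset_union_right) h1 h2
    have hGe : ∀ ζ ∈ sphere (0:ℂ) ρ, Gh (e j ζ) = gl N1 G1 G2 (e j ζ) := by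
      intro ζ hζ
      have hm : e j ζ ∈ P j ∪ e j '' ann 1 R := Or.inr (mem_image_of_mem _ (hann ζ hζ))
      rcases H.loc j with h | h
      · simp only [hGh, gl, if_pos (h hm), H.one _ (h hm)]
        ring
      · have h4 : e j ζ ∉ N1 := fun h5 => H.disj h5 (h hm)
        simp only [hGh, gl, if_neg h4, H.zero _ (h hm)]
        ring
    have hed : DifferentiableOn ℂ (e j) (ann 1 R) := (F.diff j).mono fun ζ hζ => hζ.1
    have hec : ContinuousOn (e j) (sphere (0:ℂ) ρ) := hed.continuousOn.mono hann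
    have hedc : ContinuousOn (deriv (e j)) (sphere (0:ℂ) ρ) :=
      (hed.deriv (isOpen_ann 1 R)).continuousOn.mono hann
    have i1 : CircleIntegrable (fun ζ => Hf (e j ζ) * deriv (e j) ζ) 0 ρ := by
      apply ContinuousOn.circleIntegrable hρ0.le
      exact (hHd.continuousOn.comp hec fun ζ hζ => F.collar_mem j (hann ζ hζ)).mul hedc
    have i2 : CircleIntegrable (fun ζ => k * (CT κ (e j ζ) * deriv (e j) ζ)) 0 ρ := by
      apply ContinuousOn.circleIntegrable hρ0.le
      refine continuousOn_const.mul ((hCTA.continuousOn.comp hec fun ζ hζ h4 => ?_).mul hedc)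
      exact Set.disjoint_left.1 hdis (Or.inr (mem_image_of_mem _ (hann ζ hζ))) h4
    have h5 := circleIntegral.integral_sub i1 i2
    rw [circleIntegral.integral_const_mul] at h5
    have h6 : (∮ ζ in C(0, ρ), CT κ (e j ζ) * deriv (e j) ζ) = 0 := h3
    rw [h6, mul_zero, sub_zero] at h5
    rw [flux, flux, ← h5]
    apply circleIntegral.integral_congr hρ0.le
    intro ζ hζ
    simp only
    rw [← hGe ζ hζ]
    simp only [hHf]
    ring
  have hsum : ∑ j, flux (e j) ρ (gl N1 G1 G2) = 2 * π * I * (a + k * (-∫ w, κ w)) := by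
    rw [← hst]
    exact Finset.sum_congr rfl fun j _ => (hfl j).symm
  have hfin : ∑ j, flux (e j) ρ (gl N1 G1 G2) - 2 * π * I * a = -I * ∫ w, κ w := by
    rw [hsum]
    linear_combination (-I * ∫ w, κ w) * hk
  rw [hfin, norm_mul, norm_neg, Complex.norm_I, one_mul]
  exact norm_integral_le_integral_norm _

end Vale.Agent.P116.Slow
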