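import Mathlib
import Vale.Agent.P116.H906.Loc

/-!
Points with the packing condition are good for structures with small excess.
-/

open Set Filter Topology Metric Bornology MeasureTheory
open scoped Real

namespace Vale.Agent.P116.Slow

open H906

variable {K : Set ℂ}

/-- every piece of `S` is a small neighbourhood of a component of `K`; the sum of the sizes is at
most `δ` -/
def Exc (K : Set ℂ) (δ : ℝ) (S : Set (Set ℂ)) : Prop :=
  ∃ (p : Set ℂ → Set ℂ) (e : Set ℂ → ℝ),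
    (∀ A ∈ S, p A ∈ comps K ∧ p A ⊆ A ∧ 0 ≤ e A ∧ A ⊆ cthickening (e A) (p A)) ∧
    InjOn p S ∧ ∀ F : Finset (Set ℂ), (↑F : Set (Set ℂ)) ⊆ S → ∑ A ∈ F, e A ≤ δ

lemma Exc.mono {δ δ' : ℝ} {S : Set (Set ℂ)} (h : Exc K δ S) (hδ : δ ≤ δ') : Exc K δ' S := by
  obtain ⟨p, e, h1, h2, h3⟩ := h
  exact ⟨p, e, h1, h2, fun F hF => (h3 F hF).trans hδ⟩

/-- choice of annuli, with some room -/
theorem sel' (hK : IsCompact K) {x : ℂ} {C : ℝ} (hPB : ∃ᶠ r in 𝓝[>] (0:ℝ), PBr K x C r)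
    {ρ₀ : ℝ} (hρ₀ : 0 < ρ₀) : ∃ r : ℕ → ℝ, (∀ k, 0 < r k ∧ 2 * r k < ρ₀ ∧ PBr K x C (r k)) ∧
      (∀ k l, k ≠ l → Disjoint (ann x (r k)) (ann x (r l))) ∧ (∀ k l, k ≤ l → r l ≤ r k) ∧
      ∀ k l, k < l → ∀ p ∈ comps K, x ∉ p → (∃ w ∈ p, r k / 2 ≤ dist w x) →
        ∀ w ∈ p, 4 * r l < dist w x := by
  have step : ∀ s > 0, ∃ t, 0 < t ∧ 2 * t < s ∧ PBr K x C t ∧
      ∀ p ∈ comps K, x ∉ p → (∃ w ∈ p, s / 2 ≤ dist w x) → ∀ w ∈ p, 4 * t < dist w x := by
    intro s hs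
    have h1 := sel_step hK hPB (half_pos hs)
    have h2 : Tendsto (fun t : ℝ => 4 * t) (𝓝[>] 0) (𝓝[>] 0) := by
      rw [tendsto_nhdsWithin_iff]
      constructor
      · have : Tendsto (fun t : ℝ => 4 * t) (𝓝 0) (𝓝 (4 * 0)) := tendsto_id.const_mul 4
        rw [mul_zero] at this
        exact this.mono_left nhdsWithin_le_nhds
      · filter_upwards [self_mem_nhdsWithin] with t ht
        have : (0:ℝ) < t := ht
        exact mul_pos four_pos this
    have h3 := h2.eventually h1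
    have h4 := Ioo_mem_nhdsGT (half_pos hs)
    obtain ⟨t, ⟨⟨ht1, ht2⟩, ht3⟩, ht4⟩ := (((hPB.and_eventually h3).and_eventually h4).and_eventually
      (self_mem_nhdsWithin : Ioi (0:ℝ) ∈ 𝓝[>] 0)).exists
    exact ⟨t, ht4, by linarith [ht3.2], ht1, ht2⟩
  choose! T hT0 hT1 hT2 hT3 using step
  set r : ℕ → ℝ := fun k => Nat.rec (T ρ₀) (fun _ s => T s) k with hr
  have hr0 : r 0 = T ρ₀ := rfl
  have hrs : ∀ k, r (k + 1) = T (r k) := fun k => rfl
  have hpos : ∀ k, 0 < r k := by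
    intro k
    induction k with
    | zero => exact hT0 _ hρ₀
    | succ k ih => rw [hrs]; exact hT0 _ ih
  have hdec : ∀ k l, k < l → 2 * r l < r k := by
    intro k l hkl
    induction l with
    | zero => exact absurd hkl (Nat.not_lt_zero k)
    | succ l ih =>
      rw [hrs]
      rcases Nat.lt_succ_iff_lt_or_eq.1 hkl with h | h
      · have h1 := hT1 _ (hpos l)
        have h2 := ih h
        linarith [hpos l]
      · rw [h]
        exact hT1 _ (hpos l)
  have hsep : ∀ k l, k < l → ∀ p ∈ comps K, x ∉ p → (∃ w ∈ p, r k / 2 ≤ dist w x) →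
      ∀ w ∈ p, 4 * r l < dist w x := by
    intro k l hkl p hp hxp hfar w hw
    have h1 := hT3 (r k) (hpos k) p hp hxp hfar w hw
    rw [← hrs] at h1
    rcases Nat.lt_or_ge (k + 1) l with h | h
    · have := hdec (k + 1) l h
      linarith [hpos l, hpos (k + 1)]
    · have : l = k + 1 := le_antisymm h hkl
      rw [this]
      exact h1
  refine ⟨r, fun k => ⟨hpos k, ?_, ?_⟩, ?_, ?_, hsep⟩
  · cases k with
    | zero => rw [hr0]; exact hT1 _ hρ₀
    | succ k =>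
      have h1 := hdec 0 (k + 1) (Nat.succ_pos k)
      have h2 : 2 * r 0 < ρ₀ := by rw [hr0]; exact hT1 _ hρ₀
      linarith [hpos 0]
  · cases k with
    | zero => rw [hr0]; exact hT2 _ hρ₀
    | succ k => rw [hrs]; exact hT2 _ (hpos k)
  · have key : ∀ k l, k < l → Disjoint (ann x (r k)) (ann x (r l)) := by
      intro k l hkl
      rw [disjoint_left]
      intro w hw1 hw2
      have h1 : r k < dist w x := hw1.1
      have h2 : dist w x < 2 * r l := hw2.2
      linarith [hdec k l hkl]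
    intro k l hkl
    rcases lt_or_gt_of_ne hkl with h | h
    · exact key k l h
    · exact (key l k h).symm
  · intro k l hkl
    rcases hkl.lt_or_eq with h | h
    · linarith [hdec k l h, hpos l]
    · rw [h]

/-- the extension of a neighbourhood of a connected set -/
lemma exten_thickening {x : ℂ} {p A : Set ℂ} (hpc : IsPreconnected p) (hpk : IsCompact p)
    (hne : p.Nonempty) {e : ℝ} (he : 0 ≤ e) (hA : A ⊆ cthickening e p) {r : ℝ} :
    exten x A r ≤ exten x p r + 2 * e := by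
  have him : IsPreconnected ((fun w => dist w x) '' p) :=
    hpc.image _ (continuous_id.dist continuous_const).continuousOn
  have himk : IsCompact ((fun w => dist w x) '' p) :=
    hpk.image (continuous_id.dist continuous_const)
  have hneI : ((fun w => dist w x) '' p).Nonempty := hne.image _
  have heq : (fun w => dist w x) '' p = Icc (sInf ((fun w => dist w x) '' p))
      (sSup ((fun w => dist w x) '' p)) :=
    eq_Icc_of_connected_compact ⟨hneI, him⟩ himk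
  set a := sInf ((fun w => dist w x) '' p)
  set b := sSup ((fun w => dist w x) '' p)
  have hab : a ≤ b := by
    obtain ⟨t, ht⟩ := hneI
    rw [heq] at ht
    exact ht.1.trans ht.2
  have hmemI : ∀ w ∈ p, a ≤ dist w x ∧ dist w x ≤ b := by
    intro w hw
    have : dist w x ∈ (fun w => dist w x) '' p := ⟨w, hw, rfl⟩
    rw [heq] at this
    exact this
  have hAI : Ioo r (2 * r) ∩ {ρ : ℝ | (A ∩ sphere x ρ).Nonempty} ⊆
      (Ioo r (2 * r) ∩ {ρ : ℝ | (p ∩ sphere x ρ).Nonempty}) ∪ (Icc (a - e) a ∪ Icc b (b + e)) := by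
    rintro ρ ⟨hρ, w, hwA, hwρ⟩
    have hwρ' : dist w x = ρ := hwρ
    have h1 := hA hwA
    rw [hpk.cthickening_eq_biUnion_closedBall he] at h1
    obtain ⟨z, hz, hwz⟩ := mem_iUnion₂.1 h1
    rw [mem_closedBall] at hwz
    have h2 := hmemI z hz
    have h3 : ρ ≤ dist z x + e := by
      rw [← hwρ']
      have := dist_triangle w z x
      linarith
    have h4 : dist z x ≤ ρ + e := by
      rw [← hwρ']
      have := dist_triangle z w x
      rw [dist_comm z w] at this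
      linarith
    by_cases h5 : ρ ≤ a
    · exact Or.inr (Or.inl ⟨by linarith [h2.1], h5⟩)
    · by_cases h6 : b ≤ ρ
      · exact Or.inr (Or.inr ⟨h6, by linarith [h2.2]⟩)
      · push Not at h5 h6
        have h7 : ρ ∈ (fun w => dist w x) '' p := by
          rw [heq]
          exact ⟨h5.le, h6.le⟩
        obtain ⟨v, hv, hvρ⟩ := h7
        exact Or.inl ⟨hρ, v, hv, hvρ⟩
  have hfin : volume ((Ioo r (2 * r) ∩ {ρ : ℝ | (p ∩ sphere x ρ).Nonempty}) ∪
      (Icc (a - e) a ∪ Icc b (b + e))) ≠ ⊤ := by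
    refine ((measure_union_le _ _).trans_lt (ENNReal.add_lt_top.2 ⟨?_, ?_⟩)).ne
    · exact (measure_mono inter_subset_left).trans_lt (by rw [Real.volume_Ioo]; exact
        ENNReal.ofReal_lt_top)
    · refine (measure_union_le _ _).trans_lt (ENNReal.add_lt_top.2 ⟨?_, ?_⟩) <;>
      · rw [Real.volume_Icc]
        exact ENNReal.ofReal_lt_top
  rw [exten, exten]
  refine (measureReal_mono hAI hfin).trans ((measureReal_union_le _ _).trans ?_)
  refine add_le_add le_rfl ((measureReal_union_le _ _).trans ?_)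
  rw [Real.volume_real_Icc_of_le (by linarith), Real.volume_real_Icc_of_le (by linarith)]
  linarith

theorem loc' (h : FK) (hK : IsCompact K) {y : ℂ} {C : ℝ}
    (hPB : ∃ᶠ r in 𝓝[>] (0:ℝ), PBr K y C r) {R ε : ℝ} (hR : 0 < R)
    (hε : 0 < ε) : ∃ ρ₁ > 0, ∃ δ > 0, ∀ S : Str, ⋃₀ S.1 ⊆ closedBall 0 R →
      ∀ (p : Set ℂ → Set ℂ) (e : Set ℂ → ℝ),
      (∀ A ∈ S.1, p A ∈ comps K ∧ p A ⊆ A ∧ 0 ≤ e A ∧ A ⊆ cthickening (e A) (p A)) →
      InjOn p S.1 → (∀ F : Finset (Set ℂ), (↑F : Set (Set ℂ)) ⊆ S.1 → ∑ A ∈ F, e A ≤ δ) →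
      (∀ P ∈ S.1, y ∈ p P → kT h S (ball y ρ₁) ⊆ closedBall (kc h S P) (kr h S P + ε)) ∧
      ((∀ P ∈ S.1, y ∉ p P) → ∀ w₀ ∈ kT h S (ball y ρ₁),
        kT h S (ball y ρ₁) ⊆ closedBall w₀ ε) := by
  classical
  set R' : ℝ := R + ‖y‖ + 1 + 1 with hR'
  have hy0 := norm_nonneg y
  have hR'0 : 0 < R' := by positivity
  set M : ℝ := 5 * R' with hM
  have hM0 : 0 ≤ M := by positivity
  set C' : ℝ := 2 * C + 2 with hC'
  obtain ⟨m, hm0, hm⟩ : ∃ m : ℕ, 0 < m ∧ π * M ^ 2 + 2 * π + C' + 1 ≤ ε / 2 * √m := by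
    have h1 : Tendsto (fun m : ℕ => ε / 2 * √(m:ℝ)) atTop atTop :=
      (Real.tendsto_sqrt_atTop.comp tendsto_natCast_atTop_atTop).const_mul_atTop (by positivity)
    obtain ⟨m, hm1, hm2⟩ := ((h1.eventually_ge_atTop (π * M ^ 2 + 2 * π + C' + 1)).and
      (eventually_gt_atTop 0)).exists
    exact ⟨m, hm2, hm1⟩
  obtain ⟨r, hr1, hr2, hrdec, hr3⟩ := sel' hK hPB one_pos
  set δ : ℝ := r m / 2 with hδ
  have hδ0 : 0 < δ := half_pos (hr1 m).1
  refine ⟨r m, (hr1 m).1, δ, hδ0, fun S hSR p e hpe hpinj hsum => ?_⟩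
  set f := kF h S with hfdef
  have hmap := kmap h S
  set O : Set ℂ := (⋃₀ S.1)ᶜ with hO
  have hOo : IsOpen O := S.2.isOpen_compl
  set J : Finset (Set ℂ) := S.2.fin.toFinset.filter (fun P => y ∉ p P) with hJ
  have hJm : ∀ P, P ∈ J ↔ P ∈ S.1 ∧ y ∉ p P := by
    intro P
    simp [hJ]
  have hed : ∀ P ∈ S.1, e P ≤ δ := by
    intro P hP
    have := hsum {P} (by simpa using hP)
    simpa using this
  have hnear : ∀ P ∈ S.1, ∀ w ∈ P, ∃ z ∈ p P, dist w z ≤ δ := by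
    intro P hP w hw
    obtain ⟨h1, h2, h3, h4⟩ := hpe P hP
    have h5 := h4 hw
    rw [(comps_isCompact hK h1).cthickening_eq_biUnion_closedBall h3] at h5
    obtain ⟨z, hz, hwz⟩ := mem_iUnion₂.1 h5
    exact ⟨z, hz, (mem_closedBall.1 hwz).trans (hed P hP)⟩
  have hSR' : ⋃₀ S.1 ⊆ closedBall 0 R' := hSR.trans (closedBall_subset_closedBall (by linarith))
  have hTb : kT h S (ball 0 R') ⊆ closedBall 0 M := hmap.Tm_bound S.2 hR'0 hSR'
  have hannb : ∀ k, ann y (r k) ⊆ ball y 1 := fun k w hw => by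
    have : dist w y < 2 * r k := hw.2
    exact this.trans (hr1 k).2.1
  have hballb : ball y 1 ⊆ ball 0 R' := by
    refine ball_subset_ball' ?_
    rw [dist_zero_right]
    linarith
  have hPb : ∀ P ∈ S.1, closedBall (kc h S P) (kr h S P) ⊆ closedBall 0 M := by
    intro P hP w hw
    obtain ⟨z, hz⟩ := (S.2.conn P hP).nonempty
    refine hTb (Or.inr (mem_iUnion₂.2 ⟨P, ⟨hP, z, ?_, hz⟩, hw⟩))
    have := hSR (subset_sUnion_of_mem hP hz)
    rw [mem_closedBall] at this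
    rw [mem_ball]
    linarith
  obtain ⟨k, hk, ρ, hρ, hvol⟩ := length_area J (Q := fun P => P) (c := kc h S) (s := kr h S)
    hOo hmap.nu.diff hmap.nu.inj (fun P hP => (hmap.rpos P ((hJm P).1 hP).1).le)
    (fun P hP => S.2.cpt P ((hJm P).1 hP).1)
    (fun P hP P' hP' hne => hmap.disj P ((hJm P).1 hP).1 P' ((hJm P').1 hP').1 hne)
    (fun P hP => by
      rw [disjoint_left]
      rintro w hw ⟨z, hz, rfl⟩
      exact hmap.notMem hz ((hJm P).1 hP).1 hw)
    hM0 (fun P hP => hPb P ((hJm P).1 hP).1) (x := y) hm0 (fun k _ => (hr1 k).1)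
    (fun k _ l _ hkl => hr2 k l hkl)
    (fun k _ => by
      rintro _ ⟨z, ⟨hz, hzO⟩, rfl⟩
      exact hTb (Or.inl ⟨z, ⟨hballb (hannb k hz), hzO⟩, rfl⟩))
    (fun P hP k hkm l hlm h1 h2 => by
      obtain ⟨hP1, hP2⟩ := (hJm P).1 hP
      have key : ∀ k < m, ∀ l < m, k < l → (P ∩ ann y (r k)).Nonempty →
          (P ∩ ann y (r l)).Nonempty → False := by
        rintro k hkm l hlm hkl ⟨w1, hw1, hw1'⟩ ⟨w2, hw2, hw2'⟩
        have g1 : r k < dist w1 y := hw1'.1
        have g2 : dist w2 y < 2 * r l := hw2'.2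
        obtain ⟨z1, hz1, hwz1⟩ := hnear P hP1 w1 hw1
        obtain ⟨z2, hz2, hwz2⟩ := hnear P hP1 w2 hw2
        have g3 := dist_triangle w1 z1 y
        have g4 := dist_triangle z2 w2 y
        rw [dist_comm z2 w2] at g4
        have g5 := hrdec k m hkm.le
        have g6 := hrdec l m hlm.le
        have g7 := (hr1 m).1
        have g8 := hr3 k l hkl (p P) (hpe P hP1).1 hP2 ⟨z1, hz1, by rw [hδ] at hwz1; linarith⟩
          z2 hz2
        rw [hδ] at hwz2
        linarith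
      by_contra hkl
      rcases lt_or_gt_of_ne hkl with h | h
      · exact key k hkm l hlm h h1 h2
      · exact key l hlm k hkm h h2 h1)
    (C := C') (fun k hkm => by
      have g1 : ∀ P ∈ J, exten y P (r k) ^ 2 ≤ 2 * exten y (p P) (r k) ^ 2 + 8 * e P ^ 2 := by
        intro P hP
        obtain ⟨hP1, hP2⟩ := (hJm P).1 hP
        obtain ⟨h1, h2, h3, h4⟩ := hpe P hP1
        have h5 := exten_thickening (x := y) (r := r k) (comps_isPreconnected h1)
          (comps_isCompact hK h1) (by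
            obtain ⟨w, hw, hwe⟩ := h1
            rw [← hwe]
            exact ⟨w, mem_connectedComponentIn hw⟩) h3 h4
        have h6 := exten_nonneg y P (r k)
        have h7 := exten_nonneg y (p P) (r k)
        have h8 : exten y P (r k) ^ 2 ≤ (exten y (p P) (r k) + 2 * e P) ^ 2 :=
          pow_le_pow_left₀ h6 h5 2
        nlinarith [sq_nonneg (exten y (p P) (r k) - 2 * e P)]
      have g2 : ∑ P ∈ J, exten y (p P) (r k) ^ 2 ≤ C * r k ^ 2 := by
        have hinj : Set.InjOn p (J : Set (Set ℂ)) := fun P hP P' hP' hpp =>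
          hpinj ((hJm P).1 hP).1 ((hJm P').1 hP').1 hpp
        have := (hr1 k).2.2 (J.image p) (by
          intro q hq
          obtain ⟨P, hP, rfl⟩ := Finset.mem_image.1 hq
          exact ⟨(hpe P ((hJm P).1 hP).1).1, ((hJm P).1 hP).2⟩)
        rwa [Finset.sum_image (fun P hP P' hP' h => hinj hP hP' h)] at this
      have g3 : ∑ P ∈ J, e P ^ 2 ≤ δ ^ 2 := by
        have a1 : ∑ P ∈ J, e P ^ 2 ≤ ∑ P ∈ J, δ * e P := by
          refine Finset.sum_le_sum fun P hP => ?_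
          have a2 := hed P ((hJm P).1 hP).1
          have a3 := (hpe P ((hJm P).1 hP).1).2.2.1
          nlinarith
        have a4 := hsum J (fun P hP => ((hJm P).1 hP).1)
        rw [← Finset.mul_sum] at a1
        nlinarith
      have g4 := Finset.sum_le_sum g1
      rw [Finset.sum_add_distrib, ← Finset.mul_sum, ← Finset.mul_sum] at g4
      have g5 := hrdec k m hkm.le
      have g6 := (hr1 m).1
      have g7 : δ ^ 2 ≤ (r k / 2) ^ 2 := by
        rw [hδ]
        exact pow_le_pow_left₀ (by linarith) (by linarith) 2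
      nlinarith)
    (ε := ε / 2) (by positivity) hm
  set E := f '' (sphere y ρ ∩ O) ∪
        ⋃ j ∈ {j | j ∈ J ∧ (j ∩ sphere y ρ).Nonempty}, closedBall (kc h S j) (kr h S j) with hE
  have hρpos : 0 < ρ := (hr1 k).1.trans hρ.1
  have hfr : frontier (ball y ρ) = sphere y ρ := frontier_ball _ hρpos.ne'
  have hsub : ball y (r m) ⊆ ball y ρ :=
    ball_subset_ball ((hrdec k m hk.le).trans hρ.1.le)
  have hΓc : IsPreconnected (kT h S (sphere y ρ)) := hmap.push S.2 (isPreconnected_sphere' y ρ)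
  obtain ⟨z₁, hz₁⟩ : (sphere y ρ).Nonempty := NormedSpace.sphere_nonempty.2 hρpos.le
  obtain ⟨w₀, hw₀⟩ : (kT h S (sphere y ρ)).Nonempty := by
    by_cases hz : z₁ ∈ ⋃₀ S.1
    · obtain ⟨P, hP, hzP⟩ := hz
      exact ⟨kc h S P, Or.inr (mem_iUnion₂.2 ⟨P, ⟨hP, z₁, hz₁, hzP⟩,
        mem_closedBall_self (hmap.rpos P hP).le⟩)⟩
    · exact ⟨f z₁, Or.inl ⟨z₁, ⟨hz₁, hz⟩, rfl⟩⟩
  have hΓE : ∀ w ∈ kT h S (sphere y ρ), w ∈ E ∨ ∃ P ∈ S.1, y ∈ p P ∧
      (sphere y ρ ∩ P).Nonempty ∧ w ∈ closedBall (kc h S P) (kr h S P) := by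
    rintro w (⟨z, hz, rfl⟩ | hw)
    · exact Or.inl (Or.inl ⟨z, hz, rfl⟩)
    · obtain ⟨P, ⟨hP, z, hz, hzP⟩, hwP⟩ := mem_iUnion₂.1 hw
      by_cases hyP : y ∈ p P
      · exact Or.inr ⟨P, hP, hyP, ⟨z, hz, hzP⟩, hwP⟩
      · refine Or.inl (Or.inr (mem_iUnion₂.2 ⟨P, ⟨(hJm P).2 ⟨hP, hyP⟩, z, hzP, hz⟩, hwP⟩))
  have hEΓ : E ⊆ kT h S (sphere y ρ) := by
    rintro w (⟨z, hz, rfl⟩ | hw)
    · exact Or.inl ⟨z, hz, rfl⟩
    · obtain ⟨P, ⟨hP, z, hzP, hz⟩, hwP⟩ := mem_iUnion₂.1 hw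
      exact Or.inr (mem_iUnion₂.2 ⟨P, ⟨((hJm P).1 hP).1, z, hz, hzP⟩, hwP⟩)
  -- if the circle does not meet the hole of `y`
  have hnomeet : (∀ P ∈ S.1, y ∈ p P → ¬ (sphere y ρ ∩ P).Nonempty) →
      kT h S (ball y ρ) ⊆ closedBall w₀ (ε / 2) := by
    intro hno
    have hEeq : kT h S (sphere y ρ) = E := by
      refine Subset.antisymm (fun w hw => ?_) hEΓ
      rcases hΓE w hw with h1 | ⟨P, hP, hyP, hne, -⟩
      · exact h1
      · exact absurd hne (hno P hP hyP)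
    refine hmap.Tm_subset_closedBall S.2 isBounded_ball (by positivity) ?_
    rw [hfr]
    intro w hw
    rw [mem_closedBall]
    change w ∈ kT h S (sphere y ρ) at hw
    rw [hEeq] at hw hw₀ hΓc
    exact dist_le_of_prj hΓc (by positivity) hvol hw hw₀
  refine ⟨fun P₀ hP₀ hyP₀ => ?_, fun hy w hw => ?_⟩
  · have huniq : ∀ P ∈ S.1, y ∈ p P → P = P₀ := by
      intro P hP hyP
      refine hpinj hP hP₀ ?_
      rw [comps_eq (hpe P hP).1 hyP, comps_eq (hpe P₀ hP₀).1 hyP₀]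
    have hyP₀' : y ∈ P₀ := (hpe P₀ hP₀).2.1 hyP₀
    have hr₀ := (hmap.rpos P₀ hP₀).le
    refine (Tm_mono hsub).trans ?_
    by_cases hmeet : (sphere y ρ ∩ P₀).Nonempty
    · have hEeq : kT h S (sphere y ρ) = E ∪ closedBall (kc h S P₀) (kr h S P₀) := by
        refine Subset.antisymm (fun w hw => ?_) (union_subset hEΓ fun w hw => ?_)
        · rcases hΓE w hw with h1 | ⟨P, hP, hyP, hne, hwP⟩
          · exact Or.inl h1
          · rw [huniq P hP hyP] at hwP
            exact Or.inr hwP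
        · exact Or.inr (mem_iUnion₂.2 ⟨P₀, ⟨hP₀, hmeet⟩, hw⟩)
      refine hmap.Tm_subset_closedBall S.2 isBounded_ball (by positivity) ?_
      rw [hfr]
      intro w hw
      change w ∈ kT h S (sphere y ρ) at hw
      rw [hEeq] at hw hΓc
      rw [mem_closedBall]
      rcases hw with hw | hw
      · have := dist_le_of_prj_disk hr₀ hΓc (by positivity) hvol hw
        linarith
      · rw [mem_closedBall] at hw
        linarith
    · have h1 := hnomeet (fun P hP hyP => by rw [huniq P hP hyP]; exact hmeet)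
      have h2 : kc h S P₀ ∈ kT h S (ball y ρ) := Or.inr (mem_iUnion₂.2
        ⟨P₀, ⟨hP₀, y, mem_ball_self hρpos, hyP₀'⟩, mem_closedBall_self hr₀⟩)
      intro w hw
      have h3 := h1 hw
      have h4 := h1 h2
      rw [mem_closedBall] at h3 h4 ⊢
      have := dist_triangle_right w (kc h S P₀) w₀
      linarith
  · have h1 := hnomeet (fun P hP hyP => absurd hyP (hy P hP))
    intro w' hw'
    have h3 := h1 (Tm_mono hsub hw')
    have h4 := h1 (Tm_mono hsub hw)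
    rw [mem_closedBall] at h3 h4 ⊢
    have := dist_triangle_right w' w w₀
    linarith

/-- **the packing condition gives good points, for structures with small excess** -/
theorem good_of_PBX {h : FK} {𝔊 : Ultrafilter Str} (hK : IsCompact K) (hf : Full K)
    (hG : Fine K (𝔊 : Filter Str)) {g : ℂ → ℂ}
    (hg : TendstoLocallyUniformlyOn (kF h) g (𝔊 : Filter Str) Kᶜ) {x : ℂ} (hx : x ∈ K)
    (hPB : ∀ y ∈ connectedComponentIn K x, PB K y)
    (hexc : ∀ δ > 0, ∀ᶠ S in (𝔊 : Filter Str), Exc K δ S.1)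
    (hmem : (connectedComponentIn K x).Nontrivial →
      ∀ᶠ S in (𝔊 : Filter Str), ∃ A ∈ S.1, connectedComponentIn K x ⊆ A) :
    GoodAt h K (𝔊 : Filter Str) x := by
  classical
  set q := connectedComponentIn K x with hq
  have hqc : IsCompact q := isCompact_comp hK x
  have hxq : x ∈ q := mem_connectedComponentIn hx
  have hqK : q ⊆ K := connectedComponentIn_subset _ _
  have hqcomp : q ∈ comps K := ⟨x, hx, rfl⟩
  obtain ⟨R, hR, hRK⟩ := lev_bdd hK 0
  set R' := R + 1 with hR'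
  have hR'0 : 0 < R' := by positivity
  have hxR : ∀ y ∈ K, y ∈ ball (0:ℂ) R' := by
    intro y hy
    have := hRK (subset_lev 0 hy)
    rw [mem_closedBall] at this
    rw [mem_ball]
    linarith
  have hSR : ∀ᶠ S : Str in (𝔊 : Filter Str), (⋃₀ S.1 : Set ℂ) ⊆ closedBall 0 R := by
    filter_upwards [hG 0] with S h0
    exact sUnion_subset fun P hP => (h0 P hP).trans hRK
  -- the two cases
  have hcase : (∃ᶠ δ in 𝓝[>] (0:ℝ), ∀ᶠ S in (𝔊 : Filter Str),
      ∃ (p : Set ℂ → Set ℂ) (e : Set ℂ → ℝ),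
      (∀ A ∈ S.1, p A ∈ comps K ∧ p A ⊆ A ∧ 0 ≤ e A ∧ A ⊆ cthickening (e A) (p A)) ∧
      InjOn p S.1 ∧ (∀ F : Finset (Set ℂ), (↑F : Set (Set ℂ)) ⊆ S.1 → ∑ A ∈ F, e A ≤ δ) ∧
      ∃ A ∈ S.1, x ∈ p A) ∨ (∀ᶠ δ in 𝓝[>] (0:ℝ), ∀ᶠ S in (𝔊 : Filter Str),
      ∃ (p : Set ℂ → Set ℂ) (e : Set ℂ → ℝ),
      (∀ A ∈ S.1, p A ∈ comps K ∧ p A ⊆ A ∧ 0 ≤ e A ∧ A ⊆ cthickening (e A) (p A)) ∧
      InjOn p S.1 ∧ (∀ F : Finset (Set ℂ), (↑F : Set (Set ℂ)) ⊆ S.1 → ∑ A ∈ F, e A ≤ δ) ∧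
      ∀ A ∈ S.1, x ∉ p A) := by
    by_contra hcon
    rw [not_or, not_frequently, not_eventually] at hcon
    obtain ⟨δ, ⟨h1, h2⟩, hδ⟩ := ((hcon.2.and_eventually hcon.1).and_eventually
      (self_mem_nhdsWithin : Ioi (0:ℝ) ∈ 𝓝[>] 0)).exists
    rw [← Ultrafilter.eventually_not] at h1 h2
    obtain ⟨S, ⟨h3, h4⟩, p, e, h5, h6, h7⟩ := ((h1.and h2).and (hexc δ hδ)).exists
    by_cases hA : ∃ A ∈ S.1, x ∈ p A
    · exact h4 ⟨p, e, h5, h6, h7, hA⟩
    · push Not at hA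
      exact h3 ⟨p, e, h5, h6, h7, hA⟩
  rcases hcase with hcase | hcase
  · -- a piece around the component of `x`
    have hcase' : ∀ δ > 0, ∀ᶠ S in (𝔊 : Filter Str),
      ∃ (p : Set ℂ → Set ℂ) (e : Set ℂ → ℝ),
      (∀ A ∈ S.1, p A ∈ comps K ∧ p A ⊆ A ∧ 0 ≤ e A ∧ A ⊆ cthickening (e A) (p A)) ∧
      InjOn p S.1 ∧ (∀ F : Finset (Set ℂ), (↑F : Set (Set ℂ)) ⊆ S.1 → ∑ A ∈ F, e A ≤ δ) ∧
      ∃ A ∈ S.1, x ∈ p A := by
      intro δ hδ
      obtain ⟨δ', h1, h2⟩ := (hcase.and_eventually (Ioo_mem_nhdsGT hδ)).exists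
      filter_upwards [h1] with S hS
      obtain ⟨p, e, h5, h6, h7, h8⟩ := hS
      exact ⟨p, e, h5, h6, fun F hF => (h7 F hF).trans h2.2.le, h8⟩
    set A : Str → Set ℂ := fun S => if hS : ∃ A ∈ S.1, x ∈ A then hS.choose else ∅ with hA
    have hAmem : ∀ S : Str, (∃ A ∈ S.1, x ∈ A) → A S ∈ S.1 ∧ x ∈ A S := by
      intro S hS
      simp only [hA, dif_pos hS]
      exact hS.choose_spec
    have hAuniq : ∀ S : Str, ∀ P ∈ S.1, x ∈ P → A S = P := by
      intro S P hP hxP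
      obtain ⟨h1, h2⟩ := hAmem S ⟨P, hP, hxP⟩
      by_contra hne
      exact disjoint_left.1 (S.2.disj _ h1 P hP hne) h2 hxP
    have hAev : ∀ᶠ S in (𝔊 : Filter Str), A S ∈ S.1 ∧ x ∈ A S := by
      filter_upwards [hcase' 1 one_pos] with S hS
      obtain ⟨p, e, h5, -, -, P, hP, hxP⟩ := hS
      exact hAmem S ⟨P, hP, (h5 P hP).2.1 hxP⟩
    have hbd : ∀ᶠ S : Str in (𝔊 : Filter Str), ‖kc h S (A S)‖ ≤ 5 * R' ∧ 0 ≤ kr h S (A S) ∧
        kr h S (A S) ≤ 5 * R' := by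
      filter_upwards [hSR, hAev] with S h1 h2
      have h3 := (kmap h S).rpos (A S) h2.1
      have h4 : closedBall (kc h S (A S)) (kr h S (A S)) ⊆ closedBall 0 (5 * R') := by
        intro w hw
        refine kT_bdd h S hR'0 (h1.trans (closedBall_subset_closedBall (by linarith))) subset_rfl
          (Or.inr (mem_iUnion₂.2 ⟨A S, ⟨h2.1, x, hxR x hx, h2.2⟩, hw⟩))
      obtain ⟨h5, h6⟩ := disk_bdd h3.le h4
      exact ⟨h5, h3.le, h6⟩
    obtain ⟨c, -, hc⟩ := (isCompact_closedBall (0 : ℂ) (5 * R')).ultrafilter_le_nhds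
      (𝔊.map (fun S => kc h S (A S))) (by
        rw [le_principal_iff, Ultrafilter.coe_map, Filter.mem_map]
        filter_upwards [hbd] with S hS
        simpa using hS.1)
    obtain ⟨r, -, hr⟩ := (isCompact_Icc (a := (0:ℝ)) (b := 5 * R')).ultrafilter_le_nhds
      (𝔊.map (fun S => kr h S (A S))) (by
        rw [le_principal_iff, Ultrafilter.coe_map, Filter.mem_map]
        filter_upwards [hbd] with S hS
        exact ⟨hS.2.1, hS.2.2⟩)
    refine goodAt_of_disks hK hf hG hg (cS := fun S => kc h S (A S))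
      (rS := fun S => kr h S (A S)) (c := c) (r := r) hc hr (hbd.mono fun S hS => hS.2.1) ?_ ?_
    · filter_upwards [hAev] with S hS w hw
      rintro ⟨z, ⟨hz, -⟩, rfl⟩
      exact (kmap h S).notMem hz hS.1 hw
    · intro ε hε
      have hloc : ∀ y ∈ q, ∃ ρ₁ > 0, ∃ δ > 0, ∀ S : Str, ⋃₀ S.1 ⊆ closedBall 0 R →
          ∀ (p : Set ℂ → Set ℂ) (e : Set ℂ → ℝ),
          (∀ A ∈ S.1, p A ∈ comps K ∧ p A ⊆ A ∧ 0 ≤ e A ∧ A ⊆ cthickening (e A) (p A)) →
          InjOn p S.1 → (∀ F : Finset (Set ℂ), (↑F : Set (Set ℂ)) ⊆ S.1 → ∑ A ∈ F, e A ≤ δ) →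
          ∀ P ∈ S.1, y ∈ p P →
            kT h S (ball y ρ₁) ⊆ closedBall (kc h S P) (kr h S P + ε) := by
        intro y hy
        obtain ⟨C, hC⟩ := hPB y hy
        obtain ⟨ρ₁, h1, δ, h2, h3⟩ := loc' h hK hC hR hε
        exact ⟨ρ₁, h1, δ, h2, fun S hS1 p e h4 h5 h6 => (h3 S hS1 p e h4 h5 h6).1⟩
      choose! ρ hρ0 δ hδ0 hρ using hloc
      obtain ⟨t, htp, htc⟩ := hqc.elim_nhds_subcover (fun y => ball y (ρ y))
        (fun y hy => ball_mem_nhds y (hρ0 y hy))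
      obtain ⟨n, hn⟩ := exists_nd_subset hK hf hx
        (isOpen_biUnion (s := (t : Set ℂ)) (fun y _ => isOpen_ball (x := y) (ε := ρ y)))
        (by simpa using htc)
      -- a common `δ`
      obtain ⟨δ₀, hδ₀, hδle⟩ : ∃ δ₀ > 0, ∀ y ∈ t, δ₀ ≤ δ y := by
        clear htc hn
        induction t using Finset.induction_on with
        | empty => exact ⟨1, one_pos, by simp⟩
        | @insert a t _ ih =>
          obtain ⟨δ₁, h1, h2⟩ := ih (fun y hy => htp y (Finset.mem_insert_of_mem hy))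
          refine ⟨min δ₁ (δ a), lt_min h1 (hδ0 a (htp a (Finset.mem_insert_self _ _))), ?_⟩
          intro y hy
          rcases Finset.mem_insert.1 hy with rfl | hy
          · exact min_le_right _ _
          · exact (min_le_left _ _).trans (h2 y hy)
      refine ⟨n, ?_⟩
      filter_upwards [hSR, hcase' δ₀ hδ₀] with S h1 h2 w hw
      obtain ⟨p, e, h5, h6, h7, P, hP, hxP⟩ := h2
      obtain ⟨y, hy, hwy⟩ := mem_Tm_biUnion hn hw
      have hPA : A S = P := hAuniq S P hP ((h5 P hP).2.1 hxP)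
      have hpP : p P = q := comps_eq (h5 P hP).1 hxP
      rw [hPA]
      exact hρ y (htp y hy) S h1 p e h5 h6 (fun F hF => (h7 F hF).trans (hδle y hy)) P hP
        (hpP ▸ htp y hy) hwy
  · have hcase' : ∀ δ > 0, ∀ᶠ S in (𝔊 : Filter Str),
      ∃ (p : Set ℂ → Set ℂ) (e : Set ℂ → ℝ),
      (∀ A ∈ S.1, p A ∈ comps K ∧ p A ⊆ A ∧ 0 ≤ e A ∧ A ⊆ cthickening (e A) (p A)) ∧
      InjOn p S.1 ∧ (∀ F : Finset (Set ℂ), (↑F : Set (Set ℂ)) ⊆ S.1 → ∑ A ∈ F, e A ≤ δ) ∧
      ∀ A ∈ S.1, x ∉ p A := by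
      intro δ hδ
      obtain ⟨δ', h1, h2⟩ := (hcase.and (Ioo_mem_nhdsGT hδ)).exists
      filter_upwards [h1] with S hS
      obtain ⟨p, e, h5, h6, h7, h8⟩ := hS
      exact ⟨p, e, h5, h6, fun F hF => (h7 F hF).trans h2.2.le, h8⟩
    obtain ⟨C, hC⟩ := hPB x hxq
    -- the component of `x` is a point
    have hqx : q = {x} := by
      by_contra hne
      have hnt : q.Nontrivial := by
        by_contra hnt
        rw [not_nontrivial_iff] at hnt
        exact hne (hnt.eq_singleton_of_mem hxq)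
      obtain ⟨z, hz, hzx⟩ := hnt.exists_ne x
      have hd : 0 < dist z x := dist_pos.2 hzx
      obtain ⟨t, ht1, ht2⟩ := ((sel_step hK hC (half_pos hd)).and
        (self_mem_nhdsWithin : Ioi (0:ℝ) ∈ 𝓝[>] 0)).exists
      have ht0 : (0:ℝ) < t := ht2
      set δ := min t (dist z x / 2) with hδ
      have hδ0 : 0 < δ := lt_min ht0 (half_pos hd)
      obtain ⟨S, ⟨p, e, h5, h6, h7, h8⟩, P, hP, hqP⟩ := ((hcase' δ hδ0).and (hmem hnt)).exists
      obtain ⟨g1, g2, g3, g4⟩ := h5 P hP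
      have g5 : e P ≤ δ := by
        have := h7 {P} (by simpa using hP)
        simpa using this
      have g6 : ∀ w ∈ q, ∃ v ∈ p P, dist w v ≤ δ := by
        intro w hw
        have h9 := g4 (hqP hw)
        rw [(comps_isCompact hK g1).cthickening_eq_biUnion_closedBall g3] at h9
        obtain ⟨v, hv, hwv⟩ := mem_iUnion₂.1 h9
        exact ⟨v, hv, (mem_closedBall.1 hwv).trans g5⟩
      obtain ⟨v, hv, hxv⟩ := g6 x hxq
      obtain ⟨v', hv', hzv⟩ := g6 z hz
      have h9 := ht1 (p P) g1 (h8 P hP) ⟨v', hv', by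
        have := dist_triangle z v' x
        linarith [min_le_right t (dist z x / 2)]⟩ v hv
      rw [dist_comm] at hxv
      linarith [min_le_left t (dist z x / 2)]
    set cS : Str → ℂ := fun S => if hS : ∃ A ∈ S.1, x ∈ A then kc h S hS.choose else kF h S x
      with hcS
    have hcS1 : ∀ S : Str, (∃ A ∈ S.1, x ∈ A) → ∃ A ∈ S.1, x ∈ A ∧ cS S = kc h S A := by
      intro S hS
      exact ⟨hS.choose, hS.choose_spec.1, hS.choose_spec.2, by simp only [hcS, dif_pos hS]⟩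
    have hcS2 : ∀ S : Str, (¬ ∃ A ∈ S.1, x ∈ A) → cS S = kF h S x := by
      intro S hS
      simp only [hcS, dif_neg hS]
    have hcT : ∀ S : Str, ∀ ρ > 0, cS S ∈ kT h S (ball x ρ) := by
      intro S ρ hρ
      by_cases hS : ∃ A ∈ S.1, x ∈ A
      · obtain ⟨P, hP, hxP, he⟩ := hcS1 S hS
        rw [he]
        exact Or.inr (mem_iUnion₂.2 ⟨P, ⟨hP, x, mem_ball_self hρ, hxP⟩,
          mem_closedBall_self ((kmap h S).rpos P hP).le⟩)
      · rw [hcS2 S hS]
        exact Or.inl ⟨x, ⟨mem_ball_self hρ, fun ⟨P, hP, hxP⟩ => hS ⟨P, hP, hxP⟩⟩, rfl⟩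
    have hbd : ∀ᶠ S : Str in (𝔊 : Filter Str), cS S ∈ closedBall (0:ℂ) (5 * R') := by
      filter_upwards [hSR] with S h1
      obtain ⟨ρ, hρ, hρb⟩ := Metric.isOpen_iff.1 isOpen_ball x (hxR x hx)
      exact kT_bdd h S hR'0 (h1.trans (closedBall_subset_closedBall (by linarith))) hρb
        (hcT S ρ hρ)
    obtain ⟨c, -, hc⟩ := (isCompact_closedBall (0 : ℂ) (5 * R')).ultrafilter_le_nhds
      (𝔊.map cS) (by
        rw [le_principal_iff, Ultrafilter.coe_map, Filter.mem_map]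
        exact hbd)
    refine goodAt_of_disks hK hf hG hg (cS := cS) (rS := fun _ => 0)
      (c := c) (r := 0) hc tendsto_const_nhds (Eventually.of_forall fun S => le_rfl) ?_ ?_
    · refine Eventually.of_forall fun S w hw => ?_
      rw [closedBall_zero, mem_singleton_iff] at hw
      rw [hw]
      rintro ⟨z, ⟨hz, hzK⟩, hzw⟩
      by_cases hS : ∃ A ∈ S.1, x ∈ A
      · obtain ⟨P, hP, hxP, he⟩ := hcS1 S hS
        refine (kmap h S).notMem hz hP ?_
        rw [hzw, he]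
        exact mem_closedBall_self ((kmap h S).rpos P hP).le
      · rw [hcS2 S hS] at hzw
        have hS' : x ∉ ⋃₀ S.1 := fun ⟨P, hP, hxP⟩ => hS ⟨P, hP, hxP⟩
        have := (kmap h S).nu.inj hz hS' hzw
        exact hzK (this ▸ hx)
    · intro ε hε
      obtain ⟨ρ₁, h1, δ, h2, h3⟩ := loc' h hK hC hR hε
      obtain ⟨n, hn⟩ := exists_nd_subset hK hf hx (isOpen_ball (x := x) (ε := ρ₁)) (by
        rw [← hq, hqx, singleton_subset_iff]
        exact mem_ball_self h1)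
      refine ⟨n, ?_⟩
      filter_upwards [hSR, hcase' δ h2] with S hS1 hS2
      obtain ⟨p, e, h5, h6, h7, h8⟩ := hS2
      rw [zero_add]
      exact (Tm_mono hn).trans ((h3 S hS1 p e h5 h6 h7).2 h8 _ (hcT S ρ₁ h1))

end Vale.Agent.P116.Slow
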