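import Mathlib
import Vale.Agent.P116.Slow.PBX

/-!
Transboundary parabolic points are good for structures with small excess.
-/

open Set Filter Topology Metric Bornology MeasureTheory
open scoped Real

namespace Vale.Agent.P116.Slow

open H906

/-! ### The area of the image of `z ↦ (u z, Re (a f z))` -/

/-- boxes in the plane -/
def box (A B : Set ℝ) : Set ℂ := {w | w.re ∈ A ∧ w.im ∈ B}

lemma volume_box (A B : Set ℝ) : volume (box A B) = volume A * volume B := by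
  have h1 : box A B = Complex.measurableEquivRealProd ⁻¹' (A ×ˢ B) := by
    ext w
    simp [box]
  rw [h1, Complex.volume_preserving_equiv_real_prod.measure_preimage_equiv,
    Measure.volume_eq_prod, Measure.prod_prod]

/-- the map `z ↦ (u z, Re (a f z))` -/
noncomputable def uv (u : ℂ → ℝ) (f : ℂ → ℂ) (a z : ℂ) : ℂ :=
  Complex.equivRealProdCLM.symm (u z, prj a (f z))

lemma uv_re (u : ℂ → ℝ) (f : ℂ → ℂ) (a z : ℂ) : (uv u f a z).re = u z := rfl

lemma uv_im (u : ℂ → ℝ) (f : ℂ → ℂ) (a z : ℂ) : (uv u f a z).im = prj a (f z) := rfl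

lemma pair_le (ℓ : ℂ →L[ℝ] ℝ) : ℓ 1 ^ 2 + ℓ Complex.I ^ 2 ≤ ‖ℓ‖ ^ 2 := by
  set x := ℓ 1 with hx
  set y := ℓ Complex.I with hy
  have h1 : ℓ (⟨x, y⟩ : ℂ) = x ^ 2 + y ^ 2 := by
    have : (⟨x, y⟩ : ℂ) = x • (1:ℂ) + y • Complex.I := by
      apply Complex.ext <;> simp
    rw [this, map_add, map_smul, map_smul, ← hx, ← hy]
    simp [sq]
  have h2 := ℓ.le_opNorm (⟨x, y⟩ : ℂ)
  rw [h1, Real.norm_of_nonneg (by positivity)] at h2
  have h3 : ‖(⟨x, y⟩ : ℂ)‖ ^ 2 = x ^ 2 + y ^ 2 := by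
    rw [← Complex.normSq_eq_norm_sq, Complex.normSq_mk]
    ring
  have h4 : (x ^ 2 + y ^ 2) ^ 2 ≤ ‖ℓ‖ ^ 2 * (x ^ 2 + y ^ 2) := by
    calc (x ^ 2 + y ^ 2) ^ 2 ≤ (‖ℓ‖ * ‖(⟨x, y⟩ : ℂ)‖) ^ 2 := pow_le_pow_left₀ (by positivity) h2 2
      _ = ‖ℓ‖ ^ 2 * (x ^ 2 + y ^ 2) := by rw [mul_pow, h3]
  rcases (add_nonneg (sq_nonneg x) (sq_nonneg y)).eq_or_lt with h5 | h5
  · rw [← h5]
    positivity
  · rw [sq (x ^ 2 + y ^ 2)] at h4
    exact le_of_mul_le_mul_right h4 h5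

lemma abs_det_pair_le (ℓ₁ ℓ₂ : ℂ →L[ℝ] ℝ) :
    |((Complex.equivRealProdCLM.symm : ℝ × ℝ →L[ℝ] ℂ).comp (ℓ₁.prod ℓ₂)).det| ≤
      ‖ℓ₁‖ * ‖ℓ₂‖ := by
  set A := ((Complex.equivRealProdCLM.symm : ℝ × ℝ →L[ℝ] ℂ).comp (ℓ₁.prod ℓ₂)) with hA
  have hAre : ∀ z, (A z).re = ℓ₁ z := fun z => rfl
  have hAim : ∀ z, (A z).im = ℓ₂ z := fun z => rfl
  have h1 : A.det = ℓ₁ 1 * ℓ₂ Complex.I - ℓ₁ Complex.I * ℓ₂ 1 := by
    rw [ContinuousLinearMap.det, ← LinearMap.det_toMatrix Complex.basisOneI, Matrix.det_fin_two]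
    simp only [LinearMap.toMatrix_apply, Complex.coe_basisOneI, Complex.coe_basisOneI_repr]
    simp [hAre, hAim]
  have h2 := pair_le ℓ₁
  have h3 := pair_le ℓ₂
  rw [h1]
  refine abs_le_of_sq_le_sq' ?_ (by positivity) |> fun h => abs_le.2 h
  have h4 : (ℓ₁ 1 * ℓ₂ Complex.I - ℓ₁ Complex.I * ℓ₂ 1) ^ 2 ≤
      (ℓ₁ 1 ^ 2 + ℓ₁ Complex.I ^ 2) * (ℓ₂ 1 ^ 2 + ℓ₂ Complex.I ^ 2) := by
    nlinarith [sq_nonneg (ℓ₁ 1 * ℓ₂ 1 + ℓ₁ Complex.I * ℓ₂ Complex.I)]
  calc (ℓ₁ 1 * ℓ₂ Complex.I - ℓ₁ Complex.I * ℓ₂ 1) ^ 2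
      ≤ (ℓ₁ 1 ^ 2 + ℓ₁ Complex.I ^ 2) * (ℓ₂ 1 ^ 2 + ℓ₂ Complex.I ^ 2) := h4
    _ ≤ ‖ℓ₁‖ ^ 2 * ‖ℓ₂‖ ^ 2 := mul_le_mul h2 h3 (by positivity) (by positivity)
    _ = (‖ℓ₁‖ * ‖ℓ₂‖) ^ 2 := by ring

lemma volume_uv {O : Set ℂ} {f : ℂ → ℂ} {u : ℂ → ℝ} (hO : IsOpen O)
    (hd : DifferentiableOn ℂ f O) (hu : ContDiff ℝ 1 u) {a : ℂ} (ha : ‖a‖ = 1) {s : Set ℂ}
    (hs : MeasurableSet s) (hsO : s ⊆ O) :
    volume (uv u f a '' s) ≤
      ∫⁻ z in s, ENNReal.ofReal (‖fderiv ℝ u z‖ * ‖deriv f z‖) := by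
  set ℓ₂ : ℂ → ℂ →L[ℝ] ℝ := fun z => Complex.reCLM.comp
    (a • ((ContinuousLinearMap.toSpanSingleton ℂ (deriv f z)).restrictScalars ℝ)) with hℓ₂
  have hℓ : ∀ z, ‖ℓ₂ z‖ ≤ ‖deriv f z‖ := by
    intro z
    refine ContinuousLinearMap.opNorm_le_bound _ (norm_nonneg _) fun v => ?_
    have h1 : ℓ₂ z v = (a * (v * deriv f z)).re := by
      simp [hℓ₂]
    rw [h1, Real.norm_eq_abs]
    refine (Complex.abs_re_le_norm _).trans (le_of_eq ?_)
    rw [norm_mul, norm_mul, ha]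
    ring
  have hder : ∀ z ∈ s, HasFDerivWithinAt (uv u f a)
      ((Complex.equivRealProdCLM.symm : ℝ × ℝ →L[ℝ] ℂ).comp ((fderiv ℝ u z).prod (ℓ₂ z))) s z := by
    intro z hz
    have h1 : HasFDerivAt u (fderiv ℝ u z) z :=
      (hu.differentiable (by norm_num)).differentiableAt.hasFDerivAt
    have h2 := ((hd.differentiableAt (hO.mem_nhds (hsO hz))).hasDerivAt.hasFDerivAt).restrictScalars ℝ
    have h3 : HasFDerivAt (fun z => prj a (f z)) (ℓ₂ z) z :=
      Complex.reCLM.hasFDerivAt.comp z (h2.const_mul a)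
    exact (((Complex.equivRealProdCLM.symm : ℝ × ℝ →L[ℝ] ℂ).hasFDerivAt).comp z
      (h1.prodMk h3)).hasFDerivWithinAt
  refine (addHaar_image_le_lintegral_abs_det_fderiv volume hs hder).trans ?_
  refine lintegral_mono fun z => ENNReal.ofReal_le_ofReal ?_
  exact (abs_det_pair_le _ _).trans (mul_le_mul_of_nonneg_left (hℓ z) (norm_nonneg _))

/-! ### Localisation -/

lemma isPreconnected_line (a : ℂ) (τ : ℝ) : IsPreconnected {w : ℂ | prj a w = τ} := by
  apply Convex.isPreconnected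
  intro x hx y hy s t _ _ hst
  have h1 : prj a (s • x + t • y) = s * prj a x + t * prj a y := by
    simp only [prj, Complex.real_smul, mul_add, Complex.add_re]
    rw [show a * (s * x) = s * (a * x) by ring, show a * (t * y) = t * (a * y) by ring,
      Complex.re_ofReal_mul, Complex.re_ofReal_mul]
  change prj a (s • x + t • y) = τ
  rw [h1, show prj a x = τ from hx, show prj a y = τ from hy, ← add_mul, hst, one_mul]

lemma not_isBounded_line {a : ℂ} (ha : ‖a‖ = 1) (τ : ℝ) :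
    ¬ Bornology.IsBounded {w : ℂ | prj a w = τ} := by
  intro hb
  obtain ⟨B, hB⟩ := hb.subset_closedBall 0
  have h0 : a * (starRingEnd ℂ) a = 1 := by
    rw [Complex.mul_conj, Complex.normSq_eq_norm_sq, ha]
    simp
  set w : ℂ := (starRingEnd ℂ) a * (⟨τ, |B| + 1⟩ : ℂ) with hw
  have h1 : w ∈ {w : ℂ | prj a w = τ} := by
    change (a * w).re = τ
    rw [hw, ← mul_assoc, h0, one_mul]
  have h2 := hB h1
  rw [mem_closedBall, dist_zero_right, hw, norm_mul, RCLike.norm_conj, ha, one_mul] at h2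
  have h3 := Complex.abs_im_le_norm (⟨τ, |B| + 1⟩ : ℂ)
  have h4 : |(⟨τ, |B| + 1⟩ : ℂ).im| = |B| + 1 := abs_of_pos (by positivity)
  rw [h4] at h3
  have := le_abs_self B
  linarith

lemma volume_closedBall_real (c : ℂ) {s : ℝ} (hs : 0 ≤ s) :
    volume (closedBall c s) = ENNReal.ofReal (π * s ^ 2) := by
  rw [Complex.volume_closedBall, mul_comm π, ENNReal.ofReal_mul (by positivity),
    ENNReal.ofReal_pow hs]
  congr 1
  rw [← NNReal.coe_real_pi, ENNReal.ofReal_coe_nnreal]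

lemma sum_sq_le {J : Finset (Set ℂ)} {c : Set ℂ → ℂ} {r : Set ℂ → ℝ} {M : ℝ} (hM0 : 0 ≤ M)
    (hr : ∀ P ∈ J, 0 ≤ r P) (hsub : ∀ P ∈ J, closedBall (c P) (r P) ⊆ closedBall 0 M)
    (hd : ∀ P ∈ J, ∀ Q ∈ J, P ≠ Q → Disjoint (closedBall (c P) (r P)) (closedBall (c Q) (r Q))) :
    ∑ P ∈ J, r P ^ 2 ≤ M ^ 2 := by
  have h1 : ∑ P ∈ J, volume (closedBall (c P) (r P)) ≤ volume (closedBall (0:ℂ) M) := by
    rw [← measure_biUnion_finset (fun P hP Q hQ hne => hd P hP Q hQ hne)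
      (fun P _ => measurableSet_closedBall)]
    exact measure_mono (iUnion₂_subset hsub)
  rw [volume_closedBall_real _ hM0, Finset.sum_congr rfl (fun P hP =>
    volume_closedBall_real (c P) (hr P hP)), ← ENNReal.ofReal_sum_of_nonneg
    (fun P hP => by positivity), ENNReal.ofReal_le_ofReal_iff (by positivity),
    ← Finset.mul_sum] at h1
  exact le_of_mul_le_mul_left h1 Real.pi_pos

theorem rect {S : Set (Set ℂ)} (hS : Adm S) {f : ℂ → ℂ} {c : Set ℂ → ℂ} {r : Set ℂ → ℝ}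
    (h : CMap S f c r) {u : ℂ → ℝ} (hu : ContDiff ℝ 1 u) {y : ℂ} {ρ₁ ρ M N ε₁ ε₂ : ℝ}
    (h1 : ∀ z ∈ ball y ρ₁, u z = 1) (h0 : ∀ z, ρ ≤ dist z y → u z = 0)
    (hM : Tm S f c r (ball y ρ) ⊆ closedBall 0 M) (hM0 : 0 ≤ M) (hN : 0 < N)
    (hen : ∫ z, ‖fderiv ℝ u z‖ ^ 2 ≤ ε₁) {J : Finset (Set ℂ)} (hJS : ∀ P ∈ J, P ∈ S)
    (hPM : ∀ P ∈ J, closedBall (c P) (r P) ⊆ closedBall 0 M)
    (hJ : ∑ P ∈ J, diam (u '' P) ^ 2 ≤ ε₂) {a : ℂ} (ha : ‖a‖ = 1) {w₁ w₂ : ℂ}
    (hw₁ : w₁ ∈ Tm S f c r (ball y ρ₁)) (hw₂ : w₂ ∈ Tm S f c r (ball y ρ₁)) {α β : ℝ}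
    (hα : prj a w₁ ≤ α) (hβ : β ≤ prj a w₂)
    (hout : ∀ P ∈ S, P ∉ J → ∀ t ∈ Ioo α β, t ∉ prj a '' closedBall (c P) (r P)) :
    β - α ≤ N * ε₁ / 2 + π * M ^ 2 / (2 * N) + (N * ε₂ + M ^ 2 / N) := by
  set O : Set ℂ := (⋃₀ S)ᶜ with hO
  have hOo : IsOpen O := hS.isOpen_compl
  -- compact support
  have hcs : HasCompactSupport u := by
    refine HasCompactSupport.intro (isCompact_closedBall y ρ) fun z hz => h0 z ?_
    rw [mem_closedBall, not_le] at hz
    exact hz.le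
  have hint : Integrable (fun z => ‖fderiv ℝ u z‖ ^ 2) := by
    have h2 : HasCompactSupport (fun z => ‖fderiv ℝ u z‖ ^ 2) := by
      refine (hcs.fderiv ℝ).comp_left (g := fun ℓ => ‖ℓ‖ ^ 2) ?_
      simp
    exact (((hu.continuous_fderiv (by norm_num)).norm).pow 2).integrable_of_hasCompactSupport h2
  -- the covering
  have hcover : box (Ioo 0 1) (Ioo α β) ⊆ uv u f a '' (O ∩ ball y ρ) ∪
      ⋃ P ∈ J, box (u '' P) (prj a '' closedBall (c P) (r P)) := by
    rintro w ⟨ht, hτ⟩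
    set t := w.re with htdef
    set τ := w.im with hτdef
    set Δ : Set ℂ := {w : ℂ | prj a w = τ} with hΔ
    have hpull := h.pull hS (isPreconnected_line a τ)
    have hunb := h.pull_unbdd hS (not_isBounded_line ha τ)
    obtain ⟨v, hv, hvτ⟩ := (isPreconnected_prj (h.push hS (Γ := ball y ρ₁)
      (convex_ball y ρ₁).isPreconnected) a).ordConnected.out (mem_image_of_mem _ hw₁)
      (mem_image_of_mem _ hw₂) (⟨hα.trans hτ.1.le, hτ.2.le.trans hβ⟩ : τ ∈ Icc _ _)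
    -- a point in the ball
    obtain ⟨z₁, hz₁, hz₁b⟩ : ∃ z₁ ∈ Tp S f c r Δ, z₁ ∈ ball y ρ₁ := by
      rcases hv with ⟨z, ⟨hz, hzO⟩, rfl⟩ | hv
      · exact ⟨z, Or.inl ⟨hzO, hvτ⟩, hz⟩
      · obtain ⟨P, ⟨hP, z, hz, hzP⟩, hvP⟩ := mem_iUnion₂.1 hv
        exact ⟨z, Or.inr ⟨P, hP, hzP, v, hvτ, hvP⟩, hz⟩
    -- a far point
    obtain ⟨z₂, hz₂, hz₂b⟩ : ∃ z₂ ∈ Tp S f c r Δ, ρ ≤ dist z₂ y := by
      by_contra hcon
      push Not at hcon
      exact hunb ((isBounded_ball (x := y) (r := ρ)).subset fun z hz => hcon z hz)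
    obtain ⟨z, hz, hzt⟩ := (hpull.image u hu.continuous.continuousOn).ordConnected.out
      (mem_image_of_mem u hz₂) (mem_image_of_mem u hz₁)
      (by rw [h0 z₂ hz₂b, h1 z₁ hz₁b]; exact ⟨ht.1.le, ht.2.le⟩ : t ∈ Icc _ _)
    have hzρ : z ∈ ball y ρ := by
      by_contra hzρ
      rw [mem_ball, not_lt] at hzρ
      rw [h0 z hzρ] at hzt
      exact ht.1.ne hzt
    rcases hz with ⟨hzO, hzτ⟩ | ⟨P, hP, hzP, v', hv', hv'P⟩
    · left
      refine ⟨z, ⟨hzO, hzρ⟩, Complex.ext ?_ ?_⟩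
      · rw [uv_re, hzt]
      · rw [uv_im]
        exact hzτ
    · right
      by_cases hPJ : P ∈ J
      · exact mem_iUnion₂.2 ⟨P, hPJ, ⟨z, hzP, hzt⟩, v', hv'P, hv'⟩
      · exact absurd ⟨v', hv'P, hv'⟩ (hout P hP hPJ τ hτ)
  have hmeas := measure_mono (μ := volume) hcover
  rw [volume_box] at hmeas
  have hb1 : volume (Ioo (0:ℝ) 1) = 1 := by simp
  rw [hb1, one_mul, Real.volume_Ioo] at hmeas
  -- the open part
  have hs : MeasurableSet (O ∩ ball y ρ) := (hOo.inter isOpen_ball).measurableSet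
  have hA : volume (uv u f a '' (O ∩ ball y ρ)) ≤
      ENNReal.ofReal (N * ε₁ / 2 + π * M ^ 2 / (2 * N)) := by
    refine (volume_uv hOo h.nu.diff hu ha hs inter_subset_left).trans ?_
    have h2 : ∀ z, ENNReal.ofReal (‖fderiv ℝ u z‖ * ‖deriv f z‖) ≤
        ENNReal.ofReal (N / 2 * ‖fderiv ℝ u z‖ ^ 2) +
          ENNReal.ofReal (1 / (2 * N)) * ENNReal.ofReal (‖deriv f z‖ ^ 2) := by
      intro z
      rw [← ENNReal.ofReal_mul (by positivity), ← ENNReal.ofReal_add (by positivity)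
        (by positivity)]
      apply ENNReal.ofReal_le_ofReal
      have h3 : 0 ≤ (N * ‖fderiv ℝ u z‖ - ‖deriv f z‖) ^ 2 := sq_nonneg _
      have h4 : N / 2 * ‖fderiv ℝ u z‖ ^ 2 + 1 / (2 * N) * ‖deriv f z‖ ^ 2 -
          ‖fderiv ℝ u z‖ * ‖deriv f z‖ =
          (N * ‖fderiv ℝ u z‖ - ‖deriv f z‖) ^ 2 / (2 * N) := by
        field_simp
        ring
      have h5 : 0 ≤ (N * ‖fderiv ℝ u z‖ - ‖deriv f z‖) ^ 2 / (2 * N) := by positivity
      linarith
    calc ∫⁻ z in O ∩ ball y ρ, ENNReal.ofReal (‖fderiv ℝ u z‖ * ‖deriv f z‖)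
        ≤ ∫⁻ z in O ∩ ball y ρ, (ENNReal.ofReal (N / 2 * ‖fderiv ℝ u z‖ ^ 2) +
          ENNReal.ofReal (1 / (2 * N)) * ENNReal.ofReal (‖deriv f z‖ ^ 2)) :=
          lintegral_mono fun z => h2 z
      _ = (∫⁻ z in O ∩ ball y ρ, ENNReal.ofReal (N / 2 * ‖fderiv ℝ u z‖ ^ 2)) +
          ENNReal.ofReal (1 / (2 * N)) *
          ∫⁻ z in O ∩ ball y ρ, ENNReal.ofReal (‖deriv f z‖ ^ 2) := by
          rw [lintegral_add_left, lintegral_const_mul']
          · exact ENNReal.ofReal_ne_top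
          · exact (((hu.continuous_fderiv (by norm_num)).norm.pow 2).const_mul
              _).measurable.ennreal_ofReal
      _ ≤ ENNReal.ofReal (N * ε₁ / 2) + ENNReal.ofReal (1 / (2 * N)) *
          ENNReal.ofReal (π * M ^ 2) := by
          refine add_le_add ?_ ?_
          · calc ∫⁻ z in O ∩ ball y ρ, ENNReal.ofReal (N / 2 * ‖fderiv ℝ u z‖ ^ 2)
                ≤ ∫⁻ z, ENNReal.ofReal (N / 2 * ‖fderiv ℝ u z‖ ^ 2) :=
                  setLIntegral_le_lintegral _ _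
              _ = ENNReal.ofReal (∫ z, N / 2 * ‖fderiv ℝ u z‖ ^ 2) := by
                  rw [ofReal_integral_eq_lintegral_ofReal (hint.const_mul _)
                    (Eventually.of_forall fun z => by positivity)]
              _ ≤ ENNReal.ofReal (N * ε₁ / 2) := by
                  apply ENNReal.ofReal_le_ofReal
                  rw [integral_const_mul]
                  have := mul_le_mul_of_nonneg_left hen (by positivity : 0 ≤ N / 2)
                  linarith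
          · gcongr
            rw [area_image hOo h.nu.diff h.nu.inj hs inter_subset_left,
              ← volume_closedBall_real 0 hM0]
            refine measure_mono ?_
            rintro _ ⟨z, ⟨hzO, hzρ⟩, rfl⟩
            exact hM (Or.inl ⟨z, ⟨hzρ, hzO⟩, rfl⟩)
      _ = ENNReal.ofReal (N * ε₁ / 2 + π * M ^ 2 / (2 * N)) := by
          have h6 : 0 ≤ ε₁ := (integral_nonneg fun z => by positivity).trans hen
          rw [← ENNReal.ofReal_mul (by positivity), ← ENNReal.ofReal_add (by positivity)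
            (by positivity)]
          congr 1
          field_simp
  -- the boxes
  have hB : volume (⋃ P ∈ J, box (u '' P) (prj a '' closedBall (c P) (r P))) ≤
      ENNReal.ofReal (N * ε₂ + M ^ 2 / N) := by
    have hr : ∀ P ∈ J, 0 ≤ r P := fun P hP => (h.rpos P (hJS P hP)).le
    have h2 : ∀ P ∈ J, volume (box (u '' P) (prj a '' closedBall (c P) (r P))) ≤
        ENNReal.ofReal (N * diam (u '' P) ^ 2 + r P ^ 2 / N) := by
      intro P hP
      rw [volume_box]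
      have h3 : volume (u '' P) ≤ ENNReal.ofReal (diam (u '' P)) := by
        refine (Real.volume_le_diam _).trans (le_of_eq ?_)
        rw [diam, ENNReal.ofReal_toReal]
        exact (((hS.cpt P (hJS P hP)).image hu.continuous).isBounded).ediam_ne_top
      have h4 : volume (prj a '' closedBall (c P) (r P)) ≤ ENNReal.ofReal (2 * r P) := by
        refine (measure_mono (prj_closedBall ha (r P))).trans (le_of_eq ?_)
        rw [Real.volume_Icc]
        congr 1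
        ring
      refine (mul_le_mul' h3 h4).trans ?_
      rw [← ENNReal.ofReal_mul diam_nonneg]
      apply ENNReal.ofReal_le_ofReal
      have h5 : 0 ≤ (N * diam (u '' P) - r P) ^ 2 / N := by positivity
      have h6 : (N * diam (u '' P) - r P) ^ 2 / N =
          N * diam (u '' P) ^ 2 + r P ^ 2 / N - diam (u '' P) * (2 * r P) := by
        field_simp
        ring
      linarith
    refine (measure_biUnion_finset_le _ _).trans ((Finset.sum_le_sum h2).trans ?_)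
    rw [← ENNReal.ofReal_sum_of_nonneg (fun P _ => by positivity)]
    apply ENNReal.ofReal_le_ofReal
    rw [Finset.sum_add_distrib, ← Finset.mul_sum, ← Finset.sum_div]
    refine add_le_add (mul_le_mul_of_nonneg_left hJ hN.le) ?_
    exact div_le_div_of_nonneg_right (sum_sq_le hM0 hr hPM
      fun P hP Q hQ hne => h.disj P (hJS P hP) Q (hJS Q hQ) hne) hN.le
  have h6 : 0 ≤ ε₁ := (integral_nonneg fun z => by positivity).trans hen
  have h7 : 0 ≤ ε₂ := (Finset.sum_nonneg fun P _ => by positivity).trans hJ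
  have hfin := hmeas.trans ((measure_union_le _ _).trans (add_le_add hA hB))
  rw [← ENNReal.ofReal_add (by positivity) (by positivity),
    ENNReal.ofReal_le_ofReal_iff (by positivity)] at hfin
  exact hfin

/-! ### Transboundary parabolic points -/

/-- `y` is a transboundary parabolic point of `K`: the point `y` can be separated from any fixed
distance by functions of small energy, where the oscillation of the function on the components of
`K` (other than the one of `y`) is counted as energy -/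
def TPar (K : Set ℂ) (y : ℂ) : Prop :=
  ∀ ε > 0, ∀ ρ > 0, ∃ u : ℂ → ℝ, ContDiff ℝ 1 u ∧ (∀ᶠ z in 𝓝 y, u z = 1) ∧
    (∀ z, ρ ≤ dist z y → u z = 0) ∧ ∫ z, ‖fderiv ℝ u z‖ ^ 2 ≤ ε ∧
    ∀ F : Finset (Set ℂ), (∀ c ∈ F, c ∈ comps K ∧ y ∉ c) → ∑ c ∈ F, diam (u '' c) ^ 2 ≤ ε

variable {K : Set ℂ}

lemma diam_image_thickening {u : ℂ → ℝ} {L : ℝ} (hL : 0 ≤ L)
    (hu : ∀ z w, |u z - u w| ≤ L * dist z w) {p A : Set ℂ} (hp : IsCompact p) {e : ℝ}
    (he : 0 ≤ e) (hA : A ⊆ cthickening e p) : diam (u '' A) ≤ diam (u '' p) + 2 * L * e := by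
  have hb : IsBounded (u '' p) := by
    have hc : Continuous u := by
      rw [Metric.continuous_iff]
      intro z ε hε
      refine ⟨ε / (L + 1), by positivity, fun w hw => ?_⟩
      rw [Real.dist_eq]
      refine (hu w z).trans_lt ?_
      rw [lt_div_iff₀ (by positivity)] at hw
      nlinarith [dist_nonneg (x := w) (y := z)]
    exact (hp.image hc).isBounded
  refine diam_le_of_forall_dist_le (by positivity [diam_nonneg (s := u '' p)]) ?_
  rintro _ ⟨z, hz, rfl⟩ _ ⟨w, hw, rfl⟩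
  have h1 : ∀ z ∈ A, ∃ v ∈ p, dist z v ≤ e := by
    intro z hz
    have h2 := hA hz
    rw [hp.cthickening_eq_biUnion_closedBall he] at h2
    obtain ⟨v, hv, hzv⟩ := mem_iUnion₂.1 h2
    exact ⟨v, hv, hzv⟩
  obtain ⟨z', hz', hzz⟩ := h1 z hz
  obtain ⟨w', hw', hww⟩ := h1 w hw
  have h3 := dist_le_diam_of_mem hb (mem_image_of_mem u hz') (mem_image_of_mem u hw')
  have h4 := hu z z'
  have h5 := hu w w'
  rw [Real.dist_eq] at h3 ⊢
  have h6 : L * dist z z' ≤ L * e := mul_le_mul_of_nonneg_left hzz hL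
  have h7 : L * dist w w' ≤ L * e := mul_le_mul_of_nonneg_left hww hL
  have h8 : |u z - u w| ≤ |u z - u z'| + |u z' - u w'| + |u w - u w'| := by
    have := abs_add_three (u z - u z') (u z' - u w') (u w' - u w)
    rw [show u z - u z' + (u z' - u w') + (u w' - u w) = u z - u w by ring,
      abs_sub_comm (u w') (u w)] at this
    exact this
  linarith

lemma exists_dir {w v : ℂ} (h : w ≠ v) : ∃ a : ℂ, ‖a‖ = 1 ∧ prj a w - prj a v = ‖w - v‖ := by
  have hpos : 0 < ‖w - v‖ := norm_pos_iff.2 (sub_ne_zero.2 h)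
  refine ⟨(starRingEnd ℂ) (w - v) / ‖w - v‖, ?_, ?_⟩
  · rw [norm_div, Complex.norm_conj, Complex.norm_real, norm_norm, div_self hpos.ne']
  · have : prj ((starRingEnd ℂ) (w - v) / ‖w - v‖) w - prj ((starRingEnd ℂ) (w - v) / ‖w - v‖) v =
        ((starRingEnd ℂ) (w - v) / ‖w - v‖ * (w - v)).re := by simp [prj, mul_sub]
    rw [this, div_mul_eq_mul_div, mul_comm, Complex.mul_conj, Complex.normSq_eq_norm_sq]
    rw [← Complex.ofReal_div, Complex.ofReal_re]
    field_simp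

/-- localisation at a transboundary parabolic point -/
theorem locT (h : FK) (hK : IsCompact K) {y : ℂ} (hT : TPar K y) {R ε : ℝ} (hR : 0 < R)
    (hε : 0 < ε) : ∃ ρ₁ > 0, ∃ δ > 0, ∀ S : Str, ⋃₀ S.1 ⊆ closedBall 0 R →
      ∀ (p : Set ℂ → Set ℂ) (e : Set ℂ → ℝ),
      (∀ A ∈ S.1, p A ∈ comps K ∧ p A ⊆ A ∧ 0 ≤ e A ∧ A ⊆ cthickening (e A) (p A)) →
      InjOn p S.1 → (∀ F : Finset (Set ℂ), (↑F : Set (Set ℂ)) ⊆ S.1 → ∑ A ∈ F, e A ≤ δ) →
      (∀ P ∈ S.1, y ∈ p P → kT h S (ball y ρ₁) ⊆ closedBall (kc h S P) (kr h S P + ε)) ∧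
      ((∀ P ∈ S.1, y ∉ p P) → ∀ w₀ ∈ kT h S (ball y ρ₁),
        kT h S (ball y ρ₁) ⊆ closedBall w₀ ε) := by
  classical
  set R' : ℝ := R + ‖y‖ + 1 + 1 with hR'
  have hy0 := norm_nonneg y
  have hR'0 : 0 < R' := by positivity
  set M : ℝ := 5 * R' with hM
  have hM0 : 0 ≤ M := by positivity
  -- choice of the constants
  set N : ℝ := 4 * (π * M ^ 2 + M ^ 2 + 1) / ε with hN
  have hN0 : 0 < N := by positivity
  have hN1 : π * M ^ 2 / (2 * N) + M ^ 2 / N ≤ ε / 4 := by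
    have h1 : π * M ^ 2 / (2 * N) + M ^ 2 / N ≤ (π * M ^ 2 + M ^ 2 + 1) / N := by
      rw [div_add_div _ _ (by positivity) (by positivity), div_le_div_iff₀ (by positivity)
        (by positivity)]
      have : 0 ≤ π * M ^ 2 := by positivity
      have : 0 ≤ M ^ 2 := by positivity
      nlinarith [mul_pos hN0 hN0, mul_nonneg (mul_pos hN0 hN0).le (by positivity : 0 ≤ π * M ^ 2)]
    refine h1.trans (le_of_eq ?_)
    rw [hN]
    field_simp
  set ε₁ : ℝ := ε / (16 * N) with hε₁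
  have hε₁0 : 0 < ε₁ := by positivity
  obtain ⟨u, hu, hu1, hu0, hen, hosc⟩ := hT ε₁ hε₁0 1 one_pos
  have hcs : HasCompactSupport u := by
    refine HasCompactSupport.intro (isCompact_closedBall y 1) fun z hz => hu0 z ?_
    rw [mem_closedBall, not_le] at hz
    exact hz.le
  obtain ⟨L, hL⟩ := ContDiff.lipschitzWith_of_hasCompactSupport hcs hu (by norm_num)
  have hL' : ∀ z w, |u z - u w| ≤ (L : ℝ) * dist z w := by
    intro z w
    rw [← Real.dist_eq]
    exact hL.dist_le_mul z w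
  have hL0 : (0:ℝ) ≤ L := L.2
  obtain ⟨ρ₁, hρ₁, hρu⟩ := Metric.eventually_nhds_iff.1 hu1
  -- choice of δ
  set δ : ℝ := min 1 (ε / (32 * N * (L + 1) ^ 2)) with hδ
  have hδ0 : 0 < δ := by positivity
  have hδ1 : 8 * (L:ℝ) ^ 2 * δ ^ 2 * N ≤ ε / 4 := by
    have h1 : δ ^ 2 ≤ δ := by
      have := min_le_left 1 (ε / (32 * N * ((L:ℝ) + 1) ^ 2))
      nlinarith
    have h2 : δ ≤ ε / (32 * N * ((L:ℝ) + 1) ^ 2) := min_le_right _ _
    have h3 : (L:ℝ) ^ 2 ≤ (L + 1) ^ 2 := by nlinarith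
    calc 8 * (L:ℝ) ^ 2 * δ ^ 2 * N ≤ 8 * ((L:ℝ) + 1) ^ 2 * (ε / (32 * N * ((L:ℝ) + 1) ^ 2)) * N := by
          gcongr
          exact h1.trans h2
      _ = ε / 4 := by
          field_simp
          ring
  refine ⟨ρ₁, hρ₁, δ, hδ0, fun S hSR p e hpe hpinj hsum => ?_⟩
  set f := kF h S with hfdef
  have hmap := kmap h S
  have hSR' : ⋃₀ S.1 ⊆ closedBall 0 R' := hSR.trans (closedBall_subset_closedBall (by linarith))
  have hTb : kT h S (ball 0 R') ⊆ closedBall 0 M := hmap.Tm_bound S.2 hR'0 hSR'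
  have hballb : ball y 1 ⊆ ball 0 R' := by
    refine ball_subset_ball' ?_
    rw [dist_zero_right]
    linarith
  have hPb : ∀ P ∈ S.1, closedBall (kc h S P) (kr h S P) ⊆ closedBall 0 M := by
    intro P hP w hw
    obtain ⟨z, hz⟩ := (S.2.conn P hP).nonempty
    refine hTb (Or.inr (mem_iUnion₂.2 ⟨P, ⟨hP, z, ?_, hz⟩, hw⟩))
    have := hSR (subset_sUnion_of_mem hP hz)
    rw [mem_closedBall] at this
    rw [mem_ball]
    linarith
  -- the oscillation sums
  have hJsum : ∀ J : Finset (Set ℂ), (∀ P ∈ J, P ∈ S.1 ∧ y ∉ p P) →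
      ∑ P ∈ J, diam (u '' P) ^ 2 ≤ 2 * ε₁ + 8 * (L:ℝ) ^ 2 * δ ^ 2 := by
    intro J hJ
    have h1 : ∀ P ∈ J, diam (u '' P) ^ 2 ≤ 2 * diam (u '' p P) ^ 2 + 8 * (L:ℝ) ^ 2 * e P ^ 2 := by
      intro P hP
      obtain ⟨g1, g2, g3, g4⟩ := hpe P (hJ P hP).1
      have h2 := diam_image_thickening hL0 hL' (comps_isCompact hK g1) g3 g4
      have h3 : diam (u '' P) ^ 2 ≤ (diam (u '' p P) + 2 * L * e P) ^ 2 :=
        pow_le_pow_left₀ diam_nonneg h2 2
      nlinarith [sq_nonneg (diam (u '' p P) - 2 * L * e P)]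
    refine (Finset.sum_le_sum h1).trans ?_
    rw [Finset.sum_add_distrib, ← Finset.mul_sum, ← Finset.mul_sum]
    have h4 : ∑ P ∈ J, diam (u '' p P) ^ 2 ≤ ε₁ := by
      rw [← Finset.sum_image (f := fun c => diam (u '' c) ^ 2) (g := p)
        (fun P hP Q hQ hPQ => hpinj (hJ P hP).1 (hJ Q hQ).1 hPQ)]
      refine hosc _ fun c hc => ?_
      obtain ⟨P, hP, rfl⟩ := Finset.mem_image.1 hc
      exact ⟨(hpe P (hJ P hP).1).1, (hJ P hP).2⟩
    have h5 : ∑ P ∈ J, e P ^ 2 ≤ δ ^ 2 := by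
      have h6 : ∑ P ∈ J, e P ≤ δ := hsum J fun P hP => (hJ P hP).1
      have h7 : ∀ P ∈ J, e P ^ 2 ≤ δ * e P := by
        intro P hP
        have h8 : e P ≤ δ := by
          have := hsum {P} (by simpa using (hJ P hP).1)
          simpa using this
        have h9 := (hpe P (hJ P hP).1).2.2.1
        nlinarith
      refine (Finset.sum_le_sum h7).trans ?_
      rw [← Finset.mul_sum]
      nlinarith
    have h8 : 0 ≤ 8 * (L:ℝ) ^ 2 := by positivity
    nlinarith [mul_le_mul_of_nonneg_left h5 h8]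
  have hfinal : N * ε₁ / 2 + π * M ^ 2 / (2 * N) +
      (N * (2 * ε₁ + 8 * (L:ℝ) ^ 2 * δ ^ 2) + M ^ 2 / N) ≤ ε := by
    have h1 : N * ε₁ = ε / 16 := by
      rw [hε₁]
      field_simp
    nlinarith
  have hu1' : ∀ z ∈ ball y ρ₁, u z = 1 := fun z hz => hρu hz
  refine ⟨fun P₀ hP₀ hyP₀ w hw => ?_, fun hno w₀ hw₀ w hw => ?_⟩
  · have hr₀ := (hmap.rpos P₀ hP₀).le
    have hyP₀' : y ∈ P₀ := (hpe P₀ hP₀).2.1 hyP₀
    rw [mem_closedBall, dist_eq_norm]
    by_contra hcon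
    push Not at hcon
    have hne : w ≠ kc h S P₀ := by
      rintro rfl
      rw [sub_self, norm_zero] at hcon
      linarith
    obtain ⟨a, ha, haw⟩ := exists_dir hne
    have hc₀ : kc h S P₀ ∈ kT h S (ball y ρ₁) := Or.inr (mem_iUnion₂.2
        ⟨P₀, ⟨hP₀, y, mem_ball_self hρ₁, hyP₀'⟩, mem_closedBall_self hr₀⟩)
    set J : Finset (Set ℂ) := S.2.fin.toFinset.erase P₀ with hJ
    have hJm : ∀ P, P ∈ J ↔ P ≠ P₀ ∧ P ∈ S.1 := by
      intro P
      simp [hJ]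
    have hyJ : ∀ P ∈ J, P ∈ S.1 ∧ y ∉ p P := by
      intro P hP
      obtain ⟨h1, h2⟩ := (hJm P).1 hP
      refine ⟨h2, fun h3 => h1 ?_⟩
      by_contra h4
      exact disjoint_left.1 (S.2.disj P h2 P₀ hP₀ h4) ((hpe P h2).2.1 h3) hyP₀'
    have key := rect S.2 hmap hu hu1' hu0 ((Tm_mono hballb).trans hTb) hM0 hN0 hen
      (J := J) (fun P hP => (hyJ P hP).1) (fun P hP => hPb P (hyJ P hP).1) (hJsum J hyJ) ha
      hc₀ hw (α := prj a (kc h S P₀) + kr h S P₀) (β := prj a w) (by linarith) le_rfl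
      (fun P hP hPJ t ht => by
        have hPP : P = P₀ := by
          by_contra h1
          exact hPJ ((hJm P).2 ⟨h1, hP⟩)
        rw [hPP]
        intro h2
        have := (prj_closedBall ha (kr h S P₀) h2).2
        linarith [ht.1])
    linarith
  · rw [mem_closedBall, dist_eq_norm]
    by_contra hcon
    push Not at hcon
    have hne : w ≠ w₀ := by
      rintro rfl
      rw [sub_self, norm_zero] at hcon
      linarith
    obtain ⟨a, ha, haw⟩ := exists_dir hne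
    set J : Finset (Set ℂ) := S.2.fin.toFinset with hJ
    have hJm : ∀ P, P ∈ J ↔ P ∈ S.1 := by
      intro P
      simp [hJ]
    have hyJ : ∀ P ∈ J, P ∈ S.1 ∧ y ∉ p P := fun P hP => ⟨(hJm P).1 hP, hno P ((hJm P).1 hP)⟩
    have key := rect S.2 hmap hu hu1' hu0 ((Tm_mono hballb).trans hTb) hM0 hN0 hen
      (J := J) (fun P hP => (hyJ P hP).1) (fun P hP => hPb P (hyJ P hP).1) (hJsum J hyJ) ha
      hw₀ hw (α := prj a w₀) (β := prj a w) le_rfl le_rfl
      (fun P hP hPJ t ht => absurd ((hJm P).2 hP) hPJ)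
    linarith

/-- **transboundary parabolic points are good**, for structures with small excess -/
theorem good_of_TPX {h : FK} {𝔊 : Ultrafilter Str} (hK : IsCompact K) (hf : Full K)
    (hG : Fine K (𝔊 : Filter Str)) {g : ℂ → ℂ}
    (hg : TendstoLocallyUniformlyOn (kF h) g (𝔊 : Filter Str) Kᶜ) {x : ℂ} (hx : x ∈ K)
    (hT : ∀ y ∈ connectedComponentIn K x, TPar K y)
    (hexc : ∀ δ > 0, ∀ᶠ S in (𝔊 : Filter Str), Exc K δ S.1)
    (hmem : (connectedComponentIn K x).Nontrivial →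
      ∀ᶠ S in (𝔊 : Filter Str), ∃ A ∈ S.1, connectedComponentIn K x ⊆ A) :
    GoodAt h K (𝔊 : Filter Str) x := by
  classical
  set q := connectedComponentIn K x with hq
  have hqc : IsCompact q := isCompact_comp hK x
  have hxq : x ∈ q := mem_connectedComponentIn hx
  have hqK : q ⊆ K := connectedComponentIn_subset _ _
  have hqcomp : q ∈ comps K := ⟨x, hx, rfl⟩
  obtain ⟨R, hR, hRK⟩ := lev_bdd hK 0
  set R' := R + 1 with hR'
  have hR'0 : 0 < R' := by positivity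
  have hxR : ∀ y ∈ K, y ∈ ball (0:ℂ) R' := by
    intro y hy
    have := hRK (subset_lev 0 hy)
    rw [mem_closedBall] at this
    rw [mem_ball]
    linarith
  have hSR : ∀ᶠ S : Str in (𝔊 : Filter Str), (⋃₀ S.1 : Set ℂ) ⊆ closedBall 0 R := by
    filter_upwards [hG 0] with S h0
    exact sUnion_subset fun P hP => (h0 P hP).trans hRK
  -- the two cases
  have hcase : (∃ᶠ δ in 𝓝[>] (0:ℝ), ∀ᶠ S in (𝔊 : Filter Str),
      ∃ (p : Set ℂ → Set ℂ) (e : Set ℂ → ℝ),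
      (∀ A ∈ S.1, p A ∈ comps K ∧ p A ⊆ A ∧ 0 ≤ e A ∧ A ⊆ cthickening (e A) (p A)) ∧
      InjOn p S.1 ∧ (∀ F : Finset (Set ℂ), (↑F : Set (Set ℂ)) ⊆ S.1 → ∑ A ∈ F, e A ≤ δ) ∧
      ∃ A ∈ S.1, x ∈ p A) ∨ (∀ᶠ δ in 𝓝[>] (0:ℝ), ∀ᶠ S in (𝔊 : Filter Str),
      ∃ (p : Set ℂ → Set ℂ) (e : Set ℂ → ℝ),
      (∀ A ∈ S.1, p A ∈ comps K ∧ p A ⊆ A ∧ 0 ≤ e A ∧ A ⊆ cthickening (e A) (p A)) ∧
      InjOn p S.1 ∧ (∀ F : Finset (Set ℂ), (↑F : Set (Set ℂ)) ⊆ S.1 → ∑ A ∈ F, e A ≤ δ) ∧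
      ∀ A ∈ S.1, x ∉ p A) := by
    by_contra hcon
    rw [not_or, not_frequently, not_eventually] at hcon
    obtain ⟨δ, ⟨h1, h2⟩, hδ⟩ := ((hcon.2.and_eventually hcon.1).and_eventually
      (self_mem_nhdsWithin : Ioi (0:ℝ) ∈ 𝓝[>] 0)).exists
    rw [← Ultrafilter.eventually_not] at h1 h2
    obtain ⟨S, ⟨h3, h4⟩, p, e, h5, h6, h7⟩ := ((h1.and h2).and (hexc δ hδ)).exists
    by_cases hA : ∃ A ∈ S.1, x ∈ p A
    · exact h4 ⟨p, e, h5, h6, h7, hA⟩
    · push Not at hA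
      exact h3 ⟨p, e, h5, h6, h7, hA⟩
  rcases hcase with hcase | hcase
  · -- a piece around the component of `x`
    have hcase' : ∀ δ > 0, ∀ᶠ S in (𝔊 : Filter Str),
      ∃ (p : Set ℂ → Set ℂ) (e : Set ℂ → ℝ),
      (∀ A ∈ S.1, p A ∈ comps K ∧ p A ⊆ A ∧ 0 ≤ e A ∧ A ⊆ cthickening (e A) (p A)) ∧
      InjOn p S.1 ∧ (∀ F : Finset (Set ℂ), (↑F : Set (Set ℂ)) ⊆ S.1 → ∑ A ∈ F, e A ≤ δ) ∧
      ∃ A ∈ S.1, x ∈ p A := by
      intro δ hδ
      obtain ⟨δ', h1, h2⟩ := (hcase.and_eventually (Ioo_mem_nhdsGT hδ)).exists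
      filter_upwards [h1] with S hS
      obtain ⟨p, e, h5, h6, h7, h8⟩ := hS
      exact ⟨p, e, h5, h6, fun F hF => (h7 F hF).trans h2.2.le, h8⟩
    set A : Str → Set ℂ := fun S => if hS : ∃ A ∈ S.1, x ∈ A then hS.choose else ∅ with hA
    have hAmem : ∀ S : Str, (∃ A ∈ S.1, x ∈ A) → A S ∈ S.1 ∧ x ∈ A S := by
      intro S hS
      simp only [hA, dif_pos hS]
      exact hS.choose_spec
    have hAuniq : ∀ S : Str, ∀ P ∈ S.1, x ∈ P → A S = P := by
      intro S P hP hxP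
      obtain ⟨h1, h2⟩ := hAmem S ⟨P, hP, hxP⟩
      by_contra hne
      exact disjoint_left.1 (S.2.disj _ h1 P hP hne) h2 hxP
    have hAev : ∀ᶠ S in (𝔊 : Filter Str), A S ∈ S.1 ∧ x ∈ A S := by
      filter_upwards [hcase' 1 one_pos] with S hS
      obtain ⟨p, e, h5, -, -, P, hP, hxP⟩ := hS
      exact hAmem S ⟨P, hP, (h5 P hP).2.1 hxP⟩
    have hbd : ∀ᶠ S : Str in (𝔊 : Filter Str), ‖kc h S (A S)‖ ≤ 5 * R' ∧ 0 ≤ kr h S (A S) ∧
        kr h S (A S) ≤ 5 * R' := by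
      filter_upwards [hSR, hAev] with S h1 h2
      have h3 := (kmap h S).rpos (A S) h2.1
      have h4 : closedBall (kc h S (A S)) (kr h S (A S)) ⊆ closedBall 0 (5 * R') := by
        intro w hw
        refine kT_bdd h S hR'0 (h1.trans (closedBall_subset_closedBall (by linarith))) subset_rfl
          (Or.inr (mem_iUnion₂.2 ⟨A S, ⟨h2.1, x, hxR x hx, h2.2⟩, hw⟩))
      obtain ⟨h5, h6⟩ := disk_bdd h3.le h4
      exact ⟨h5, h3.le, h6⟩
    obtain ⟨c, -, hc⟩ := (isCompact_closedBall (0 : ℂ) (5 * R')).ultrafilter_le_nhds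
      (𝔊.map (fun S => kc h S (A S))) (by
        rw [le_principal_iff, Ultrafilter.coe_map, Filter.mem_map]
        filter_upwards [hbd] with S hS
        simpa using hS.1)
    obtain ⟨r, -, hr⟩ := (isCompact_Icc (a := (0:ℝ)) (b := 5 * R')).ultrafilter_le_nhds
      (𝔊.map (fun S => kr h S (A S))) (by
        rw [le_principal_iff, Ultrafilter.coe_map, Filter.mem_map]
        filter_upwards [hbd] with S hS
        exact ⟨hS.2.1, hS.2.2⟩)
    refine goodAt_of_disks hK hf hG hg (cS := fun S => kc h S (A S))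
      (rS := fun S => kr h S (A S)) (c := c) (r := r) hc hr (hbd.mono fun S hS => hS.2.1) ?_ ?_
    · filter_upwards [hAev] with S hS w hw
      rintro ⟨z, ⟨hz, -⟩, rfl⟩
      exact (kmap h S).notMem hz hS.1 hw
    · intro ε hε
      have hloc : ∀ y ∈ q, ∃ ρ₁ > 0, ∃ δ > 0, ∀ S : Str, ⋃₀ S.1 ⊆ closedBall 0 R →
          ∀ (p : Set ℂ → Set ℂ) (e : Set ℂ → ℝ),
          (∀ A ∈ S.1, p A ∈ comps K ∧ p A ⊆ A ∧ 0 ≤ e A ∧ A ⊆ cthickening (e A) (p A)) →
          InjOn p S.1 → (∀ F : Finset (Set ℂ), (↑F : Set (Set ℂ)) ⊆ S.1 → ∑ A ∈ F, e A ≤ δ) →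
          ∀ P ∈ S.1, y ∈ p P →
            kT h S (ball y ρ₁) ⊆ closedBall (kc h S P) (kr h S P + ε) := by
        intro y hy
        obtain ⟨ρ₁, h1, δ, h2, h3⟩ := locT h hK (hT y hy) hR hε
        exact ⟨ρ₁, h1, δ, h2, fun S hS1 p e h4 h5 h6 => (h3 S hS1 p e h4 h5 h6).1⟩
      choose! ρ hρ0 δ hδ0 hρ using hloc
      obtain ⟨t, htp, htc⟩ := hqc.elim_nhds_subcover (fun y => ball y (ρ y))
        (fun y hy => ball_mem_nhds y (hρ0 y hy))
      obtain ⟨n, hn⟩ := exists_nd_subset hK hf hx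
        (isOpen_biUnion (s := (t : Set ℂ)) (fun y _ => isOpen_ball (x := y) (ε := ρ y)))
        (by simpa using htc)
      -- a common `δ`
      obtain ⟨δ₀, hδ₀, hδle⟩ : ∃ δ₀ > 0, ∀ y ∈ t, δ₀ ≤ δ y := by
        clear htc hn
        induction t using Finset.induction_on with
        | empty => exact ⟨1, one_pos, by simp⟩
        | @insert a t _ ih =>
          obtain ⟨δ₁, h1, h2⟩ := ih (fun y hy => htp y (Finset.mem_insert_of_mem hy))
          refine ⟨min δ₁ (δ a), lt_min h1 (hδ0 a (htp a (Finset.mem_insert_self _ _))), ?_⟩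
          intro y hy
          rcases Finset.mem_insert.1 hy with rfl | hy
          · exact min_le_right _ _
          · exact (min_le_left _ _).trans (h2 y hy)
      refine ⟨n, ?_⟩
      filter_upwards [hSR, hcase' δ₀ hδ₀] with S h1 h2 w hw
      obtain ⟨p, e, h5, h6, h7, P, hP, hxP⟩ := h2
      obtain ⟨y, hy, hwy⟩ := mem_Tm_biUnion hn hw
      have hPA : A S = P := hAuniq S P hP ((h5 P hP).2.1 hxP)
      have hpP : p P = q := comps_eq (h5 P hP).1 hxP
      rw [hPA]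
      exact hρ y (htp y hy) S h1 p e h5 h6 (fun F hF => (h7 F hF).trans (hδle y hy)) P hP
        (hpP ▸ htp y hy) hwy
  · have hcase' : ∀ δ > 0, ∀ᶠ S in (𝔊 : Filter Str),
      ∃ (p : Set ℂ → Set ℂ) (e : Set ℂ → ℝ),
      (∀ A ∈ S.1, p A ∈ comps K ∧ p A ⊆ A ∧ 0 ≤ e A ∧ A ⊆ cthickening (e A) (p A)) ∧
      InjOn p S.1 ∧ (∀ F : Finset (Set ℂ), (↑F : Set (Set ℂ)) ⊆ S.1 → ∑ A ∈ F, e A ≤ δ) ∧
      ∀ A ∈ S.1, x ∉ p A := by
      intro δ hδ
      obtain ⟨δ', h1, h2⟩ := (hcase.and (Ioo_mem_nhdsGT hδ)).exists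
      filter_upwards [h1] with S hS
      obtain ⟨p, e, h5, h6, h7, h8⟩ := hS
      exact ⟨p, e, h5, h6, fun F hF => (h7 F hF).trans h2.2.le, h8⟩
    -- the component of `x` is a point
    have hqx : q = {x} := by
      by_contra hne
      have hnt : q.Nontrivial := by
        by_contra hnt
        rw [not_nontrivial_iff] at hnt
        exact hne (hnt.eq_singleton_of_mem hxq)
      obtain ⟨z, hz, hzx⟩ := hnt.exists_ne x
      have hd : 0 < dist z x := dist_pos.2 hzx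
      obtain ⟨u, hu, hu1, hu0, hen, hosc⟩ := hT x hxq (1/16) (by norm_num) (dist z x / 2)
        (half_pos hd)
      have hcs : HasCompactSupport u := by
        refine HasCompactSupport.intro (isCompact_closedBall x (dist z x / 2))
          fun z' hz' => hu0 z' ?_
        rw [mem_closedBall, not_le] at hz'
        exact hz'.le
      obtain ⟨L, hL⟩ := ContDiff.lipschitzWith_of_hasCompactSupport hcs hu (by norm_num)
      have hL' : ∀ z w, |u z - u w| ≤ (L : ℝ) * dist z w := by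
        intro z w
        rw [← Real.dist_eq]
        exact hL.dist_le_mul z w
      have hL0 : (0:ℝ) ≤ L := L.2
      set δ : ℝ := 1 / (4 * (L + 1)) with hδ
      have hδ0 : 0 < δ := by positivity
      have hLδ : (L:ℝ) * δ ≤ 1 / 4 := by
        rw [hδ, mul_one_div, div_le_iff₀ (by positivity)]
        linarith
      obtain ⟨S, ⟨p, e, h5, h6, h7, h8⟩, P, hP, hqP⟩ := ((hcase' δ hδ0).and (hmem hnt)).exists
      obtain ⟨g1, g2, g3, g4⟩ := h5 P hP
      have g5 : e P ≤ δ := by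
        have := h7 {P} (by simpa using hP)
        simpa using this
      have g6 : ∀ w ∈ q, ∃ v ∈ p P, dist w v ≤ δ := by
        intro w hw
        have h9 := g4 (hqP hw)
        rw [(comps_isCompact hK g1).cthickening_eq_biUnion_closedBall g3] at h9
        obtain ⟨v, hv, hwv⟩ := mem_iUnion₂.1 h9
        exact ⟨v, hv, (mem_closedBall.1 hwv).trans g5⟩
      obtain ⟨v, hv, hxv⟩ := g6 x hxq
      obtain ⟨v', hv', hzv⟩ := g6 z hz
      have h9 := hosc {p P} (by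
        intro c hc
        rw [Finset.mem_singleton] at hc
        rw [hc]
        exact ⟨g1, h8 P hP⟩)
      rw [Finset.sum_singleton] at h9
      have h10 : dist (u v) (u v') ≤ diam (u '' p P) :=
        dist_le_diam_of_mem (((comps_isCompact hK g1).image hu.continuous).isBounded)
          (mem_image_of_mem u hv) (mem_image_of_mem u hv')
      have h11 : u x = 1 := hu1.self_of_nhds
      have h12 : u z = 0 := hu0 z (by linarith)
      have h13 := hL' x v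
      have h14 := hL' z v'
      have h15 : (L:ℝ) * dist x v ≤ 1 / 4 := (mul_le_mul_of_nonneg_left hxv hL0).trans hLδ
      have h16 : (L:ℝ) * dist z v' ≤ 1 / 4 := (mul_le_mul_of_nonneg_left hzv hL0).trans hLδ
      rw [h11, abs_le] at h13
      rw [h12, abs_le] at h14
      rw [Real.dist_eq] at h10
      have h17 := (le_abs_self (u v - u v')).trans h10
      have h18 : 1 / 2 ≤ diam (u '' p P) := by linarith [h13.2, h14.1]
      nlinarith
    set cS : Str → ℂ := fun S => if hS : ∃ A ∈ S.1, x ∈ A then kc h S hS.choose else kF h S x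
      with hcS
    have hcS1 : ∀ S : Str, (∃ A ∈ S.1, x ∈ A) → ∃ A ∈ S.1, x ∈ A ∧ cS S = kc h S A := by
      intro S hS
      exact ⟨hS.choose, hS.choose_spec.1, hS.choose_spec.2, by simp only [hcS, dif_pos hS]⟩
    have hcS2 : ∀ S : Str, (¬ ∃ A ∈ S.1, x ∈ A) → cS S = kF h S x := by
      intro S hS
      simp only [hcS, dif_neg hS]
    have hcT : ∀ S : Str, ∀ ρ > 0, cS S ∈ kT h S (ball x ρ) := by
      intro S ρ hρ
      by_cases hS : ∃ A ∈ S.1, x ∈ A
      · obtain ⟨P, hP, hxP, he⟩ := hcS1 S hS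
        rw [he]
        exact Or.inr (mem_iUnion₂.2 ⟨P, ⟨hP, x, mem_ball_self hρ, hxP⟩,
          mem_closedBall_self ((kmap h S).rpos P hP).le⟩)
      · rw [hcS2 S hS]
        exact Or.inl ⟨x, ⟨mem_ball_self hρ, fun ⟨P, hP, hxP⟩ => hS ⟨P, hP, hxP⟩⟩, rfl⟩
    have hbd : ∀ᶠ S : Str in (𝔊 : Filter Str), cS S ∈ closedBall (0:ℂ) (5 * R') := by
      filter_upwards [hSR] with S h1
      obtain ⟨ρ, hρ, hρb⟩ := Metric.isOpen_iff.1 isOpen_ball x (hxR x hx)
      exact kT_bdd h S hR'0 (h1.trans (closedBall_subset_closedBall (by linarith))) hρb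
        (hcT S ρ hρ)
    obtain ⟨c, -, hc⟩ := (isCompact_closedBall (0 : ℂ) (5 * R')).ultrafilter_le_nhds
      (𝔊.map cS) (by
        rw [le_principal_iff, Ultrafilter.coe_map, Filter.mem_map]
        exact hbd)
    refine goodAt_of_disks hK hf hG hg (cS := cS) (rS := fun _ => 0)
      (c := c) (r := 0) hc tendsto_const_nhds (Eventually.of_forall fun S => le_rfl) ?_ ?_
    · refine Eventually.of_forall fun S w hw => ?_
      rw [closedBall_zero, mem_singleton_iff] at hw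
      rw [hw]
      rintro ⟨z, ⟨hz, hzK⟩, hzw⟩
      by_cases hS : ∃ A ∈ S.1, x ∈ A
      · obtain ⟨P, hP, hxP, he⟩ := hcS1 S hS
        refine (kmap h S).notMem hz hP ?_
        rw [hzw, he]
        exact mem_closedBall_self ((kmap h S).rpos P hP).le
      · rw [hcS2 S hS] at hzw
        have hS' : x ∉ ⋃₀ S.1 := fun ⟨P, hP, hxP⟩ => hS ⟨P, hP, hxP⟩
        have := (kmap h S).nu.inj hz hS' hzw
        exact hzK (this ▸ hx)
    · intro ε hε
      obtain ⟨ρ₁, h1, δ, h2, h3⟩ := locT h hK (hT x hxq) hR hε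
      obtain ⟨n, hn⟩ := exists_nd_subset hK hf hx (isOpen_ball (x := x) (ε := ρ₁)) (by
        rw [← hq, hqx, singleton_subset_iff]
        exact mem_ball_self h1)
      refine ⟨n, ?_⟩
      filter_upwards [hSR, hcase' δ h2] with S hS1 hS2
      obtain ⟨p, e, h5, h6, h7, h8⟩ := hS2
      rw [zero_add]
      exact (Tm_mono hn).trans ((h3 S hS1 p e h5 h6 h7).2 h8 _ (hcT S ρ₁ h1))

end Vale.Agent.P116.Slow
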