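import Vale.Agent.P116.Slow.Min

/-!
Simultaneous slow states, version for totally bounded pseudometric spaces.
-/

open Set Filter Topology Metric UniformSpace
open scoped Classical

namespace Vale.Agent.P116.Slow

section

variable {A : Type*} [PseudoMetricSpace A]

lemma exists_apx (n : ℕ) (x : Completion A) :
    ∃ a : A, dist (a : Completion A) x < 1 / ((n : ℝ) + 1) := by
  have h1 : Metric.ball x (1 / ((n : ℝ) + 1)) ∈ 𝓝 x := Metric.ball_mem_nhds x (by positivity)
  obtain ⟨y, hy, a, rfl⟩ := mem_closure_iff_nhds.1 (Completion.denseRange_coe x) _ h1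
  exact ⟨a, hy⟩

/-- approximation of a point of the completion -/
noncomputable def apx (n : ℕ) (x : Completion A) : A := (exists_apx n x).choose

lemma apx_dist (n : ℕ) (x : Completion A) :
    dist ((apx n x : A) : Completion A) x < 1 / ((n : ℝ) + 1) := (exists_apx n x).choose_spec

lemma directed_prod {α β : Type*} [Preorder α] [Preorder β] [IsDirected α (· ≤ ·)]
    [IsDirected β (· ≤ ·)] : IsDirected (α × β) (· ≤ ·) := by
  refine ⟨fun x y => ?_⟩
  obtain ⟨a, ha1, ha2⟩ := exists_ge_ge x.1 y.1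
  obtain ⟨b, hb1, hb2⟩ := exists_ge_ge x.2 y.2
  exact ⟨(a, b), ⟨ha1, hb1⟩, ⟨ha2, hb2⟩⟩

end

namespace Sys

section

variable {T : Type*} {S : T → Type*} [∀ Q, PseudoMetricSpace (S Q)] (s : Sys T S)

lemma tend_zero (C : ℝ) : Tendsto (fun n : ℕ => C * (1 / ((n : ℝ) + 1))) atTop (𝓝 0) := by
  simpa using tendsto_one_div_add_atTop_nhds_zero_nat.const_mul C

lemma exists_J (Q : T) (x : ∀ Q, Completion (S Q)) :
    ∃ y : Completion (S Q), Tendsto (fun n : ℕ =>
      ((s.join Q fun R => apx n (x R) : S Q) : Completion (S Q))) atTop (𝓝 y) := by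
  apply cauchySeq_tendsto_of_complete
  refine cauchySeq_of_le_tendsto_0 (fun N : ℕ => (2 * (s.ch Q).card : ℝ) * (1 / ((N : ℝ) + 1)))
    (fun n m N hn hm => ?_) (tend_zero _)
  rw [Completion.dist_eq]
  refine (s.lip _ _ _).trans ?_
  have h1 : ∀ R ∈ s.ch Q, dist (apx n (x R)) (apx m (x R)) ≤ 2 * (1 / ((N : ℝ) + 1)) := by
    intro R _
    rw [← Completion.dist_eq]
    have h2 := dist_triangle_right ((apx n (x R) : S R) : Completion (S R)) ((apx m (x R) : S R) : Completion (S R)) (x R)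
    have h3 := apx_dist n (x R)
    have h4 := apx_dist m (x R)
    have h5 : 1 / ((n : ℝ) + 1) ≤ 1 / ((N : ℝ) + 1) := by
      apply one_div_le_one_div_of_le (by positivity)
      have : (N : ℝ) ≤ n := by exact_mod_cast hn
      linarith
    have h6 : 1 / ((m : ℝ) + 1) ≤ 1 / ((N : ℝ) + 1) := by
      apply one_div_le_one_div_of_le (by positivity)
      have : (N : ℝ) ≤ m := by exact_mod_cast hm
      linarith
    linarith
  refine (Finset.sum_le_sum h1).trans (le_of_eq ?_)
  rw [Finset.sum_const, nsmul_eq_mul]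
  ring

/-- composition on the completions -/
noncomputable def J (Q : T) (x : ∀ Q, Completion (S Q)) : Completion (S Q) :=
  (s.exists_J Q x).choose

lemma J_tendsto (Q : T) (x : ∀ Q, Completion (S Q)) : Tendsto (fun n : ℕ =>
    ((s.join Q fun R => apx n (x R) : S Q) : Completion (S Q))) atTop (𝓝 (s.J Q x)) :=
  (s.exists_J Q x).choose_spec

lemma J_lip (Q : T) (x y : ∀ Q, Completion (S Q)) :
    dist (s.J Q x) (s.J Q y) ≤ ∑ R ∈ s.ch Q, dist (x R) (y R) := by
  have h1 : Tendsto (fun n : ℕ => (∑ R ∈ s.ch Q, dist (x R) (y R)) +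
      (2 * (s.ch Q).card : ℝ) * (1 / ((n : ℝ) + 1))) atTop
      (𝓝 ((∑ R ∈ s.ch Q, dist (x R) (y R)) + 0)) := tendsto_const_nhds.add (tend_zero _)
  rw [add_zero] at h1
  refine le_of_tendsto_of_tendsto ((s.J_tendsto Q x).dist (s.J_tendsto Q y)) h1
    (Eventually.of_forall fun n => ?_)
  dsimp only
  rw [Completion.dist_eq]
  refine (s.lip _ _ _).trans ?_
  have h2 : ∀ R ∈ s.ch Q, dist (apx n (x R)) (apx n (y R)) ≤
      dist (x R) (y R) + 2 * (1 / ((n : ℝ) + 1)) := by
    intro R _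
    rw [← Completion.dist_eq]
    have h3 := apx_dist n (x R)
    have h4 := apx_dist n (y R)
    have h5 := dist_triangle4 ((apx n (x R) : S R) : Completion (S R)) (x R) (y R) ((apx n (y R) : S R) : Completion (S R))
    rw [dist_comm (y R)] at h5
    linarith
  refine (Finset.sum_le_sum h2).trans (le_of_eq ?_)
  rw [Finset.sum_add_distrib, Finset.sum_const, nsmul_eq_mul]
  ring

lemma J_coe (Q : T) (a : ∀ Q, S Q) :
    s.J Q (fun R => (a R : Completion (S R))) = (s.join Q a : S Q) := by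
  refine tendsto_nhds_unique (s.J_tendsto Q _) ?_
  rw [tendsto_iff_dist_tendsto_zero]
  refine squeeze_zero (fun n => dist_nonneg) (fun n => ?_) (tend_zero ((s.ch Q).card : ℝ))
  rw [Completion.dist_eq]
  refine (s.lip _ _ _).trans ?_
  have h2 : ∀ R ∈ s.ch Q, dist (apx n (a R : Completion (S R)) : S R) (a R) ≤
      1 / ((n : ℝ) + 1) := by
    intro R _
    rw [← Completion.dist_eq]
    exact (apx_dist n _).le
  refine (Finset.sum_le_sum h2).trans (le_of_eq ?_)
  rw [Finset.sum_const, nsmul_eq_mul]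

/-- the completed system -/
noncomputable def cmp : Sys T (fun Q => Completion (S Q)) where
  lv := s.lv
  ch := s.ch
  root := s.root
  lv_root := s.lv_root
  lv_ch := s.lv_ch
  uniq := s.uniq
  reach := s.reach
  join := s.J
  congr Q x y h := by
    apply dist_le_zero.1
    refine (s.J_lip Q x y).trans (le_of_eq ?_)
    exact Finset.sum_eq_zero fun R hR => by rw [h R hR, dist_self]
  lip := s.J_lip
  o Q := (s.o Q : S Q)

/-- the embedding -/
def cc (a : ∀ Q, S Q) : ∀ Q, Completion (S Q) := fun Q => (a Q : Completion (S Q))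

lemma cmp_join_cc (Q : T) (a : ∀ Q, S Q) :
    s.cmp.join Q (cc a) = ((s.join Q a : S Q) : Completion (S Q)) := s.J_coe Q a

lemma cmp_Rc (n : ℕ) (a : ∀ Q, S Q) : s.cmp.Rc n (cc a) = cc (s.Rc n a) := by
  induction n generalizing a with
  | zero => rfl
  | succ n ih =>
    rw [Rc, Rc, ← ih]
    congr 1
    funext Q
    by_cases h : s.lv Q = n
    · have h' : s.cmp.lv Q = n := h
      simp only [U, cc, h, h', if_true]
      exact s.cmp_join_cc Q a
    · have h' : ¬ s.cmp.lv Q = n := h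
      simp only [U, cc, h, h', if_false]

lemma cmp_mg (b : ℕ → T) (m : ℕ) (a : ∀ Q, S Q) : s.cmp.mg b m (cc a) = cc (s.mg b m a) := by
  rw [mg, mg, ← cmp_Rc]
  congr 1
  funext Q
  by_cases h : Q = b m
  · subst h
    rw [Function.update_self, cc, Function.update_self]
    rfl
  · rw [Function.update_of_ne h, cc, cc, Function.update_of_ne h]

lemma Rc_mem {E : ∀ Q, Set (S Q)} (hE1 : ∀ Q a, (∀ R ∈ s.ch Q, a R ∈ E R) → s.join Q a ∈ E Q)
    (n : ℕ) {a : ∀ Q, S Q} (ha : ∀ Q, a Q ∈ E Q) (Q : T) : s.Rc n a Q ∈ E Q := by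
  induction n generalizing a with
  | zero => exact ha Q
  | succ n ih =>
    rw [Rc]
    refine ih fun Q => ?_
    unfold U
    by_cases h : s.lv Q = n
    · rw [if_pos h]
      exact hE1 Q a fun R _ => ha R
    · rw [if_neg h]
      exact ha Q

end

section

variable {T : Type*} {S : T → Type*} [∀ Q, PseudoMetricSpace (S Q)] (s : Sys T S)
  {Par : Type*} (E : Par → ∀ Q, Set (S Q))

/-- closure in the completion -/
def EE (t : Par) (Q : T) : Set (Completion (S Q)) :=
  closure ((fun a : S Q => (a : Completion (S Q))) '' E t Q)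

variable {E}

lemma join_EE (hE1 : ∀ t Q a, (∀ R ∈ s.ch Q, a R ∈ E t R) → s.join Q a ∈ E t Q) (t : Par) (Q : T)
    {x : ∀ Q, Completion (S Q)} (hx : ∀ R, x R ∈ EE E t R) : s.cmp.join Q x ∈ EE E t Q := by
  have h1 : x ∈ closure (Set.pi univ fun R => (fun a : S R => (a : Completion (S R))) '' E t R) := by
    rw [closure_pi_set]
    exact fun R _ => hx R
  refine map_mem_closure (s.cmp.continuous_join Q) h1 ?_
  intro y hy
  have h2 : ∀ R, ∃ a ∈ E t R, (a : Completion (S R)) = y R := fun R => hy R (mem_univ R)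
  choose a ha hay using h2
  have h3 : y = cc a := funext fun R => (hay R).symm
  rw [h3, s.cmp_join_cc]
  exact ⟨_, hE1 t Q a fun R _ => ha R, rfl⟩

lemma Rc_EE (hE1 : ∀ t Q a, (∀ R ∈ s.ch Q, a R ∈ E t R) → s.join Q a ∈ E t Q) (t : Par)
    (n : ℕ) {x : ∀ Q, Completion (S Q)} (hx : ∀ R, x R ∈ EE E t R) (Q : T) :
    s.cmp.Rc n x Q ∈ EE E t Q := by
  induction n generalizing x with
  | zero => exact hx Q
  | succ n ih =>
    rw [Rc]
    refine ih fun Q => ?_
    unfold U
    by_cases h : s.cmp.lv Q = n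
    · rw [if_pos h]
      exact s.join_EE hE1 t Q hx
    · rw [if_neg h]
      exact hx Q

variable [Preorder Par] [IsDirected Par (· ≤ ·)] [Nonempty Par]

lemma compact_cmp (hTB : ∀ Q, TotallyBounded (univ : Set (S Q))) (Q : T) :
    CompactSpace (Completion (S Q)) := by
  have h1 : TotallyBounded (range (fun a : S Q => (a : Completion (S Q)))) := by
    rw [← image_univ]
    exact (hTB Q).image (Completion.uniformContinuous_coe _)
  have h2 := h1.closure
  rw [Completion.denseRange_coe.closure_range] at h2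
  exact ⟨h2.isCompact_of_isClosed isClosed_univ⟩

/-- **Simultaneous slow states** -/
theorem exists_slow_seq (hTB : ∀ Q, TotallyBounded (univ : Set (S Q)))
    {P : Set (ℕ → T)} (hPc : P.Countable) (hP : ∀ b ∈ P, s.Br b)
    (hne : ∀ t Q, (E t Q).Nonempty) (hanti : ∀ t t', t ≤ t' → ∀ Q, E t' Q ⊆ E t Q)
    (hE1 : ∀ t Q a, (∀ R ∈ s.ch Q, a R ∈ E t R) → s.join Q a ∈ E t Q)
    (hE3 : ∀ t, ∀ b ∈ P, ∃ m₀, ∀ m ≥ m₀, s.o (b m) ∈ E t (b m)) :
    ∃ (𝓕 : Ultrafilter (Par × ℕ × Finset T)) (a : Par × ℕ × Finset T → ∀ Q, S Q),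
      (∀ t Q, ∀ᶠ i in (𝓕 : Filter _), a i Q ∈ E t Q) ∧
      (∀ n, ∀ᶠ i in (𝓕 : Filter _), ∀ Q, s.lv Q < n → a i Q = s.join Q (a i)) ∧
      (∀ b ∈ P, ∀ ε > 0, ∀ k₀, ∃ k ≥ k₀, ∀ᶠ i in (𝓕 : Filter _),
        dist (a i s.root) (s.mg b k (a i) s.root) < ε) := by
  have hcpt : ∀ Q, CompactSpace (Completion (S Q)) := compact_cmp hTB
  have hdir1 : IsDirected (Par × ℕ) (· ≤ ·) := directed_prod
  have hdir2 : IsDirected (ℕ × Finset T) (· ≤ ·) := directed_prod
  have hdir3 : IsDirected (Par × ℕ × Finset T) (· ≤ ·) := directed_prod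
  have hanti' : ∀ t t', t ≤ t' → ∀ Q, EE E t' Q ⊆ EE E t Q := fun t t' h Q =>
    closure_mono (image_mono (hanti t t' h Q))
  set V₀ : Set (∀ Q, Completion (S Q)) := {ξ | s.cmp.Coh ξ ∧ ∀ t Q, ξ Q ∈ EE E t Q} with hV₀
  have hcohc : IsClosed {ξ : ∀ Q, Completion (S Q) | s.cmp.Coh ξ} := by
    have : {ξ : ∀ Q, Completion (S Q) | s.cmp.Coh ξ} =
        ⋂ Q, {ξ | ξ Q = s.cmp.join Q ξ} := by
      ext ξ
      simp [Coh]
    rw [this]
    exact isClosed_iInter fun Q => isClosed_eq (continuous_apply Q) (s.cmp.continuous_join Q)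
  have hnice : s.cmp.Nice P V₀ := by
    refine ⟨?_, ?_, fun ξ hξ => hξ.1, ?_, ?_⟩
    · have h1 : V₀ = {ξ | s.cmp.Coh ξ} ∩ ⋂ t, ⋂ Q, {ξ | ξ Q ∈ EE E t Q} := by
        ext ξ
        simp [hV₀]
      rw [h1]
      exact hcohc.inter (isClosed_iInter fun t => isClosed_iInter fun Q =>
        isClosed_closure.preimage (continuous_apply Q))
    · -- nonempty
      choose a ha using hne
      let x : Par × ℕ → ∀ Q, Completion (S Q) := fun p => s.cmp.Rc p.2 (cc (a p.1))
      have hx : ∀ p Q, x p Q ∈ EE E p.1 Q := fun p Q =>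
        s.Rc_EE hE1 p.1 p.2 (fun R => subset_closure ⟨_, ha p.1 R, rfl⟩) Q
      obtain ⟨ξ, -, hξ⟩ := (isCompact_univ (X := ∀ Q, Completion (S Q))).ultrafilter_le_nhds
        ((Ultrafilter.of (atTop : Filter (Par × ℕ))).map x) (by simp)
      have hξQ : ∀ Q, Tendsto (fun p => x p Q)
          (Ultrafilter.of (atTop : Filter (Par × ℕ)) : Filter (Par × ℕ)) (𝓝 (ξ Q)) :=
        fun Q => ((continuous_apply Q).tendsto ξ).comp hξ
      refine ⟨ξ, fun Q => ?_, fun t Q => ?_⟩
      · have h1 : Tendsto (fun p => s.cmp.join Q (x p))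
            (Ultrafilter.of (atTop : Filter (Par × ℕ)) : Filter (Par × ℕ))
            (𝓝 (s.cmp.join Q ξ)) := s.cmp.join_tendsto fun R _ => hξQ R
        refine tendsto_nhds_unique (hξQ Q) (h1.congr' ?_)
        refine (Ultrafilter.of_le _) ?_
        have h2 : ∀ᶠ p : Par × ℕ in atTop, s.lv Q < p.2 := by
          obtain ⟨t⟩ := (inferInstance : Nonempty Par)
          filter_upwards [eventually_ge_atTop ((t, s.lv Q + 1) : Par × ℕ)] with p hp
          exact Nat.lt_of_succ_le hp.2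
        filter_upwards [h2] with p hp
        exact (s.cmp.Rc_lt _ hp).symm
      · refine isClosed_closure.mem_of_tendsto (hξQ Q) ?_
        refine (Ultrafilter.of_le _) ?_
        filter_upwards [eventually_ge_atTop ((t, 0) : Par × ℕ)] with p hp
        exact hanti' t p.1 hp.1 Q (hx p Q)
    · intro Q η hη ξ hξ
      refine ⟨s.cmp.sp_coh hη.1 hξ.1, fun t Q' => ?_⟩
      refine s.Rc_EE hE1 t _ (fun R => ?_) Q'
      by_cases h : s.cmp.Bel Q R
      · rw [if_pos h]
        exact hη.2 t R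
      · rw [if_neg h]
        exact hξ.2 t R
    · intro b hb ξ hξ
      refine ⟨s.cmp.Tb_coh b ξ, fun t Q => ?_⟩
      refine isClosed_closure.mem_of_tendsto (s.cmp.Tb_tendsto b ξ Q) ?_
      obtain ⟨m₀, hm₀⟩ := hE3 t b hb
      filter_upwards [UU_ge m₀] with m hm
      refine s.Rc_EE hE1 t _ (fun R => ?_) Q
      by_cases h : R = b m
      · subst h
        rw [Function.update_self]
        exact subset_closure ⟨_, hm₀ m hm, rfl⟩
      · rw [Function.update_of_ne h]
        exact hξ.2 t R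
  have hP' : ∀ b ∈ P, s.cmp.Br b := hP
  obtain ⟨ξ, ⟨hξc, hξE⟩, hξs⟩ := hnice.exists_slow hP' hPc
  -- approximations
  have hex : ∀ i : Par × ℕ × Finset T, ∃ a : ∀ Q, S Q, (∀ Q, a Q ∈ E i.1 Q) ∧
      ∀ Q ∈ i.2.2, dist (cc (s.Rc i.2.1 a) Q) (ξ Q) < 1 / ((i.2.1 : ℝ) + 1) := by
    rintro ⟨t, n, F⟩
    have h1 : ξ ∈ closure (Set.pi univ fun R =>
        (fun a : S R => (a : Completion (S R))) '' E t R) := by
      rw [closure_pi_set]
      exact fun R _ => hξE t R
    have h2 : {y : ∀ Q, Completion (S Q) | ∀ Q ∈ F,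
        dist (s.cmp.Rc n y Q) (ξ Q) < 1 / ((n : ℝ) + 1)} ∈ 𝓝 ξ := by
      refine (Filter.eventually_all_finset F).2 fun Q _ => ?_
      have h3 : Tendsto (fun y => s.cmp.Rc n y Q) (𝓝 ξ) (𝓝 (s.cmp.Rc n ξ Q)) :=
        ((continuous_apply Q).comp (s.cmp.continuous_Rc n)).tendsto ξ
      rw [s.cmp.Rc_coh hξc] at h3
      exact h3.eventually (Metric.ball_mem_nhds _ (by positivity))
    obtain ⟨y, hy1, hy2⟩ := mem_closure_iff_nhds.1 h1 _ h2
    have h4 : ∀ R, ∃ a ∈ E t R, (a : Completion (S R)) = y R := fun R => hy2 R (mem_univ R)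
    choose a ha hay using h4
    have h5 : y = cc a := funext fun R => (hay R).symm
    refine ⟨a, ha, fun Q hQ => ?_⟩
    have h6 := hy1 Q hQ
    rw [h5, s.cmp_Rc] at h6
    exact h6
  choose a ha hnear using hex
  obtain ⟨t₀⟩ := (inferInstance : Nonempty Par)
  refine ⟨Ultrafilter.of atTop, fun i => s.Rc i.2.1 (a i), ?_, ?_, ?_⟩
  · intro t Q
    refine (Ultrafilter.of_le _) ?_
    filter_upwards [eventually_ge_atTop ((t, 0, ∅) : Par × ℕ × Finset T)] with i hi
    exact hanti t i.1 hi.1 Q (s.Rc_mem (hE1 i.1) i.2.1 (ha i) Q)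
  · intro n
    refine (Ultrafilter.of_le _) ?_
    filter_upwards [eventually_ge_atTop ((t₀, n, ∅) : Par × ℕ × Finset T)] with i hi Q hQ
    exact s.Rc_lt _ (hQ.trans_le hi.2.1)
  · intro b hb ε hε k₀
    obtain ⟨k, hk, hd⟩ := hξs b hb ε hε k₀
    refine ⟨k, hk, (Ultrafilter.of_le _) ?_⟩
    have hlim : Tendsto (fun i : Par × ℕ × Finset T => cc (s.Rc i.2.1 (a i))) atTop (𝓝 ξ) := by
      rw [tendsto_pi_nhds]
      intro Q
      rw [Metric.tendsto_nhds]
      intro ε hε
      obtain ⟨n, hn⟩ := exists_nat_one_div_lt hε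
      filter_upwards [eventually_ge_atTop ((t₀, n, {Q}) : Par × ℕ × Finset T)] with i hi
      have h1 : Q ∈ i.2.2 := hi.2.2 (Finset.mem_singleton_self Q)
      have h2 := hnear i Q h1
      have h3 : n ≤ i.2.1 := hi.2.1
      refine h2.trans_le (le_trans ?_ hn.le)
      apply one_div_le_one_div_of_le (by positivity)
      have : (n : ℝ) ≤ i.2.1 := by exact_mod_cast h3
      linarith
    have h1 : Tendsto (fun i : Par × ℕ × Finset T => dist (cc (s.Rc i.2.1 (a i)) s.root)
        (s.cmp.mg b k (cc (s.Rc i.2.1 (a i))) s.root)) atTop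
        (𝓝 (dist (ξ s.root) (s.cmp.mg b k ξ s.root))) :=
      (((continuous_apply _).tendsto ξ).comp hlim).dist
        ((((continuous_apply _).comp (s.cmp.continuous_mg b k)).tendsto ξ).comp hlim)
    filter_upwards [h1.eventually (gt_mem_nhds hd)] with i hi
    rw [s.cmp_mg] at hi
    rwa [cc, cc, Completion.dist_eq] at hi

end

end Sys

end Vale.Agent.P116.Slow
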