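import Vale.Agent.P116.FK.S1
import Vale.Agent.P116.FK.S2
import Vale.Agent.P116.FK.Top

/-!
# S4, S5: primitives and square roots on the complement of a continuum
-/

open Set Metric Filter Topology Complex Bornology
open scoped ComplexConjugate Real

namespace Vale.Agent.P116.Slow.SS

open Vale.Agent.P116.FK

/-- the primitive on `{δ < infDist z K}` -/
theorem s4_local {K : Set ℂ} (hK : IsCompact K) (hKc : IsConnected K)
    {F : ℂ → ℂ} (hF : DifferentiableOn ℂ F Kᶜ)
    (hF0 : Tendsto (fun z => z * F z) (cobounded ℂ) (𝓝 0)) {δ : ℝ} (hδ : 0 < δ) :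
    ∃ Φ : ℂ → ℂ, (∀ z, δ < infDist z K → HasDerivAt Φ (F z) z) ∧
      Tendsto Φ (cobounded ℂ) (𝓝 0) := by
  obtain ⟨a₀, ha₀⟩ := hKc.nonempty
  have hF1 : Tendsto F (cobounded ℂ) (𝓝 0) := by
    have h1 : Tendsto (fun z : ℂ => z⁻¹ * (z * F z)) (cobounded ℂ) (𝓝 (0 * 0)) :=
      tendsto_inv₀_cobounded.mul hF0
    rw [mul_zero] at h1
    refine h1.congr' ?_
    filter_upwards [far_mem_cobounded 0] with z hz
    have hz0 : z ≠ 0 := norm_pos_iff.1 hz
    field_simp
  obtain ⟨t, G, htK, hG, hsum⟩ := s1 hK hF hF1 hδ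
  have h2 : ∀ x ∈ t, ∃ (a : ℂ) (Φ : ℂ → ℂ),
      (∀ z ∉ closedBall x δ, HasDerivAt Φ (G x z - a / (z - x)) z) ∧
      Tendsto Φ (cobounded ℂ) (𝓝 0) ∧ Tendsto (fun z => z * G x z) (cobounded ℂ) (𝓝 a) :=
    fun x hx => s2 hδ (hG x hx).1 (hG x hx).2
  have h3 : ∀ x ∈ t, ∃ L : ℂ → ℂ,
      (∀ z, δ < infDist z K → HasDerivAt L (1 / (z - x) - 1 / (z - a₀)) z) ∧
      Tendsto L (cobounded ℂ) (𝓝 0) :=
    fun x hx => s3 hK hKc (htK hx) ha₀ hδ
  choose! a Φ hΦ1 hΦ2 hΦ3 using h2
  choose! L hL1 hL2 using h3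
  have hfar : {z : ℂ | δ < infDist z K} ∈ cobounded ℂ := by
    obtain ⟨M, hM⟩ := hK.isBounded.subset_closedBall 0
    filter_upwards [far_mem_cobounded (M + δ)] with z hz
    obtain ⟨y, hy, hyz⟩ := hK.exists_infDist_eq_dist hKc.nonempty z
    rw [hyz]
    have h4 := hM hy
    rw [mem_closedBall] at h4
    have h5 := dist_triangle z y 0
    rw [dist_zero_right] at h5
    have h6 : M + δ < ‖z‖ := hz
    linarith
  have hsa : ∑ x ∈ t, a x = 0 := by
    have h4 : Tendsto (fun z => ∑ x ∈ t, z * G x z) (cobounded ℂ) (𝓝 (∑ x ∈ t, a x)) :=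
      tendsto_finsetSum t fun x hx => hΦ3 x hx
    refine tendsto_nhds_unique (h4.congr' ?_) hF0
    filter_upwards [hfar] with z hz
    rw [hsum z hz, Finset.mul_sum]
  refine ⟨fun z => ∑ x ∈ t, (Φ x z + a x * L x z), fun z hz => ?_, ?_⟩
  · have h4 : ∀ x ∈ t, HasDerivAt (fun z => Φ x z + a x * L x z)
        (G x z - a x / (z - x) + a x * (1 / (z - x) - 1 / (z - a₀))) z := by
      intro x hx
      refine (hΦ1 x hx z ?_).fun_add ((hL1 x hx z hz).const_mul (a x))
      rw [mem_closedBall, not_le]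
      exact hz.trans_le (infDist_le_dist_of_mem (htK hx))
    have h5 := HasDerivAt.fun_sum h4
    refine h5.congr_deriv ?_
    rw [hsum z hz]
    have h6 : ∀ x ∈ t, G x z - a x / (z - x) + a x * (1 / (z - x) - 1 / (z - a₀)) =
        G x z - a x * (1 / (z - a₀)) := by
      intro x _
      ring
    rw [Finset.sum_congr rfl h6, Finset.sum_sub_distrib, ← Finset.sum_mul, hsa, zero_mul, sub_zero]
  · have h4 : Tendsto (fun z => ∑ x ∈ t, (Φ x z + a x * L x z)) (cobounded ℂ)
        (𝓝 (∑ x ∈ t, (0 + a x * 0))) :=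
      tendsto_finsetSum t fun x hx => (hΦ2 x hx).add ((hL2 x hx).const_mul (a x))
    simpa using h4

theorem s4 : Spec.S4 := by
  intro K hK hKc hKcc F hF hF0
  obtain ⟨M, hM⟩ := hK.isBounded.subset_closedBall 0
  have hM0 : 0 ≤ |M| := abs_nonneg M
  set W : Set ℂ := {z | |M| + 1 < ‖z‖} with hW
  have hWc : IsConnected W := isConnected_far (by positivity)
  obtain ⟨p, hp⟩ := hWc.nonempty
  set δ : ℕ → ℝ := fun k => 1 / ((k : ℝ) + 1) with hδ
  have hδ0 : ∀ k, 0 < δ k := fun k => by positivity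
  have hδ1 : ∀ k, δ k ≤ 1 := fun k => by
    rw [hδ]
    simp only
    rw [div_le_one (by positivity)]
    have : (0 : ℝ) ≤ k := Nat.cast_nonneg k
    linarith
  have hcont : Continuous fun w : ℂ => infDist w K := continuous_infDist_pt K
  set U : ℕ → Set ℂ := fun k => {z | δ k < infDist z K} with hU
  have hUo : ∀ k, IsOpen (U k) := fun k => isOpen_lt continuous_const hcont
  have hWU : ∀ k, W ⊆ U k := by
    intro k z hz
    obtain ⟨y, hy, hyz⟩ := hK.exists_infDist_eq_dist hKc.nonempty z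
    have h4 := hM hy
    rw [mem_closedBall] at h4
    have h5 := dist_triangle z y 0
    rw [dist_zero_right] at h5
    have h6 : |M| + 1 < ‖z‖ := hz
    have h7 := le_abs_self M
    have h8 := hδ1 k
    simp only [hU, mem_ofPred_eq, hyz]
    linarith
  set V : ℕ → Set ℂ := fun k => connectedComponentIn (U k) p with hV
  have hVo : ∀ k, IsOpen (V k) := fun k => (hUo k).connectedComponentIn
  have hVc : ∀ k, IsPreconnected (V k) := fun k => isPreconnected_connectedComponentIn
  have hWV : ∀ k, W ⊆ V k := fun k => hWc.isPreconnected.subset_connectedComponentIn hp (hWU k)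
  have hVU : ∀ k, V k ⊆ U k := fun k => connectedComponentIn_subset _ _
  have hVm : ∀ j k, j ≤ k → V j ⊆ V k := by
    intro j k hjk
    apply connectedComponentIn_mono
    intro z hz
    have h1 : δ k ≤ δ j := by
      simp only [hδ]
      apply one_div_le_one_div_of_le (by positivity)
      have : (j : ℝ) ≤ k := by exact_mod_cast hjk
      linarith
    exact h1.trans_lt hz
  have hWcob : W ∈ cobounded ℂ := far_mem_cobounded _
  have hVb : ∀ k, V k ∈ cobounded ℂ := fun k => mem_of_superset hWcob (hWV k)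
  have hloc : ∀ k, ∃ Φ : ℂ → ℂ, (∀ z, δ k < infDist z K → HasDerivAt Φ (F z) z) ∧
      Tendsto Φ (cobounded ℂ) (𝓝 0) := fun k => s4_local hK hKc hF hF0 (hδ0 k)
  choose Φ hΦ1 hΦ2 using hloc
  have hagree : ∀ j k, j ≤ k → EqOn (Φ j) (Φ k) (V j) := by
    intro j k hjk
    exact prim_unique (hVo j) (hVc j) (hVb j) (fun z hz => hΦ1 j z (hVU j hz))
      (fun z hz => hΦ1 k z (hVU k (hVm j k hjk hz))) (hΦ2 j) (hΦ2 k)
  have hcover : ∀ z ∉ K, ∃ k, z ∈ V k := by
    intro z hz
    have hpK : p ∈ Kᶜ := by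
      intro hcon
      have h1 := hWU 0 hp
      simp only [hU, mem_ofPred_eq, infDist_zero_of_mem hcon] at h1
      exact absurd h1 (not_lt.2 (hδ0 0).le)
    have h1 : IsPathConnected Kᶜ := hK.isClosed.isOpen_compl.isConnected_iff_isPathConnected.1 hKcc
    have h2 : JoinedIn Kᶜ p z := h1.joinedIn p hpK z hz
    obtain ⟨γ, hγ⟩ := h2
    have h3 : IsCompact (range γ) := isCompact_range γ.continuous
    obtain ⟨y, hy, hymin⟩ := h3.exists_isMinOn (range_nonempty γ) hcont.continuousOn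
    have hypos : 0 < infDist y K := by
      obtain ⟨s, rfl⟩ := hy
      exact (hK.isClosed.notMem_iff_infDist_pos hKc.nonempty).1 (hγ s)
    obtain ⟨k, hk⟩ := exists_nat_one_div_lt hypos
    refine ⟨k, ?_⟩
    have h4 : range γ ⊆ U k := fun w hw => lt_of_lt_of_le hk (hymin hw)
    have h5 : IsPreconnected (range γ) := (isConnected_range γ.continuous).isPreconnected
    exact h5.subset_connectedComponentIn ⟨0, γ.source⟩ h4 ⟨1, γ.target⟩
  choose! κ hκ using hcover
  have hkey : ∀ k, ∀ z ∈ V k, Φ (κ z) z = Φ k z := by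
    intro k z hz
    have hzK : z ∉ K := by
      intro hcon
      have h1 := hVU k hz
      simp only [hU, mem_ofPred_eq, infDist_zero_of_mem hcon] at h1
      exact absurd h1 (not_lt.2 (hδ0 k).le)
    rcases le_total (κ z) k with h | h
    · exact hagree _ _ h (hκ z hzK)
    · exact (hagree _ _ h hz).symm
  refine ⟨fun z => Φ (κ z) z, fun z hz => ?_, ?_⟩
  · have h1 := hκ z hz
    have h2 : (fun z => Φ (κ z) z) =ᶠ[𝓝 z] Φ (κ z) := by
      filter_upwards [(hVo (κ z)).mem_nhds h1] with w hw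
      exact hkey _ w hw
    exact (hΦ1 (κ z) z (hVU _ h1)).congr_of_eventuallyEq h2
  · refine (hΦ2 0).congr' ?_
    filter_upwards [hVb 0] with z hz
    exact (hkey 0 z hz).symm

/-- Cauchy estimate at infinity -/
theorem tendsto_mul_deriv {f : ℂ → ℂ} {M : ℝ} (hf : DifferentiableOn ℂ f {z | M < ‖z‖}) {a : ℂ}
    (ha : Tendsto f (cobounded ℂ) (𝓝 a)) :
    Tendsto (fun z => z * deriv f z) (cobounded ℂ) (𝓝 0) := by
  rw [Metric.tendsto_nhds]
  intro ε hε
  have h1 : ∀ᶠ z in cobounded ℂ, dist (f z) a < ε / 4 :=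
    Metric.tendsto_nhds.1 ha _ (by positivity)
  obtain ⟨N, hN⟩ : ∃ N : ℝ, ∀ z : ℂ, N < ‖z‖ → dist (f z) a < ε / 4 := by
    rw [← comap_norm_atTop, eventually_comap, eventually_atTop] at h1
    obtain ⟨N, hN⟩ := h1
    exact ⟨N, fun z hz => hN _ hz.le z rfl⟩
  filter_upwards [far_mem_cobounded (2 * |N| + 2 * |M|)] with z hz
  have hz' : 2 * |N| + 2 * |M| < ‖z‖ := hz
  have hN1 := le_abs_self N
  have hM1 := le_abs_self M
  have hN0 := abs_nonneg N
  have hM0 := abs_nonneg M
  have hz0 : 0 < ‖z‖ := by linarith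
  have hball : ∀ w ∈ closedBall z (‖z‖ / 2), ‖z‖ / 2 ≤ ‖w‖ := by
    intro w hw
    rw [mem_closedBall, dist_eq_norm, norm_sub_rev] at hw
    have := norm_sub_norm_le z w
    linarith
  have hd : DiffContOnCl ℂ (fun w => f w - a) (ball z (‖z‖ / 2)) := by
    apply DifferentiableOn.diffContOnCl
    rw [closure_ball z (by positivity)]
    refine (hf.mono fun w hw => ?_).sub_const a
    have := hball w hw
    show M < ‖w‖
    linarith
  have h2 : ‖deriv (fun w => f w - a) z‖ ≤ (ε / 4) / (‖z‖ / 2) := by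
    apply Complex.norm_deriv_le_of_forall_mem_sphere_norm_le (by positivity) hd
    intro w hw
    have := hball w (sphere_subset_closedBall hw)
    have h3 := hN w (by linarith)
    rw [dist_eq_norm] at h3
    exact h3.le
  rw [deriv_sub_const_fun] at h2
  rw [dist_zero_right, norm_mul]
  calc ‖z‖ * ‖deriv f z‖ ≤ ‖z‖ * ((ε / 4) / (‖z‖ / 2)) :=
        mul_le_mul_of_nonneg_left h2 (norm_nonneg _)
    _ = ε / 2 := by field_simp; ring
    _ < ε := by linarith

theorem s5 : Spec.S5 := by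
  intro K hK hKc hKcc f hf hf0 a ha hfa
  have hKo : IsOpen Kᶜ := hK.isClosed.isOpen_compl
  obtain ⟨M, hM⟩ := hK.isBounded.subset_closedBall 0
  have hfarK : {z : ℂ | M < ‖z‖} ⊆ Kᶜ := by
    intro z hz hzK
    have h1 := hM hzK
    rw [mem_closedBall_zero_iff] at h1
    exact absurd hz (not_lt.2 h1)
  have hF : DifferentiableOn ℂ (fun z => deriv f z / f z) Kᶜ :=
    (hf.deriv hKo).div hf hf0
  have hF0 : Tendsto (fun z => z * (deriv f z / f z)) (cobounded ℂ) (𝓝 0) := by
    have h1 := (tendsto_mul_deriv (hf.mono hfarK) hfa).div hfa ha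
    rw [zero_div] at h1
    refine h1.congr fun z => ?_
    simp only [Pi.div_apply]
    ring
  obtain ⟨Φ, hΦ, hΦ0⟩ := s4 hK hKc hKcc hF hF0
  obtain ⟨b, hb⟩ : ∃ b : ℂ, b ^ 2 = a := ⟨Complex.exp (Complex.log a / 2), by
    rw [← Complex.exp_nat_mul]
    have : ((2 : ℕ) : ℂ) * (Complex.log a / 2) = Complex.log a := by
      push_cast
      ring
    rw [this, Complex.exp_log ha]⟩
  have hexp : ∀ z ∉ K, f z = a * Complex.exp (Φ z) := by
    have h1 : ∀ z ∈ Kᶜ, HasDerivAt (fun z => f z * Complex.exp (- Φ z)) 0 z := by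
      intro z hz
      have h2 : HasDerivAt f (deriv f z) z := (hf.differentiableAt (hKo.mem_nhds hz)).hasDerivAt
      have h3 := h2.fun_mul (hΦ z hz).fun_neg.cexp
      refine h3.congr_deriv ?_
      have := hf0 z hz
      field_simp
      ring
    obtain ⟨c, hc⟩ := hKo.exists_is_const_of_deriv_eq_zero hKcc.isPreconnected
      (fun z hz => (h1 z hz).differentiableAt.differentiableWithinAt) (fun z hz => (h1 z hz).deriv)
    have h4 : Tendsto (fun z => f z * Complex.exp (- Φ z)) (cobounded ℂ)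
        (𝓝 (a * Complex.exp (-0))) :=
      hfa.mul ((Complex.continuous_exp.tendsto _).comp hΦ0.neg)
    rw [neg_zero, Complex.exp_zero, mul_one] at h4
    have h5 : Tendsto (fun z => f z * Complex.exp (- Φ z)) (cobounded ℂ) (𝓝 c) := by
      refine tendsto_const_nhds.congr' ?_
      filter_upwards [mem_of_superset (far_mem_cobounded M) hfarK] with z hz
      exact (hc z hz).symm
    have h6 := tendsto_nhds_unique h4 h5
    intro z hz
    have h7 := hc z hz
    rw [h6, ← h7, mul_assoc, ← Complex.exp_add, neg_add_cancel, Complex.exp_zero, mul_one]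
  refine ⟨fun z => b * Complex.exp (Φ z / 2), ?_, ?_, b * Complex.exp (0 / 2), ?_⟩
  · intro z hz
    exact (((hΦ z hz).div_const 2).cexp.const_mul b).differentiableAt.differentiableWithinAt
  · intro z hz
    rw [hexp z hz, mul_pow, hb, ← Complex.exp_nat_mul]
    congr 2
    push_cast
    ring
  · exact ((Complex.continuous_exp.tendsto _).comp (hΦ0.div_const 2)).const_mul b

end Vale.Agent.P116.Slow.SS
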