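import Mathlib
import Vale.Agent.P116.FK.T1
import Vale.Agent.P116.FK.V

/-!
# Iterated reflections in disjoint circles
-/

open Set Metric Filter Topology Complex Bornology MeasureTheory
open scoped ComplexConjugate Real

namespace Vale.Agent.P116.Slow

open FK FK.T

variable {n : ℕ} {c : Fin n → ℂ} {r : Fin n → ℝ}

/-- disjoint closed disks -/
structure Dk (c : Fin n → ℂ) (r : Fin n → ℝ) : Prop where
  pos : ∀ i, 0 < r i
  disj : ∀ i j, i ≠ j → Disjoint (closedBall (c i) (r i)) (closedBall (c j) (r j))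

/-- the complement of the disks -/
def Ec (c : Fin n → ℂ) (r : Fin n → ℝ) : Set ℂ := {z | ∀ i, z ∉ closedBall (c i) (r i)}

/-- iterated reflection -/
noncomputable def rfw (c : Fin n → ℂ) (r : Fin n → ℝ) : List (Fin n) → ℂ → ℂ
  | [], z => z
  | i :: w, z => sg (c i) (r i) (rfw c r w z)

/-- the points off the disk of the last letter -/
def Lo (c : Fin n → ℂ) (r : Fin n → ℝ) (w : List (Fin n)) : Set ℂ :=
  {z | ∀ w' j, w = w' ++ [j] → z ∉ closedBall (c j) (r j)}

/-- reduced words -/
def Rw (w : List (Fin n)) : Prop := w.IsChain (· ≠ ·)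

lemma rw_nil : Rw ([] : List (Fin n)) := List.isChain_nil

lemma Rw.tail {i : Fin n} {w : List (Fin n)} (h : Rw (i :: w)) : Rw w := (List.isChain_cons.1 h).2

lemma Rw.left {i : Fin n} {w : List (Fin n)} (h : Rw (w ++ [i])) : Rw w :=
  List.IsChain.left_of_append h

lemma sg_mem_ball {c : ℂ} {r : ℝ} (hr : 0 < r) {z : ℂ} (hz : z ∉ closedBall c r) :
    sg c r z ∈ ball c r := by
  rw [mem_closedBall, dist_eq_norm, not_le] at hz
  rw [mem_ball, dist_eq_norm]
  unfold sg
  rw [add_sub_cancel_left, norm_div, norm_pow, norm_real, Real.norm_eq_abs, abs_of_pos hr,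
    norm_conj, div_lt_iff₀ (hr.trans hz)]
  nlinarith

lemma isOpen_Ec : IsOpen (Ec c r) := by
  have : Ec c r = (⋃ i, closedBall (c i) (r i))ᶜ := by
    ext z
    simp [Ec]
  rw [this]
  exact (isClosed_iUnion_of_finite fun i => isClosed_closedBall).isOpen_compl

lemma Ec_sub_Lo (w : List (Fin n)) : Ec c r ⊆ Lo c r w := fun _ hz _ j _ => hz j

lemma Lo_cons_sub (i : Fin n) (w : List (Fin n)) : Lo c r (i :: w) ⊆ Lo c r w := by
  intro z hz w' j hw
  exact hz (i :: w') j (by rw [hw]; rfl)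

lemma isOpen_Lo (w : List (Fin n)) : IsOpen (Lo c r w) := by
  rcases List.eq_nil_or_concat w with rfl | ⟨w', j, rfl⟩
  · have : Lo c r ([] : List (Fin n)) = univ := by
      ext z
      simp [Lo]
    rw [this]
    exact isOpen_univ
  · have : Lo c r (w' ++ [j]) = (closedBall (c j) (r j))ᶜ := by
      ext z
      constructor
      · intro hz
        exact hz w' j rfl
      · intro hz w'' j' hw
        have := List.append_inj' hw rfl
        have h2 : j = j' := by simpa using this.2
        rw [← h2]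
        exact hz
    rw [List.concat_eq_append, this]
    exact isClosed_closedBall.isOpen_compl

lemma Lo_singleton {j : Fin n} {z : ℂ} (hz : z ∈ Lo c r [j]) : z ∉ closedBall (c j) (r j) :=
  hz [] j rfl

/-- ping-pong -/
lemma rfw_mem (D : Dk c r) {i : Fin n} {w : List (Fin n)} (hw : Rw (i :: w)) {z : ℂ}
    (hz : z ∈ Lo c r (i :: w)) :
    rfw c r w z ∉ closedBall (c i) (r i) ∧ rfw c r (i :: w) z ∈ ball (c i) (r i) := by
  induction w generalizing i with
  | nil =>
    have h1 := Lo_singleton hz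
    exact ⟨h1, sg_mem_ball (D.pos i) h1⟩
  | cons j w ih =>
    have hij : i ≠ j := by
      have := (List.isChain_cons.1 hw).1 j (by simp)
      exact this
    have h1 := (ih hw.tail (Lo_cons_sub i _ hz)).2
    have h2 : rfw c r (j :: w) z ∉ closedBall (c i) (r i) := fun h3 =>
      Set.disjoint_left.1 (D.disj i j hij) h3 (ball_subset_closedBall h1)
    exact ⟨h2, sg_mem_ball (D.pos i) h2⟩

lemma rfw_diff (D : Dk c r) {w : List (Fin n)} (hw : Rw w) :
    DifferentiableOn ℂ (fun z => pc w (rfw c r w z)) (Lo c r w) := by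
  induction w with
  | nil =>
    simp only [pc_nil, rfw]
    exact differentiableOn_id
  | cons i w ih =>
    have h1 : DifferentiableOn ℂ (tau (c i) (r i)) {c i}ᶜ := by
      intro z hz
      have h2 : z - c i ≠ 0 := sub_ne_zero.2 hz
      have h3 : DifferentiableAt ℂ (fun z : ℂ => z - c i) z := by fun_prop
      have h4 : DifferentiableAt ℂ (fun z : ℂ => conj (c i) + (r i : ℂ) ^ 2 / (z - c i)) z :=
        ((differentiableAt_const _).div h3 h2).const_add _
      exact h4.differentiableWithinAt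
    have h4 := pc_comp_diff w (isOpen_compl_singleton (x := c i)) h1
      ((ih hw.tail).mono (Lo_cons_sub i w)) (fun z hz =>
        ne_center (D.pos i) (rfw_mem D hw hz).1)
    refine h4.congr fun z _ => ?_
    rw [pc_cons, rfw, sg_eq]
    unfold pc
    split_ifs <;> simp

lemma rfw_cont (D : Dk c r) {w : List (Fin n)} (hw : Rw w) :
    ContinuousOn (rfw c r w) (Lo c r w) := by
  have h1 := (continuous_pc w).comp_continuousOn (rfw_diff D hw).continuousOn
  refine h1.congr fun z _ => ?_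
  simp [Function.comp, pc_pc]

lemma rfw_inj (D : Dk c r) {w : List (Fin n)} (hw : Rw w) : InjOn (rfw c r w) (Lo c r w) := by
  induction w with
  | nil => exact fun x _ y _ h => h
  | cons i w ih =>
    intro x hx y hy h
    have h1 := ne_center (D.pos i) (rfw_mem D hw hx).1
    have h2 := ne_center (D.pos i) (rfw_mem D hw hy).1
    exact ih hw.tail (Lo_cons_sub i w hx) (Lo_cons_sub i w hy) (sg_injOn (D.pos i) h1 h2 h)

/-- distinct words have disjoint images -/
lemma rfw_word (D : Dk c r) {w w' : List (Fin n)} (hw : Rw w) (hw' : Rw w') {z z' : ℂ}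
    (hz : z ∈ Ec c r) (hz' : z' ∈ Ec c r) (h : rfw c r w z = rfw c r w' z') : w = w' := by
  induction w generalizing w' with
  | nil =>
    cases w' with
    | nil => rfl
    | cons j w' =>
      have h1 := (rfw_mem D hw' (Ec_sub_Lo _ hz')).2
      rw [← h] at h1
      exact absurd (ball_subset_closedBall h1) (hz j)
  | cons i w ih =>
    cases w' with
    | nil =>
      have h1 := (rfw_mem D hw (Ec_sub_Lo _ hz)).2
      rw [h] at h1
      exact absurd (ball_subset_closedBall h1) (hz' i)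
    | cons j w' =>
      have h1 := rfw_mem D hw (Ec_sub_Lo _ hz)
      have h2 := rfw_mem D hw' (Ec_sub_Lo _ hz')
      by_cases hij : i = j
      · subst hij
        have h3 := sg_injOn (D.pos i) (ne_center (D.pos i) h1.1) (ne_center (D.pos i) h2.1) h
        rw [ih hw.tail hw'.tail h3]
      · rw [h] at h1
        exact absurd (ball_subset_closedBall h2.2)
          (Set.disjoint_left.1 (D.disj i j hij) (ball_subset_closedBall h1.2))

lemma rfw_append (w : List (Fin n)) (j : Fin n) (z : ℂ) :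
    rfw c r (w ++ [j]) z = rfw c r w (sg (c j) (r j) z) := by
  induction w with
  | nil => rfl
  | cons i w ih => rw [List.cons_append, rfw, rfw, ih]

/-- bound -/
lemma rfw_norm (D : Dk c r) {B : ℝ} (hB : ∀ i, closedBall (c i) (r i) ⊆ closedBall 0 B)
    {w : List (Fin n)} (hw : Rw w) (hne : w ≠ []) {z : ℂ} (hz : z ∈ Lo c r w) :
    ‖rfw c r w z‖ ≤ B := by
  obtain ⟨i, w', rfl⟩ := List.exists_cons_of_ne_nil hne
  simpa using hB i (ball_subset_closedBall (rfw_mem D hw hz).2)

lemma volume_pc_image' (w : List (Fin n)) {s : Set ℂ} (hs : MeasurableSet s) :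
    volume (pc w '' s) = volume s := by
  unfold pc
  split_ifs with h
  · simp
  · have h1 : (fun z : ℂ => conj z) '' s = (conjLIE ⁻¹' s : Set ℂ) := by
      ext z
      constructor
      · rintro ⟨y, hy, rfl⟩
        simpa using hy
      · intro hz
        exact ⟨conj z, by simpa using hz, by simp⟩
    have h3 := (conjLIE.measurePreserving).measure_preimage hs.nullMeasurableSet
    rw [h1]
    exact h3

/-- **area bound** for a family of analytic functions `u w` such that the maps `pc w ∘ u w` have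
disjoint images -/
lemma gen_area (S : Finset (List (Fin n))) {u : List (Fin n) → ℂ → ℂ} {x : List (Fin n) → ℂ}
    {δ B : ℝ} (hδ : 0 < δ) (hB : 0 ≤ B)
    (hd : ∀ w ∈ S, DifferentiableOn ℂ (u w) (ball (x w) δ))
    (hi : ∀ w ∈ S, InjOn (u w) (ball (x w) δ))
    (hdis : ∀ w ∈ S, ∀ w' ∈ S, w ≠ w' → ∀ z ∈ ball (x w) δ, ∀ z' ∈ ball (x w') δ,
      pc w (u w z) ≠ pc w' (u w' z'))
    (hb : ∀ w ∈ S, ∀ z ∈ ball (x w) δ, ‖u w z‖ ≤ B) :
    ∑ w ∈ S, ‖deriv (u w) (x w)‖ ^ 2 ≤ B ^ 2 / δ ^ 2 := by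
  have hopen : ∀ w ∈ S, IsOpen (u w '' ball (x w) δ) := fun w hw =>
    isOpen_image_of_injOn isOpen_ball (hd w hw) (hi w hw)
  set A : List (Fin n) → Set ℂ := fun w => pc w '' (u w '' ball (x w) δ) with hA
  have hAm : ∀ w ∈ S, MeasurableSet (A w) := by
    intro w hw
    have h3 : A w = pc w ⁻¹' (u w '' ball (x w) δ) := by
      ext z
      constructor
      · rintro ⟨y, hy, rfl⟩
        rw [mem_preimage, pc_pc]; exact hy
      · intro hz
        exact ⟨pc w z, hz, pc_pc _ _⟩
    rw [h3]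
    exact ((hopen w hw).preimage (continuous_pc _)).measurableSet
  have hdisj : (↑S : Set (List (Fin n))).PairwiseDisjoint A := by
    intro a ha b hb' hab
    rw [Function.onFun, Set.disjoint_left]
    rintro _ ⟨_, ⟨ζ, hζ, rfl⟩, rfl⟩ ⟨_, ⟨η, hη, rfl⟩, h⟩
    exact hdis a ha b hb' hab ζ hζ η hη h.symm
  have hsub : (⋃ q ∈ S, A q) ⊆ closedBall 0 B := by
    intro z hz
    rw [mem_iUnion₂] at hz
    obtain ⟨q, hq, _, ⟨ζ, hζ, rfl⟩, rfl⟩ := hz
    rw [mem_closedBall_zero_iff, norm_pc]
    exact hb q hq ζ hζ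
  have hvol : ∑ q ∈ S, volume (A q) ≤ volume (closedBall (0 : ℂ) B) := by
    rw [← measure_biUnion_finset hdisj hAm]
    exact measure_mono hsub
  have hle : ∑ q ∈ S, ENNReal.ofReal (π * δ ^ 2 * ‖deriv (u q) (x q)‖ ^ 2) ≤
      volume (closedBall (0 : ℂ) B) := by
    refine le_trans (Finset.sum_le_sum fun q hq => ?_) hvol
    rw [show volume (A q) = volume (u q '' ball (x q) δ) from
      volume_pc_image' q (hopen q hq).measurableSet]
    exact FK.v hδ (hd q hq) (hi q hq)
  rw [Complex.volume_closedBall, ← ENNReal.ofReal_sum_of_nonneg (fun q _ => by positivity)] at hle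
  have h5 : ENNReal.ofReal B ^ 2 * ↑NNReal.pi = ENNReal.ofReal (π * B ^ 2) := by
    rw [mul_comm, ENNReal.ofReal_mul Real.pi_pos.le, ENNReal.ofReal_pow hB]
    congr 1
    rw [← ENNReal.ofReal_coe_nnreal]
    rfl
  rw [h5, ENNReal.ofReal_le_ofReal_iff (by positivity)] at hle
  have h6 : ∑ q ∈ S, π * δ ^ 2 * ‖deriv (u q) (x q)‖ ^ 2 =
      (π * δ ^ 2) * ∑ q ∈ S, ‖deriv (u q) (x q)‖ ^ 2 := by
    rw [Finset.mul_sum]
  rw [h6] at hle
  rw [le_div_iff₀ (by positivity)]
  have hpi := Real.pi_pos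
  have h7 : π * ((∑ q ∈ S, ‖deriv (u q) (x q)‖ ^ 2) * δ ^ 2) ≤ π * B ^ 2 := by
    calc π * ((∑ q ∈ S, ‖deriv (u q) (x q)‖ ^ 2) * δ ^ 2) =
        (π * δ ^ 2) * ∑ q ∈ S, ‖deriv (u q) (x q)‖ ^ 2 := by ring
      _ ≤ _ := hle
  exact le_of_mul_le_mul_left h7 hpi

end Vale.Agent.P116.Slow
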