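import Mathlib
import Vale.Agent.P116.Slow.Refl
import Vale.Agent.P116.FK.RF
import Vale.Agent.P116.FK.Z1
import Vale.Agent.P116.FK.LM

/-!
# Gluing along a collar
-/

open Set Metric Filter Topology Complex Bornology MeasureTheory
open scoped ComplexConjugate Real

namespace Vale.Agent.P116.Slow

open FK FK.T

variable {n : ℕ} {c c' : Fin n → ℂ} {r r' : Fin n → ℝ} {e : Fin n → ℂ → ℂ} {R ρ : ℝ}
  {g g' : ℂ → ℂ} {j : Fin n}

/-- boundary data of a map `g` on the collar `j` -/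
structure Cd (e : Fin n → ℂ → ℂ) (R : ℝ) (c : Fin n → ℂ) (r : Fin n → ℝ) (g : ℂ → ℂ)
    (j : Fin n) : Prop where
  diff : DifferentiableOn ℂ (fun ζ => g (e j ζ)) (ann 1 R)
  inj : InjOn (fun ζ => g (e j ζ)) (ann 1 R)
  out : ∀ ζ ∈ ann 1 R, g (e j ζ) ∈ Ec c r
  bd : ∀ ε > 0, ∃ δ > 0, ∀ ζ ∈ ann 1 R, ‖ζ‖ < 1 + δ → ‖g (e j ζ) - c j‖ < r j + ε

/-- reflection principle -/
lemma Cd.refl (D : Dk c r) (hR : 1 < R) (hg : Cd e R c r g j) :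
    ∃ Φ : ℂ → ℂ, DifferentiableOn ℂ Φ (ann R⁻¹ R) ∧ (∀ ζ ∈ ann 1 R, Φ ζ = g (e j ζ)) ∧
      (∀ ζ ∈ ann R⁻¹ 1, Φ ζ = sg (c j) (r j) (g (e j (conj ζ)⁻¹))) ∧
      (∀ ζ ∈ ann R⁻¹ R, ‖ζ‖ ≤ 1 → Φ ζ ∈ closedBall (c j) (r j)) := by
  have hr := D.pos j
  have hrc : (r j : ℂ) ≠ 0 := by exact_mod_cast hr.ne'
  have hout : ∀ ζ ∈ ann 1 R, r j < ‖g (e j ζ) - c j‖ := by
    intro ζ hζ
    have h2 := hg.out ζ hζ j
    rwa [mem_closedBall_iff_norm, not_le] at h2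
  have hnorm : ∀ w : ℂ, ‖(w - c j) / r j‖ = ‖w - c j‖ / r j := fun w => by
    rw [norm_div, Complex.norm_real, Real.norm_eq_abs, abs_of_pos hr]
  have hF1 : ∀ ζ ∈ ann 1 R, 1 < ‖(g (e j ζ) - c j) / r j‖ := fun ζ hζ => by
    rw [hnorm, one_lt_div hr]
    exact hout _ hζ
  obtain ⟨ψ, hψd, hψo, hψr⟩ := rf hR (F := fun ζ => (g (e j ζ) - c j) / r j)
    ((hg.diff.sub_const _).div_const _)
    (fun ζ hζ h => by
      have := hF1 ζ hζ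
      rw [h, norm_zero] at this
      linarith) (by
    intro ε hε
    obtain ⟨δ, hδ, hb⟩ := hg.bd (ε * r j) (by positivity)
    refine ⟨min δ (R - 1), lt_min hδ (by linarith), fun ζ h4 h5 => ?_⟩
    have h6 : ‖ζ‖ < 1 + δ := by have := min_le_left δ (R - 1); linarith
    have h7 : ‖ζ‖ < R := by have := min_le_right δ (R - 1); linarith
    have h8 := hb ζ ⟨h4, h7⟩ h6
    have h10 := hF1 ζ ⟨h4, h7⟩
    rw [abs_of_pos (by linarith), hnorm, sub_lt_iff_lt_add, div_lt_iff₀ hr, add_mul, one_mul]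
    linarith)
  have hcirc : ∀ ζ, ‖ζ‖ = 1 → ‖ψ ζ‖ = 1 := by
    intro ζ hζ
    have h1 := hψr ζ (LM.circ_mem hR hζ)
    have h2 : (conj ζ)⁻¹ = ζ := by
      have h3 : conj ζ * ζ = 1 := by
        rw [mul_comm, Complex.mul_conj, Complex.normSq_eq_norm_sq, hζ]
        norm_num
      exact inv_eq_of_mul_eq_one_right h3
    rw [h2, mul_comm, Complex.mul_conj, Complex.normSq_eq_norm_sq] at h1
    have h3 : ‖ψ ζ‖ ^ 2 = 1 := by exact_mod_cast h1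
    nlinarith [norm_nonneg (ψ ζ)]
  have hin : ∀ ζ ∈ ann R⁻¹ R, ‖ζ‖ < 1 → ‖ψ ζ‖ ≤ 1 := by
    intro ζ hζ h1
    have h2 : (conj ζ)⁻¹ ∈ ann 1 R := star_mem hR ⟨hζ.1, h1⟩
    have h3 := hψr ζ hζ
    have h4 : ‖ψ ζ‖ * ‖ψ (conj ζ)⁻¹‖ = 1 := by
      rw [← Complex.norm_conj (ψ ζ), ← norm_mul, h3, norm_one]
    have h5 : 1 < ‖ψ (conj ζ)⁻¹‖ := by rw [hψo _ h2]; exact hF1 _ h2
    nlinarith [norm_nonneg (ψ ζ)]
  refine ⟨fun ζ => c j + r j * ψ ζ, (hψd.const_mul _).const_add _, fun ζ hζ => ?_, fun ζ hζ => ?_,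
    fun ζ hζ h1 => ?_⟩
  · change c j + r j * ψ ζ = _
    rw [hψo ζ hζ]
    field_simp
    ring
  · change c j + r j * ψ ζ = _
    have h2 : (conj ζ)⁻¹ ∈ ann 1 R := star_mem hR hζ
    have h3 := hψr ζ (ann_in hR hζ)
    rw [hψo _ h2] at h3
    have h4 : g (e j (conj ζ)⁻¹) - c j ≠ 0 := by
      intro h4
      have := hout _ h2
      rw [h4, norm_zero] at this
      linarith
    have h5 : conj (ψ ζ) = r j / (g (e j (conj ζ)⁻¹) - c j) := by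
      rw [eq_div_iff h4]
      have h7 : conj (ψ ζ) * (g (e j (conj ζ)⁻¹) - c j) =
          (conj (ψ ζ) * ((g (e j (conj ζ)⁻¹) - c j) / r j)) * r j := by
        field_simp
      rw [h7, h3, one_mul]
    have h6 : ψ ζ = r j / conj (g (e j (conj ζ)⁻¹) - c j) := by
      have := congrArg conj h5
      rw [conj_conj, map_div₀, conj_ofReal] at this
      exact this
    rw [h6, sg]
    ring
  · rw [mem_closedBall, dist_eq_norm]
    change ‖c j + r j * ψ ζ - c j‖ ≤ r j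
    rw [add_sub_cancel_left, norm_mul, Complex.norm_real, Real.norm_eq_abs, abs_of_pos hr]
    rcases h1.lt_or_eq with h1 | h1
    · have := hin ζ hζ h1
      nlinarith
    · rw [hcirc ζ h1, mul_one]

/-- the extended maps of the words -/
lemma Cd.glue (D : Dk c r) (hR : 1 < R) (hg : Cd e R c r g j) {w : List (Fin n)}
    (hw : Rw (w ++ [j])) :
    ∃ ψ : ℂ → ℂ, DifferentiableOn ℂ (fun ζ => pc w (ψ ζ)) (ann R⁻¹ R) ∧
      (∀ ζ ∈ ann 1 R, ψ ζ = rfw c r w (g (e j ζ))) ∧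
      (∀ ζ ∈ ann R⁻¹ 1, ψ ζ = rfw c r (w ++ [j]) (g (e j (conj ζ)⁻¹))) ∧
      ∀ p ∈ Ec c r, (∀ ζ ∈ ann 1 R, g (e j ζ) ≠ p) → ∀ ζ ∈ ann R⁻¹ R, ψ ζ ≠ p := by
  obtain ⟨Φ, h1, h2, h3, h4⟩ := hg.refl D hR
  have hw' : Rw w := hw.left
  have hlast : ∀ w' i, w = w' ++ [i] → i ≠ j := by
    rintro w' i rfl
    have h5 : (w' ++ [i] ++ [j]).IsChain (· ≠ ·) := hw
    rw [List.isChain_append] at h5
    exact h5.2.2 i (by simp) j (by simp)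
  have hLo : ∀ ζ ∈ ann R⁻¹ R, Φ ζ ∈ Lo c r w := by
    intro ζ hζ w' i hwi
    by_cases h : 1 < ‖ζ‖
    · rw [h2 ζ ⟨h, hζ.2⟩]
      exact hg.out ζ ⟨h, hζ.2⟩ i
    · intro hmem
      exact Set.disjoint_left.1 (D.disj i j (hlast w' i hwi)) hmem (h4 ζ hζ (not_lt.1 h))
  refine ⟨fun ζ => rfw c r w (Φ ζ), ?_, fun ζ hζ => ?_, fun ζ hζ => ?_, ?_⟩
  · exact (rfw_diff D hw').comp h1 hLo
  · simp only
    rw [h2 ζ hζ]
  · simp only
    rw [h3 ζ hζ, rfw_append]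
  · intro p hp hp2 ζ hζ
    simp only
    rcases w with _ | ⟨i, w⟩
    · show Φ ζ ≠ p
      by_cases h : 1 < ‖ζ‖
      · rw [h2 ζ ⟨h, hζ.2⟩]
        exact hp2 ζ ⟨h, hζ.2⟩
      · intro h5
        have h6 := h4 ζ hζ (not_lt.1 h)
        rw [h5] at h6
        exact hp j h6
    · intro h5
      have h6 := (rfw_mem D hw' (hLo ζ hζ)).2
      rw [h5] at h6
      exact hp i (ball_subset_closedBall h6)

/-- the functions of the words on the collar -/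
noncomputable def uc (e : Fin n → ℂ → ℂ) (c : Fin n → ℂ) (r : Fin n → ℝ) (g : ℂ → ℂ)
    (j : Fin n) (w : List (Fin n)) (ζ : ℂ) : ℂ := pc w (rfw c r w (g (e j ζ)))

lemma uc_diff (D : Dk c r) (hg : Cd e R c r g j) {w : List (Fin n)} (hw : Rw w) :
    DifferentiableOn ℂ (uc e c r g j w) (ann 1 R) :=
  (rfw_diff D hw).comp hg.diff fun ζ hζ => Ec_sub_Lo w (hg.out ζ hζ)

lemma uc_inj (D : Dk c r) (hg : Cd e R c r g j) {w : List (Fin n)} (hw : Rw w) :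
    InjOn (uc e c r g j w) (ann 1 R) := by
  intro x hx y hy h
  have h1 := pc_injective w h
  exact hg.inj hx hy (rfw_inj D hw (Ec_sub_Lo w (hg.out x hx)) (Ec_sub_Lo w (hg.out y hy)) h1)

/-- the fluxes -/
noncomputable def fx (e : Fin n → ℂ → ℂ) (ρ : ℝ) (c c' : Fin n → ℂ) (r r' : Fin n → ℝ)
    (g g' : ℂ → ℂ) (p : ℂ) (j : Fin n) (w : List (Fin n)) : ℂ :=
  ∮ ζ in C(0, ρ), (uc e c' r' g' j w ζ - uc e c r g j w ζ) * deriv (uc e c r g j w) ζ /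
    (uc e c r g j w ζ - pc w p)

theorem fx_glue (D : Dk c r) (D' : Dk c' r') (hg : Cd e R c r g j) (hg' : Cd e R c' r' g' j)
    (h1 : 1 < ρ) (h2 : ρ < R) {p : ℂ} (hp : p ∈ Ec c r) (hp2 : ∀ ζ ∈ ann 1 R, g (e j ζ) ≠ p)
    {w : List (Fin n)} (hw : Rw (w ++ [j])) :
    fx e ρ c c' r r' g g' p j (w ++ [j]) = conj (fx e ρ c c' r r' g g' p j w) := by
  have hR : 1 < R := h1.trans h2
  obtain ⟨ψ, hψd, hψ1, hψ2, hψp⟩ := hg.glue D hR hw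
  obtain ⟨ψ', hψd', hψ1', hψ2', -⟩ := hg'.glue D' hR hw
  have hρ0 : 0 < ρ := by linarith
  have hR0 : 0 < R := by linarith
  set q := pc w p with hq
  have hinv : ∀ ζ ∈ ann 1 R, (conj ζ)⁻¹ ∈ ann R⁻¹ 1 := by
    rintro ζ ⟨ha, hb⟩
    refine ⟨?_, ?_⟩
    · rw [norm_inv, Complex.norm_conj]; exact inv_strictAnti₀ (by linarith) hb
    · rw [norm_inv, Complex.norm_conj]; exact inv_lt_one_of_one_lt₀ ha
  have hu : ∀ ζ ∈ ann 1 R, uc e c r g j (w ++ [j]) ζ = conj (pc w (ψ (conj ζ)⁻¹)) := by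
    intro ζ hζ
    rw [uc, pc_append, hψ2 _ (hinv ζ hζ)]
    simp
  have hu' : ∀ ζ ∈ ann 1 R, uc e c' r' g' j (w ++ [j]) ζ = conj (pc w (ψ' (conj ζ)⁻¹)) := by
    intro ζ hζ
    rw [uc, pc_append, hψ2' _ (hinv ζ hζ)]
    simp
  rw [fx, pc_append, circle_reflect (A' := fun ζ => pc w (ψ' ζ)) h1 h2 hψd (q := q) hu hu', fx]
  congr 1
  have hne : ∀ ζ ∈ ann R⁻¹ R, pc w (ψ ζ) - q ≠ 0 := by
    intro ζ hζ h0
    exact hψp p hp hp2 ζ hζ (pc_injective w (sub_eq_zero.1 h0))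
  have hHd : DifferentiableOn ℂ (fun ζ => (pc w (ψ' ζ) - pc w (ψ ζ)) * deriv (fun ζ => pc w (ψ ζ)) ζ /
      (pc w (ψ ζ) - q)) (ann R⁻¹ R) :=
    ((hψd'.sub hψd).mul (hψd.deriv (isOpen_ann _ _))).div (hψd.sub_const q) hne
  have hle : ρ⁻¹ ≤ ρ := (inv_le_one_of_one_le₀ h1.le).trans h1.le
  have hρi : R⁻¹ < ρ⁻¹ := inv_strictAnti₀ hρ0 h2
  have hsub : closedBall (0 : ℂ) ρ \ ball 0 ρ⁻¹ ⊆ ann R⁻¹ R := by
    rintro ζ ⟨ha, hb⟩
    rw [mem_closedBall_zero_iff] at ha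
    rw [mem_ball_zero_iff, not_lt] at hb
    exact ⟨by linarith, by linarith⟩
  rw [← Complex.circleIntegral_eq_of_differentiable_on_annulus_off_countable (inv_pos.2 hρ0) hle
    (f := fun ζ => (pc w (ψ' ζ) - pc w (ψ ζ)) * deriv (fun ζ => pc w (ψ ζ)) ζ / (pc w (ψ ζ) - q))
    countable_empty (hHd.continuousOn.mono hsub) (by
      rintro z ⟨⟨ha, hb⟩, -⟩
      have hz : z ∈ ann R⁻¹ R := hsub ⟨ball_subset_closedBall ha, fun h => hb (ball_subset_closedBall h)⟩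
      exact (hHd z hz).differentiableAt ((isOpen_ann _ _).mem_nhds hz))]
  apply circleIntegral.integral_congr hρ0.le
  intro ζ hζ
  have hζ' : ζ ∈ ann 1 R := by
    rw [mem_sphere_zero_iff_norm] at hζ
    exact ⟨by rw [hζ]; exact h1, by rw [hζ]; exact h2⟩
  have e1 : (fun ζ => pc w (ψ ζ)) =ᶠ[𝓝 ζ] uc e c r g j w := by
    filter_upwards [(isOpen_ann _ _).mem_nhds hζ'] with y hy
    rw [hψ1 y hy, uc]
  simp only
  rw [e1.deriv_eq, hψ1 ζ hζ', hψ1' ζ hζ']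
  rfl

end Vale.Agent.P116.Slow
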