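import Mathlib
import Vale.Agent.P116.Slow.Glue
import Vale.Agent.P116.Slow.Stokes
import Vale.Agent.P116.FK.Z3
import Vale.Agent.P116.FK.Z

/-!
# Rigidity with a small jump: comparison of a glued map with the Koebe map
-/

open Set Metric Filter Topology Complex Bornology MeasureTheory
open scoped ComplexConjugate Real

namespace Vale.Agent.P116.Slow

open FK FK.T

variable {n : ℕ} {P : Fin n → Set ℂ} {e : Fin n → ℂ → ℂ} {R R₀ ρ : ℝ} {χ : ℂ → ℂ}
  {A N1 N2 U : Set ℂ} {c c' : Fin n → ℂ} {r r' : Fin n → ℝ} {Z X Y : ℂ → ℂ} {B d₀ r₀ ε : ℝ}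

/-- the data: `Z` is the exact circle map; `Y` is defined inside, `X` outside, they map to the
complement of the second system of disks, and they are close on the transition region `A` -/
structure Mix (P : Fin n → Set ℂ) (e : Fin n → ℂ → ℂ) (R : ℝ) (χ : ℂ → ℂ) (A N1 N2 U : Set ℂ)
    (c : Fin n → ℂ) (r : Fin n → ℝ) (Z : ℂ → ℂ) (c' : Fin n → ℂ) (r' : Fin n → ℝ) (X Y : ℂ → ℂ)
    (B d₀ r₀ ε : ℝ) : Prop where
  T : Trans P e R χ A N1 N2 U
  D : Dk c r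
  D' : Dk c' r'
  Zd : DifferentiableOn ℂ Z (⋃ j, P j)ᶜ
  Zi : InjOn Z (⋃ j, P j)ᶜ
  Zm : ∀ z ∈ (⋃ j, P j)ᶜ, Z z ∈ Ec c r
  Zn : Tendsto (fun z => Z z - z) (cobounded ℂ) (𝓝 0)
  Zc : ∀ j, Cd e R c r Z j
  Yd : DifferentiableOn ℂ Y ((N1 ∪ U) ∩ (⋃ j, P j)ᶜ)
  Ym : ∀ z ∈ (N1 ∪ U) ∩ (⋃ j, P j)ᶜ, Y z ∈ Ec c' r'
  Xd : DifferentiableOn ℂ X ((N2 ∪ U) ∩ (⋃ j, P j)ᶜ)
  Xm : ∀ z ∈ (N2 ∪ U) ∩ (⋃ j, P j)ᶜ, X z ∈ Ec c' r'
  Xn : Tendsto (fun z => X z - z) (cobounded ℂ) (𝓝 0)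
  Gc : ∀ j, Cd e R c' r' (gl N1 Y X) j
  B0 : 0 ≤ B
  cB : ∀ i, closedBall (c i) (r i) ⊆ closedBall 0 B
  cB' : ∀ i, closedBall (c' i) (r' i) ⊆ closedBall 0 B
  d0 : 0 < d₀
  dA : ∀ z ∈ A, ball z d₀ ⊆ (⋃ j, P j)ᶜ
  Zb : ∀ z ∈ A, ∀ y ∈ ball z d₀, ‖Z y‖ ≤ B
  r0 : 0 < r₀
  Yb : ∀ z ∈ A, ball (Y z) r₀ ⊆ Ec c' r'
  Yb' : ∀ z ∈ A, ball (Y z) r₀ ⊆ closedBall 0 B
  ε0 : 0 ≤ ε
  εr : ε ≤ r₀ / 2
  close : ∀ z ∈ A, ‖X z - Y z‖ ≤ ε

/-- the analytic function of the word `w` -/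
noncomputable def uw (c : Fin n → ℂ) (r : Fin n → ℝ) (Z : ℂ → ℂ) (w : List (Fin n)) (z : ℂ) : ℂ :=
  pc w (rfw c r w (Z z))

/-- the one-form of the word `w` -/
noncomputable def Gw (c : Fin n → ℂ) (r : Fin n → ℝ) (Z : ℂ → ℂ) (c' : Fin n → ℂ)
    (r' : Fin n → ℝ) (p : ℂ) (X : ℂ → ℂ) (w : List (Fin n)) (z : ℂ) : ℂ :=
  (uw c' r' X w z - uw c r Z w z) * deriv (uw c r Z w) z / (uw c r Z w z - pc w p)

variable (M : Mix P e R χ A N1 N2 U c r Z c' r' X Y B d₀ r₀ ε)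

include M

lemma Mix.uw_diff {w : List (Fin n)} (hw : Rw w) :
    DifferentiableOn ℂ (uw c r Z w) (⋃ j, P j)ᶜ :=
  (rfw_diff M.D hw).comp M.Zd fun z hz => Ec_sub_Lo w (M.Zm z hz)

lemma Mix.uw_inj {w : List (Fin n)} (hw : Rw w) : InjOn (uw c r Z w) (⋃ j, P j)ᶜ := by
  intro x hx y hy h
  exact M.Zi hx hy (rfw_inj M.D hw (Ec_sub_Lo w (M.Zm x hx)) (Ec_sub_Lo w (M.Zm y hy))
    (pc_injective w h))

lemma Mix.uw_diff' {w : List (Fin n)} (hw : Rw w) :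
    DifferentiableOn ℂ (uw c' r' X w) ((N2 ∪ U) ∩ (⋃ j, P j)ᶜ) :=
  (rfw_diff M.D' hw).comp M.Xd fun z hz => Ec_sub_Lo w (M.Xm z hz)

lemma Mix.uw_diffY {w : List (Fin n)} (hw : Rw w) :
    DifferentiableOn ℂ (uw c' r' Y w) ((N1 ∪ U) ∩ (⋃ j, P j)ᶜ) :=
  (rfw_diff M.D' hw).comp M.Yd fun z hz => Ec_sub_Lo w (M.Ym z hz)

lemma Mix.uw_norm {w : List (Fin n)} (hw : Rw w) (hne : w ≠ []) {z : ℂ}
    (hz : z ∈ (⋃ j, P j)ᶜ) : ‖uw c r Z w z‖ ≤ B := by
  rw [uw, norm_pc]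
  exact rfw_norm M.D M.cB hw hne (Ec_sub_Lo w (M.Zm z hz))

lemma Mix.uw_norm' {w : List (Fin n)} (hw : Rw w) (hne : w ≠ []) {z : ℂ}
    (hz : z ∈ (N2 ∪ U) ∩ (⋃ j, P j)ᶜ) : ‖uw c' r' X w z‖ ≤ B := by
  rw [uw, norm_pc]
  exact rfw_norm M.D' M.cB' hw hne (Ec_sub_Lo w (M.Xm z hz))

omit M in
lemma sub_ge {x p : ℂ} {w : List (Fin n)} {B : ℝ} (hx : ‖x‖ ≤ B) (hp : B + 1 ≤ ‖p‖) :
    1 ≤ ‖x - pc w p‖ := by
  have h1 : ‖pc w p‖ - ‖x‖ ≤ ‖x - pc w p‖ := by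
    rw [norm_sub_rev]; exact norm_sub_norm_le _ _
  rw [norm_pc w p] at h1
  linarith

lemma Mix.open1 (F : Fam P e R R₀) : IsOpen ((N1 ∪ U) ∩ (⋃ j, P j)ᶜ) :=
  (M.T.open1.union M.T.openU).inter F.isOpen

lemma Mix.open2 (F : Fam P e R R₀) : IsOpen ((N2 ∪ U) ∩ (⋃ j, P j)ᶜ) :=
  (M.T.open2.union M.T.openU).inter F.isOpen

/-- the flux of the one-form through a collar -/
lemma Mix.flux_eq (F : Fam P e R R₀) {w : List (Fin n)} (hw : Rw w) (p : ℂ) (j : Fin n)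
    (h1 : 1 < ρ) (h2 : ρ < R) :
    flux (e j) ρ (gl N1 (Gw c r Z c' r' p Y w) (Gw c r Z c' r' p X w)) =
      fx e ρ c c' r r' Z (gl N1 Y X) p j w := by
  unfold flux fx
  apply circleIntegral.integral_congr (by linarith)
  intro ζ hζ
  have hζ' := sphere_sub_ann h1 h2 hζ
  have hd := deriv_collar F (M.uw_diff hw) j hζ'
  have e1 : deriv (uc e c r Z j w) ζ = deriv (uw c r Z w) (e j ζ) * deriv (e j) ζ := hd.deriv
  simp only
  rw [e1]
  by_cases h : e j ζ ∈ N1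
  · simp only [gl, if_pos h, Gw, uc, uw]
    ring
  · simp only [gl, if_neg h, Gw, uc, uw]
    ring

/-- the jump of the word `w` -/
noncomputable def jw (χ : ℂ → ℂ) (c : Fin n → ℂ) (r : Fin n → ℝ) (Z : ℂ → ℂ) (c' : Fin n → ℂ)
    (r' : Fin n → ℝ) (p : ℂ) (X Y : ℂ → ℂ) (w : List (Fin n)) (z : ℂ) : ℂ :=
  db χ z * (Gw c r Z c' r' p Y w z - Gw c r Z c' r' p X w z)

lemma Mix.bdd_NA : ∃ R₁ : ℝ, ∀ z, R₁ < ‖z‖ → z ∈ N2 := by
  obtain ⟨R₁, hR₁⟩ := (M.T.bdd.union M.T.cpt.isBounded).subset_closedBall 0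
  refine ⟨R₁, fun z hz => ?_⟩
  rcases M.T.cov z with h | h | h
  · have := hR₁ (Or.inr h)
    rw [mem_closedBall_zero_iff] at this
    linarith
  · have := hR₁ (Or.inl h)
    rw [mem_closedBall_zero_iff] at this
    linarith
  · exact h

/-- the sum of the fluxes of a nonempty word -/
lemma Mix.flux_cons (F : Fam P e R R₀) {p : ℂ} (hp : B + 1 ≤ ‖p‖) {w : List (Fin n)} (hw : Rw w)
    (hne : w ≠ []) (h1 : 1 < ρ) (h2 : ρ < R) :
    ‖∑ j, fx e ρ c c' r r' Z (gl N1 Y X) p j w‖ ≤ ∫ z, ‖jw χ c r Z c' r' p X Y w z‖ := by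
  have hden : ∀ z ∈ (⋃ j, P j)ᶜ, 1 ≤ ‖uw c r Z w z - pc w p‖ := fun z hz =>
    sub_ge (M.uw_norm hw hne hz) hp
  have hne' : ∀ z ∈ (⋃ j, P j)ᶜ, uw c r Z w z - pc w p ≠ 0 := by
    intro z hz h
    have := hden z hz
    rw [h, norm_zero] at this
    linarith
  have hdd := (M.uw_diff hw).deriv F.isOpen
  have d1 : DifferentiableOn ℂ (Gw c r Z c' r' p Y w) ((N1 ∪ U) ∩ (⋃ j, P j)ᶜ) :=
    (((M.uw_diffY hw).sub ((M.uw_diff hw).mono inter_subset_right)).mul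
      (hdd.mono inter_subset_right)).div (((M.uw_diff hw).mono inter_subset_right).sub_const _)
      fun z hz => hne' z hz.2
  have d2 : DifferentiableOn ℂ (Gw c r Z c' r' p X w) ((N2 ∪ U) ∩ (⋃ j, P j)ᶜ) :=
    (((M.uw_diff' hw).sub ((M.uw_diff hw).mono inter_subset_right)).mul
      (hdd.mono inter_subset_right)).div (((M.uw_diff hw).mono inter_subset_right).sub_const _)
      fun z hz => hne' z hz.2
  obtain ⟨R₁, hR₁⟩ := M.bdd_NA
  have hlim : Tendsto (fun z => z * Gw c r Z c' r' p X w z) (cobounded ℂ) (𝓝 0) := by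
    set R₂ := max (max R₀ 1) R₁
    have hR₂ : 0 < R₂ := lt_of_lt_of_le one_pos ((le_max_right _ _).trans (le_max_left _ _))
    have hfar : {z : ℂ | R₂ < ‖z‖} ⊆ (⋃ i, P i)ᶜ := fun z hz =>
      F.far (((le_max_left _ _).trans (le_max_left _ _)).trans (le_of_lt hz))
    have h3 := FK.tendsto_mul_deriv hR₂ ((M.uw_diff hw).mono hfar)
      (fun z hz => M.uw_norm hw hne (hfar hz))
    have h4 : Tendsto (fun z => (2 * B) * ‖z * deriv (uw c r Z w) z‖) (cobounded ℂ) (𝓝 0) := by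
      have := (h3.norm).const_mul (2 * B)
      simpa using this
    refine squeeze_zero_norm' ?_ h4
    filter_upwards [far_tendsto (R := R₂)] with z hz
    have hz' := hfar hz
    have hz2 : z ∈ N2 := hR₁ z (lt_of_le_of_lt (le_max_right _ _) hz)
    have a1 : ‖uw c' r' X w z - uw c r Z w z‖ ≤ 2 * B := by
      refine (norm_sub_le _ _).trans ?_
      have := M.uw_norm hw hne hz'
      have := M.uw_norm' hw hne (z := z) ⟨Or.inl hz2, hz'⟩
      linarith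
    have a2 := hden z hz'
    have hB0 := M.B0
    rw [Gw]
    have e1 : z * ((uw c' r' X w z - uw c r Z w z) * deriv (uw c r Z w) z /
        (uw c r Z w z - pc w p)) = ((uw c' r' X w z - uw c r Z w z) / (uw c r Z w z - pc w p)) *
        (z * deriv (uw c r Z w) z) := by ring
    rw [e1, norm_mul, norm_div]
    apply mul_le_mul_of_nonneg_right _ (norm_nonneg _)
    calc ‖uw c' r' X w z - uw c r Z w z‖ / ‖uw c r Z w z - pc w p‖ ≤ 2 * B / 1 :=
          div_le_div₀ (by positivity) a1 one_pos a2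
      _ = 2 * B := by ring
  have hst := stokes_jump F M.T d1 d2 hlim h1 h2
  rw [mul_zero, sub_zero, Finset.sum_congr rfl fun j _ => M.flux_eq F hw p j h1 h2] at hst
  exact hst

/-- the sum of the fluxes of the empty word -/
lemma Mix.flux_nil (F : Fam P e R R₀) {z₀ : ℂ} (hz₀ : R₀ ≤ ‖z₀‖) (hz₀2 : z₀ ∈ N2) (hz₀U : z₀ ∉ U)
    (h1 : 1 < ρ) (h2 : ρ < R) :
    ‖∑ j, fx e ρ c c' r r' Z (gl N1 Y X) (Z z₀) j [] + 2 * π * I * (X z₀ - Z z₀)‖ ≤
      ∫ z, ‖jw χ c r Z c' r' (Z z₀) X Y [] z‖ := by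
  set Ω := (⋃ i, P i)ᶜ with hΩ
  have hΩo : IsOpen Ω := F.isOpen
  have hz₀Ω : z₀ ∈ Ω := F.far hz₀
  set Ω1 := (N1 ∪ U) ∩ Ω with hΩ1
  set Ω2 := (N2 ∪ U) ∩ Ω with hΩ2
  have hΩ1o : IsOpen Ω1 := M.open1 F
  have hΩ2o : IsOpen Ω2 := M.open2 F
  have hz₀Ω2 : z₀ ∈ Ω2 := ⟨Or.inl hz₀2, hz₀Ω⟩
  have hz₀N1 : z₀ ∉ N1 := fun h => M.T.disj h hz₀2
  have hz₀Ω1 : z₀ ∉ Ω1 := fun h => h.1.elim hz₀N1 hz₀U
  set D := X z₀ - Z z₀ with hD
  have hfd := M.Zd
  have hsub2 : Ω2 ⊆ Ω := inter_subset_right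
  have hsub1 : Ω1 ⊆ Ω := inter_subset_right
  obtain ⟨R₁, hR₁⟩ := M.bdd_NA
  set R₂ := max (max R₀ 1) R₁
  have hR₂ : 0 < R₂ := lt_of_lt_of_le one_pos ((le_max_right _ _).trans (le_max_left _ _))
  have hfar : {z : ℂ | R₂ < ‖z‖} ⊆ Ω := fun z hz =>
    F.far (((le_max_left _ _).trans (le_max_left _ _)).trans (le_of_lt hz))
  have huw : uw c r Z [] = Z := by
    funext z
    simp [uw, pc_nil, rfw]
  have hGf : ∀ V z, Gw c r Z c' r' (Z z₀) V [] z = (V z - Z z) * deriv Z z / (Z z - Z z₀) := by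
    intro V z
    rw [Gw, huw]
    simp [uw, pc_nil, rfw]
  -- dslope
  have hds : DifferentiableOn ℂ (dslope Z z₀) Ω :=
    (Complex.differentiableOn_dslope (hΩo.mem_nhds hz₀Ω)).2 hfd
  have hdsne : ∀ z ∈ Ω, dslope Z z₀ z ≠ 0 := by
    intro z hz
    by_cases h : z = z₀
    · subst h
      rw [dslope_same]
      exact injOn_deriv_ne_zero hΩo hfd M.Zi hz₀Ω
    · rw [dslope_of_ne _ h, slope_def_field]
      exact div_ne_zero (fun h3 => h (M.Zi hz hz₀Ω (sub_eq_zero.1 h3))) (sub_ne_zero.2 h)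
  set N : ℂ → ℂ := fun z => (X z - Z z) * deriv Z z / dslope Z z₀ z with hN
  have hNd : DifferentiableOn ℂ N Ω2 :=
    ((M.Xd.sub (hfd.mono hsub2)).mul ((hfd.deriv hΩo).mono hsub2)).div (hds.mono hsub2)
      fun z hz => hdsne z (hsub2 hz)
  have hN0 : N z₀ = D := by
    simp only [hN, dslope_same]
    rw [mul_div_cancel_right₀]
    exact injOn_deriv_ne_zero hΩo hfd M.Zi hz₀Ω
  set G : ℂ → ℂ := dslope N z₀ with hG
  have hGd : DifferentiableOn ℂ G Ω2 :=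
    (Complex.differentiableOn_dslope (hΩ2o.mem_nhds hz₀Ω2)).2 hNd
  have hGeq : ∀ z, z ≠ z₀ → G z = Gw c r Z c' r' (Z z₀) X [] z - D / (z - z₀) := by
    intro z hz
    have hz' : z - z₀ ≠ 0 := sub_ne_zero.2 hz
    rw [hG, dslope_of_ne _ hz, slope_def_field, hN0, hGf]
    simp only [hN]
    rw [dslope_of_ne _ hz, slope_def_field]
    by_cases hfz : Z z - Z z₀ = 0
    · rw [hfz]; simp
      ring
    · field_simp
  set G1 : ℂ → ℂ := fun z => Gw c r Z c' r' (Z z₀) Y [] z - D / (z - z₀) with hG1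
  have hG1d : DifferentiableOn ℂ G1 Ω1 := by
    have a1 : DifferentiableOn ℂ (fun z => (Y z - Z z) * deriv Z z / (Z z - Z z₀)) Ω1 :=
      ((M.Yd.sub (hfd.mono hsub1)).mul ((hfd.deriv hΩo).mono hsub1)).div
        ((hfd.mono hsub1).sub_const _) fun z hz h =>
          hz₀Ω1 (M.Zi (hsub1 hz) hz₀Ω (sub_eq_zero.1 h) ▸ hz)
    have a2 : DifferentiableOn ℂ (fun z : ℂ => D / (z - z₀)) Ω1 :=
      (differentiableOn_const _).div (differentiableOn_id.sub_const _) fun z hz h =>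
        hz₀Ω1 (sub_eq_zero.1 h ▸ hz)
    refine (a1.sub a2).congr fun z _ => ?_
    simp only [hG1, hGf, Pi.sub_apply]
  -- limit at infinity
  have hlim1 : Tendsto (fun z => z * Gw c r Z c' r' (Z z₀) X [] z) (cobounded ℂ) (𝓝 0) := by
    have a1 : Tendsto (fun z => X z - Z z) (cobounded ℂ) (𝓝 0) := by
      have := M.Xn.sub M.Zn
      simpa using this
    have a2 := tendsto_deriv_one hR₂ (hfd.mono hfar) M.Zn
    have hinv : Tendsto (fun z : ℂ => z⁻¹) (cobounded ℂ) (𝓝 0) := tendsto_inv₀_cobounded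
    have a3 : Tendsto (fun z => (Z z - z) * z⁻¹ + 1 - Z z₀ * z⁻¹) (cobounded ℂ) (𝓝 1) := by
      have := ((M.Zn.mul hinv).add_const 1).sub (hinv.const_mul (Z z₀))
      simpa using this
    have a4 := (a1.mul a2).div a3 one_ne_zero
    simp only [zero_mul, zero_div] at a4
    refine a4.congr' ?_
    filter_upwards [far_tendsto (R := R₂)] with z hz
    have hz0 : z ≠ 0 := norm_pos_iff.1 (hR₂.trans hz)
    rw [hGf]
    have e1 : (Z z - z) * z⁻¹ + 1 - Z z₀ * z⁻¹ = (Z z - Z z₀) / z := by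
      field_simp
      ring
    simp only [Pi.div_apply]
    rw [e1, div_div_eq_mul_div]
    ring
  have hlim2 : Tendsto (fun z : ℂ => z * (D / (z - z₀))) (cobounded ℂ) (𝓝 D) := by
    have hinv : Tendsto (fun z : ℂ => z⁻¹) (cobounded ℂ) (𝓝 0) := tendsto_inv₀_cobounded
    have a3 : Tendsto (fun z : ℂ => 1 - z₀ * z⁻¹) (cobounded ℂ) (𝓝 1) := by
      have := (hinv.const_mul z₀).const_sub 1
      simpa using this
    have a4 : Tendsto (fun z : ℂ => D / (1 - z₀ * z⁻¹)) (cobounded ℂ) (𝓝 (D / 1)) :=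
      (tendsto_const_nhds (x := D)).div a3 one_ne_zero
    rw [div_one] at a4
    refine a4.congr' ?_
    filter_upwards [far_tendsto (R := R₂), far_tendsto (R := ‖z₀‖)] with z hz hz'
    have hz0 : z ≠ 0 := norm_pos_iff.1 (hR₂.trans hz)
    have hzz : z - z₀ ≠ 0 := by
      intro h
      rw [sub_eq_zero.1 h] at hz'
      exact lt_irrefl _ hz'
    have e1 : 1 - z₀ * z⁻¹ = (z - z₀) / z := by
      field_simp
    rw [e1, div_div_eq_mul_div]
    ring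
  have hlimG : Tendsto (fun z => z * G z) (cobounded ℂ) (𝓝 (-D)) := by
    have := hlim1.sub hlim2
    rw [zero_sub] at this
    refine this.congr' ?_
    filter_upwards [far_tendsto (R := ‖z₀‖)] with z hz'
    have hzz : z ≠ z₀ := by
      rintro rfl
      exact lt_irrefl _ hz'
    rw [hGeq z hzz]
    ring
  have hstokes := stokes_jump F M.T hG1d hGd hlimG h1 h2
  have hρ0 : 0 < ρ := by linarith
  have hfl : ∀ j, flux (e j) ρ (gl N1 G1 G) = fx e ρ c c' r r' Z (gl N1 Y X) (Z z₀) j [] := by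
    intro j
    rw [← M.flux_eq F rw_nil (Z z₀) j h1 h2]
    have hen : ∀ ζ ∈ ann 1 R, ‖e j ζ‖ < ‖z₀‖ := fun ζ hζ => by
      have := F.collar_sub j (mem_image_of_mem _ hζ)
      rw [mem_ball_zero_iff] at this
      linarith
    have hsub : sphere (0 : ℂ) ρ ⊆ ann 1 R := sphere_sub_ann h1 h2
    have hed : DifferentiableOn ℂ (e j) (ann 1 R) := (F.diff j).mono ann_sub
    have hz := circle_log_zero hρ0 (isOpen_ann 1 R) hsub hed (q := z₀) (fun ζ hζ => hen ζ (hsub hζ))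
    have hne : ∀ ζ ∈ sphere (0 : ℂ) ρ, e j ζ ≠ z₀ := by
      intro ζ hζ h
      have := hen ζ (hsub hζ)
      rw [h] at this
      exact lt_irrefl _ this
    have hedc : ContinuousOn (deriv (e j)) (sphere 0 ρ) :=
      (hed.deriv (isOpen_ann 1 R)).continuousOn.mono hsub
    have hec : ContinuousOn (e j) (sphere 0 ρ) := hed.continuousOn.mono hsub
    have hcont1 : ContinuousOn (fun ζ => gl N1 G1 G (e j ζ) * deriv (e j) ζ) (sphere 0 ρ) := by
      refine ContinuousOn.mul ?_ hedc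
      rcases M.T.loc j with h | h
      · have hm : ∀ ζ ∈ sphere (0:ℂ) ρ, e j ζ ∈ N1 := fun ζ hζ =>
          h (Or.inr (mem_image_of_mem _ (hsub hζ)))
        refine (hG1d.continuousOn.comp hec fun ζ hζ =>
          ⟨Or.inl (hm ζ hζ), F.collar_mem j (hsub hζ)⟩).congr fun ζ hζ => ?_
        simp only [gl, if_pos (hm ζ hζ), Function.comp]
      · have hm : ∀ ζ ∈ sphere (0:ℂ) ρ, e j ζ ∈ N2 := fun ζ hζ =>
          h (Or.inr (mem_image_of_mem _ (hsub hζ)))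
        refine (hGd.continuousOn.comp hec fun ζ hζ =>
          ⟨Or.inl (hm ζ hζ), F.collar_mem j (hsub hζ)⟩).congr fun ζ hζ => ?_
        have h3 : e j ζ ∉ N1 := fun h4 => M.T.disj h4 (hm ζ hζ)
        simp only [gl, if_neg h3, Function.comp]
    have hcont2 : ContinuousOn (fun ζ => D * (deriv (e j) ζ / (e j ζ - z₀))) (sphere 0 ρ) :=
      continuousOn_const.mul (hedc.div (hec.sub continuousOn_const)
        fun ζ hζ => sub_ne_zero.2 (hne ζ hζ))
    have hadd := circleIntegral.integral_add (hcont1.circleIntegrable hρ0.le)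
      (hcont2.circleIntegrable hρ0.le)
    rw [circleIntegral.integral_const_mul, hz, mul_zero, add_zero] at hadd
    unfold flux
    rw [← hadd]
    apply circleIntegral.integral_congr hρ0.le
    intro ζ hζ
    simp only [gl]
    split_ifs with h
    · simp only [hG1]
      ring
    · rw [hGeq _ (hne ζ hζ)]
      ring
  rw [Finset.sum_congr rfl fun j _ => hfl j] at hstokes
  have e2 : 2 * π * I * -D = -(2 * π * I * (X z₀ - Z z₀)) := by rw [hD]; ring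
  rw [e2, sub_neg_eq_add] at hstokes
  refine hstokes.trans (le_of_eq ?_)
  congr 1
  funext z
  by_cases hz : z = z₀
  · have hzA : z₀ ∉ A := fun h => hz₀U (M.T.sub h)
    rw [hz, jw, M.T.db_zero hzA]
    simp
  · rw [jw, hGeq z hz]
    simp only [hG1]
    congr 2
    ring

/-- the total jump at a point of the transition region -/
lemma Mix.jump_pt (F : Fam P e R R₀) {p : ℂ} (hp : B + 1 ≤ ‖p‖) (S : Finset (List (Fin n)))
    (hS : ∀ w ∈ S, Rw w) {z : ℂ} (hz : z ∈ A) :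
    ∑ w ∈ S, ‖Gw c r Z c' r' p Y w z - Gw c r Z c' r' p X w z‖ ≤
      ε * ((B ^ 2 / (r₀ / 2) ^ 2 + B ^ 2 / d₀ ^ 2) / 2) := by
  have hr0 := M.r0
  have hd0 := M.d0
  have hΩo : IsOpen (⋃ j, P j)ᶜ := F.isOpen
  have hzΩ : z ∈ (⋃ j, P j)ᶜ := M.dA z hz (mem_ball_self hd0)
  set s : List (Fin n) → ℂ → ℂ := fun w y => pc w (rfw c' r' w y) with hs
  have hsd : ∀ w, Rw w → DifferentiableOn ℂ (s w) (ball (Y z) r₀) := fun w hw =>
    (rfw_diff M.D' hw).mono fun y hy => Ec_sub_Lo w (M.Yb z hz hy)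
  have hcb : closedBall (Y z) ε ⊆ ball (Y z) r₀ :=
    closedBall_subset_ball (by have := M.εr; linarith)
  have hmax : ∀ w, ∃ ξ, Rw w → ξ ∈ closedBall (Y z) ε ∧
      ∀ y ∈ closedBall (Y z) ε, ‖deriv (s w) y‖ ≤ ‖deriv (s w) ξ‖ := by
    intro w
    by_cases hw : Rw w
    · have hc : ContinuousOn (fun y => ‖deriv (s w) y‖) (closedBall (Y z) ε) :=
        (((hsd w hw).deriv isOpen_ball).continuousOn.mono hcb).norm
      obtain ⟨x, hx, hmx⟩ := (isCompact_closedBall (Y z) ε).exists_isMaxOn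
        ⟨Y z, mem_closedBall_self M.ε0⟩ hc
      exact ⟨x, fun _ => ⟨hx, fun y hy => hmx hy⟩⟩
    · exact ⟨0, fun h => absurd h hw⟩
  choose ξ hξ using hmax
  have hYm : Y z ∈ closedBall (Y z) ε := mem_closedBall_self M.ε0
  have hXm : X z ∈ closedBall (Y z) ε := by
    rw [mem_closedBall, dist_eq_norm]
    exact M.close z hz
  have hpt : ∀ w ∈ S, ‖Gw c r Z c' r' p Y w z - Gw c r Z c' r' p X w z‖ ≤
      ε * ((‖deriv (s w) (ξ w)‖ ^ 2 + ‖deriv (uw c r Z w) z‖ ^ 2) / 2) := by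
    intro w hwS
    have hw := hS w hwS
    have hx1 : ‖uw c r Z w z‖ ≤ B := by
      by_cases hne : w = []
      · subst hne
        have := M.Zb z hz z (mem_ball_self hd0)
        simpa [uw, pc_nil, rfw] using this
      · exact M.uw_norm hw hne hzΩ
    have hx2 := sub_ge (w := w) hx1 hp
    have h3 : ‖s w (Y z) - s w (X z)‖ ≤ ‖deriv (s w) (ξ w)‖ * ‖Y z - X z‖ :=
      (convex_closedBall (Y z) ε).norm_image_sub_le_of_norm_deriv_le (fun y hy =>
        (hsd w hw).differentiableAt (isOpen_ball.mem_nhds (hcb hy))) (hξ w hw).2 hXm hYm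
    have h4 : ‖Y z - X z‖ ≤ ε := by
      rw [norm_sub_rev]
      exact M.close z hz
    have e1 : Gw c r Z c' r' p Y w z - Gw c r Z c' r' p X w z =
        (s w (Y z) - s w (X z)) * deriv (uw c r Z w) z / (uw c r Z w z - pc w p) := by
      simp only [Gw, hs, uw]
      ring
    rw [e1, norm_div, norm_mul]
    have h5 := norm_nonneg (deriv (s w) (ξ w))
    have h6 := norm_nonneg (deriv (uw c r Z w) z)
    have hε := M.ε0
    calc ‖s w (Y z) - s w (X z)‖ * ‖deriv (uw c r Z w) z‖ / ‖uw c r Z w z - pc w p‖ ≤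
        ‖s w (Y z) - s w (X z)‖ * ‖deriv (uw c r Z w) z‖ / 1 :=
          div_le_div_of_nonneg_left (by positivity) one_pos hx2
      _ ≤ (‖deriv (s w) (ξ w)‖ * ε) * ‖deriv (uw c r Z w) z‖ := by
          rw [div_one]
          exact mul_le_mul_of_nonneg_right (h3.trans (mul_le_mul_of_nonneg_left h4 h5)) h6
      _ = ε * (‖deriv (s w) (ξ w)‖ * ‖deriv (uw c r Z w) z‖) := by ring
      _ ≤ ε * ((‖deriv (s w) (ξ w)‖ ^ 2 + ‖deriv (uw c r Z w) z‖ ^ 2) / 2) := by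
          apply mul_le_mul_of_nonneg_left _ hε
          nlinarith [sq_nonneg (‖deriv (s w) (ξ w)‖ - ‖deriv (uw c r Z w) z‖)]
  have hb1 : ∀ w ∈ S, ball (ξ w) (r₀ / 2) ⊆ ball (Y z) r₀ := by
    intro w hw
    refine ball_subset_ball' ?_
    have h1 := (hξ w (hS w hw)).1
    rw [mem_closedBall] at h1
    have := M.εr
    linarith
  have a1 := gen_area S (u := s) (x := ξ) (δ := r₀ / 2) (by positivity) M.B0
    (fun w hw => (hsd w (hS w hw)).mono (hb1 w hw)) (fun w hw x hx y hy h => by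
      have hx' := Ec_sub_Lo w (M.Yb z hz (hb1 w hw hx))
      have hy' := Ec_sub_Lo w (M.Yb z hz (hb1 w hw hy))
      exact rfw_inj M.D' (hS w hw) hx' hy' (pc_injective w h))
    (fun w hw w' hw' hne x hx y hy h => by
      simp only [hs, pc_pc] at h
      exact hne (rfw_word M.D' (hS w hw) (hS w' hw') (M.Yb z hz (hb1 w hw hx))
        (M.Yb z hz (hb1 w' hw' hy)) h))
    (fun w hw x hx => by
      simp only [hs]
      rw [norm_pc]
      by_cases hne : w = []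
      · subst hne
        have := M.Yb' z hz (hb1 _ hw hx)
        rw [mem_closedBall_zero_iff] at this
        exact this
      · exact rfw_norm M.D' M.cB' (hS w hw) hne (Ec_sub_Lo w (M.Yb z hz (hb1 w hw hx))))
  have a2 := gen_area S (u := uw c r Z) (x := fun _ => z) (δ := d₀) hd0 M.B0
    (fun w hw => (M.uw_diff (hS w hw)).mono (M.dA z hz))
    (fun w hw => (M.uw_inj (hS w hw)).mono (M.dA z hz))
    (fun w hw w' hw' hne x hx y hy h => by
      simp only [uw, pc_pc] at h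
      exact hne (rfw_word M.D (hS w hw) (hS w' hw') (M.Zm x (M.dA z hz hx))
        (M.Zm y (M.dA z hz hy)) h))
    (fun w hw x hx => by
      by_cases hne : w = []
      · subst hne
        have := M.Zb z hz x hx
        simpa [uw, pc_nil, rfw] using this
      · exact M.uw_norm (hS w hw) hne (M.dA z hz hx))
  refine (Finset.sum_le_sum hpt).trans ?_
  rw [← Finset.mul_sum, ← Finset.sum_div, Finset.sum_add_distrib]
  exact mul_le_mul_of_nonneg_left (by linarith) M.ε0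

/-- the jumps are continuous on the transition region -/
lemma Mix.J_cont (F : Fam P e R R₀) {p : ℂ} {w : List (Fin n)} (hw : Rw w)
    (hp : ∀ z ∈ U, uw c r Z w z ≠ pc w p) :
    ContinuousOn (fun z => Gw c r Z c' r' p Y w z - Gw c r Z c' r' p X w z) U := by
  have hU1 : U ⊆ (N1 ∪ U) ∩ (⋃ j, P j)ᶜ := fun z hz => ⟨Or.inr hz, M.T.subP hz⟩
  have hU2 : U ⊆ (N2 ∪ U) ∩ (⋃ j, P j)ᶜ := fun z hz => ⟨Or.inr hz, M.T.subP hz⟩
  have c1 := ((M.uw_diffY hw).mono hU1).continuousOn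
  have c2 := ((M.uw_diff' hw).mono hU2).continuousOn
  have c3 := ((M.uw_diff hw).mono M.T.subP).continuousOn
  have c4 := (((M.uw_diff hw).deriv F.isOpen).mono M.T.subP).continuousOn
  have hne : ∀ z ∈ U, uw c r Z w z - pc w p ≠ 0 := fun z hz h => hp z hz (sub_eq_zero.1 h)
  exact (((c1.sub c3).mul c4).div (c3.sub continuousOn_const) hne).sub
    (((c2.sub c3).mul c4).div (c3.sub continuousOn_const) hne)

lemma Mix.ne_pole (F : Fam P e R R₀) {z₀ : ℂ} (hz₀ : R₀ ≤ ‖z₀‖) (hz₀U : z₀ ∉ U)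
    (hp : B + 1 ≤ ‖Z z₀‖) {w : List (Fin n)} (hw : Rw w) :
    ∀ z ∈ U, uw c r Z w z ≠ pc w (Z z₀) := by
  intro z hz h
  by_cases hne : w = []
  · subst hne
    simp only [uw, pc_nil, rfw] at h
    exact hz₀U (M.Zi (M.T.subP hz) (F.far hz₀) h ▸ hz)
  · have h1 := sub_ge (w := w) (M.uw_norm hw hne (M.T.subP hz)) hp
    rw [h, sub_self, norm_zero] at h1
    linarith

/-- the total jump -/
lemma Mix.jump_sum (F : Fam P e R R₀) {z₀ : ℂ} (hz₀ : R₀ ≤ ‖z₀‖) (hz₀U : z₀ ∉ U)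
    (hp : B + 1 ≤ ‖Z z₀‖) (S : Finset (List (Fin n))) (hS : ∀ w ∈ S, Rw w) :
    ∑ w ∈ S, ∫ z, ‖jw χ c r Z c' r' (Z z₀) X Y w z‖ ≤
      ε * ((B ^ 2 / (r₀ / 2) ^ 2 + B ^ 2 / d₀ ^ 2) / 2) * ∫ z, ‖db χ z‖ := by
  have hi : ∀ w ∈ S, Integrable (fun z => ‖jw χ c r Z c' r' (Z z₀) X Y w z‖) := fun w hw =>
    (M.T.kap_int (M.J_cont F (hS w hw) (M.ne_pole F hz₀ hz₀U hp (hS w hw)))).norm
  have hi1 : Integrable (fun z => ‖db χ z‖) := by
    have := (M.T.kap_int (J := fun _ => 1) continuousOn_const).norm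
    simpa using this
  rw [← integral_finsetSum S hi, ← integral_const_mul]
  refine integral_mono (integrable_finsetSum S hi) (hi1.const_mul _) fun z => ?_
  simp only
  by_cases hz : z ∈ A
  · have h1 := M.jump_pt F hp S hS hz
    simp only [jw, norm_mul]
    rw [← Finset.mul_sum, mul_comm]
    exact mul_le_mul_of_nonneg_right h1 (norm_nonneg _)
  · simp only [jw, M.T.db_zero hz]
    simp

omit M in
lemma Pr_step {l : ℕ} (φ : List (Fin n) → Fin n → ℝ) (h0 : ∀ w j, 0 ≤ φ w j) :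
    ∑ q ∈ Pr n l, ∑ i ∈ Finset.univ.filter (· ≠ q.2), φ (q.1 ++ [q.2]) i ≤
      ∑ q ∈ Pr n (l + 1), φ q.1 q.2 := by
  classical
  calc ∑ q ∈ Pr n l, ∑ i ∈ Finset.univ.filter (· ≠ q.2), φ (q.1 ++ [q.2]) i
    _ = ∑ x ∈ (Pr n l).sigma (fun q => Finset.univ.filter (· ≠ q.2)),
        φ (x.1.1 ++ [x.1.2]) x.2 := by rw [Finset.sum_sigma]
    _ = ∑ y ∈ ((Pr n l).sigma (fun q => Finset.univ.filter (· ≠ q.2))).image
        (fun x => (x.1.1 ++ [x.1.2], x.2)), φ y.1 y.2 := by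
          rw [Finset.sum_image]
          rintro ⟨⟨w, j⟩, i⟩ _ ⟨⟨w', j'⟩, i'⟩ _ h
          simp only [Prod.mk.injEq] at h
          obtain ⟨h1, h2⟩ := h
          have h3 := List.append_inj' h1 rfl
          simp only [List.cons.injEq, and_true] at h3
          obtain ⟨h4, h5⟩ := h3
          subst h4 h5 h2
          rfl
    _ ≤ ∑ q ∈ Pr n (l + 1), φ q.1 q.2 := by
          apply Finset.sum_le_sum_of_subset_of_nonneg
          · intro y hy
            rw [Finset.mem_image] at hy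
            obtain ⟨⟨⟨w, j⟩, i⟩, hx, rfl⟩ := hy
            rw [Finset.mem_sigma, mem_Pr] at hx
            obtain ⟨⟨h1, h2⟩, h3⟩ := hx
            simp only [Finset.mem_filter, Finset.mem_univ, true_and] at h3
            rw [mem_Pr]
            refine ⟨by simp at h1 ⊢; omega, ?_⟩
            simp only at h2 ⊢
            rw [List.isChain_append]
            refine ⟨h2, by simp, ?_⟩
            intro a ha b hb
            simp at ha hb
            subst ha hb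
            exact fun h => h3 h.symm
          · intro q _ _
            exact h0 _ _

/-- **comparison** of the glued map with the Koebe map at far points -/
theorem Mix.main (F : Fam P e R R₀) {z₀ : ℂ} (hz₀ : R₀ ≤ ‖z₀‖) (hz₀2 : z₀ ∈ N2) (hz₀U : z₀ ∉ U)
    (hp : B + 1 ≤ ‖Z z₀‖) :
    2 * π * ‖X z₀ - Z z₀‖ ≤
      ε * ((B ^ 2 / (r₀ / 2) ^ 2 + B ^ 2 / d₀ ^ 2) / 2) * ∫ z, ‖db χ z‖ := by
  classical
  set E := ε * ((B ^ 2 / (r₀ / 2) ^ 2 + B ^ 2 / d₀ ^ 2) / 2) * ∫ z, ‖db χ z‖ with hE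
  set ρ := (1 + R) / 2 with hρd
  have hR := F.hR
  have h1 : 1 < ρ := by rw [hρd]; linarith
  have h2 : ρ < R := by rw [hρd]; linarith
  have h3 : ρ + (ρ - 1) ≤ R := by rw [hρd]; linarith
  have hρ0 : 0 < ρ := by linarith
  have hB0 := M.B0
  set p := Z z₀ with hpd
  set g' := gl N1 Y X with hg'
  set φ : List (Fin n) → Fin n → ℝ := fun w j => ‖fx e ρ c c' r r' Z g' p j w‖ with hφ
  set Jn : List (Fin n) → ℝ := fun w => ∫ z, ‖jw χ c r Z c' r' p X Y w z‖ with hJn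
  have hφ0 : ∀ w j, 0 ≤ φ w j := fun w j => norm_nonneg _
  have hpE : p ∈ Ec c r := M.Zm z₀ (F.far hz₀)
  have hp2 : ∀ j, ∀ ζ ∈ ann 1 R, Z (e j ζ) ≠ p := by
    intro j ζ hζ h
    have h4 := M.Zi (F.collar_mem j hζ) (F.far hz₀) h
    have h5 := F.collar_sub j (mem_image_of_mem _ hζ)
    rw [h4, mem_ball_zero_iff] at h5
    linarith
  have hstep : ∀ w j, (w ++ [j]).IsChain (· ≠ ·) → φ w j ≤
      ∑ i ∈ Finset.univ.filter (· ≠ j), φ (w ++ [j]) i + Jn (w ++ [j]) := by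
    intro w j hwj
    have h6 := fx_glue M.D M.D' (M.Zc j) (M.Gc j) h1 h2 hpE (hp2 j) hwj
    have h7 := M.flux_cons F hp hwj (by simp) h1 h2
    have h8 : φ w j = φ (w ++ [j]) j := by
      simp only [hφ]
      rw [h6, Complex.norm_conj]
    rw [h8]
    rw [← Finset.sum_filter_add_sum_filter_not Finset.univ (· ≠ j)] at h7
    have h9 : ∑ x ∈ Finset.univ.filter (fun x => ¬ (x ≠ j)), fx e ρ c c' r r' Z g' p x (w ++ [j]) =
        fx e ρ c c' r r' Z g' p j (w ++ [j]) := by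
      simp only [not_not]
      rw [Finset.filter_eq' Finset.univ j]
      simp
    rw [h9] at h7
    set s1 := ∑ x ∈ Finset.univ.filter (· ≠ j), fx e ρ c c' r r' Z g' p x (w ++ [j]) with hs1
    have h10 : ‖s1‖ ≤ ∑ i ∈ Finset.univ.filter (· ≠ j), φ (w ++ [j]) i := norm_sum_le _ _
    have h11 : ‖fx e ρ c c' r r' Z g' p j (w ++ [j])‖ ≤
        ‖s1 + fx e ρ c c' r r' Z g' p j (w ++ [j])‖ + ‖s1‖ := by
      have := norm_sub_le (s1 + fx e ρ c c' r r' Z g' p j (w ++ [j])) s1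
      rwa [add_sub_cancel_left] at this
    have h12 : φ (w ++ [j]) j = ‖fx e ρ c c' r r' Z g' p j (w ++ [j])‖ := rfl
    rw [h12]
    linarith
  have hlev : ∀ l, ∑ q ∈ Pr n l, φ q.1 q.2 ≤
      ∑ q ∈ Pr n (l + 1), φ q.1 q.2 + ∑ q ∈ Pr n l, Jn (q.1 ++ [q.2]) := by
    intro l
    refine (Finset.sum_le_sum fun q hq => hstep q.1 q.2 (mem_Pr.1 hq).2).trans ?_
    rw [Finset.sum_add_distrib]
    exact add_le_add_left (Pr_step φ hφ0) _
  have hind : ∀ m, ∑ q ∈ Pr n 0, φ q.1 q.2 ≤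
      ∑ q ∈ Pr n m, φ q.1 q.2 + ∑ l ∈ Finset.range m, ∑ q ∈ Pr n l, Jn (q.1 ++ [q.2]) := by
    intro m
    induction m with
    | zero => simp
    | succ m ih =>
      rw [Finset.sum_range_succ]
      have := hlev m
      linarith
  -- base
  have hbase : 2 * π * ‖X z₀ - Z z₀‖ ≤ ∑ q ∈ Pr n 0, φ q.1 q.2 + Jn [] := by
    have h4 := M.flux_nil F hz₀ hz₀2 hz₀U h1 h2
    have h5 : ‖∑ j, fx e ρ c c' r r' Z g' p j []‖ ≤ ∑ q ∈ Pr n 0, φ q.1 q.2 := by
      refine (norm_sum_le _ _).trans ?_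
      have h6 : ∑ j, ‖fx e ρ c c' r r' Z g' p j []‖ =
          ∑ q ∈ Finset.univ.image (fun j : Fin n => (([] : List (Fin n)), j)), φ q.1 q.2 := by
        rw [Finset.sum_image (by intro a _ b _ h; simpa using h)]
      rw [h6]
      apply Finset.sum_le_sum_of_subset_of_nonneg
      · intro q hq
        rw [Finset.mem_image] at hq
        obtain ⟨j, _, rfl⟩ := hq
        rw [mem_Pr]
        exact ⟨rfl, by simp⟩
      · intro q _ _; exact hφ0 _ _
    have h7 : ‖2 * π * I * (X z₀ - Z z₀)‖ = 2 * π * ‖X z₀ - Z z₀‖ := by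
      rw [norm_mul, norm_mul, norm_mul, Complex.norm_I, mul_one]
      simp [abs_of_pos Real.pi_pos]
    rw [← h7]
    have h8 := norm_sub_le (∑ j, fx e ρ c c' r r' Z g' p j [] + 2 * π * I * (X z₀ - Z z₀))
      (∑ j, fx e ρ c c' r r' Z g' p j [])
    rw [add_sub_cancel_left] at h8
    have h9 : Jn [] = ∫ z, ‖jw χ c r Z c' r' (Z z₀) X Y [] z‖ := rfl
    rw [h9]
    linarith
  -- the jumps
  have hjump : ∀ m, Jn [] + ∑ l ∈ Finset.range m, ∑ q ∈ Pr n l, Jn (q.1 ++ [q.2]) ≤ E := by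
    intro m
    have hdisj : (↑(Finset.range m) : Set ℕ).PairwiseDisjoint (fun l => Pr n l) := by
      intro a _ b _ hab
      rw [Function.onFun, Finset.disjoint_left]
      intro q hqa hqb
      rw [mem_Pr] at hqa hqb
      exact hab (hqa.1.symm.trans hqb.1)
    rw [← Finset.sum_biUnion hdisj]
    set T := (Finset.range m).biUnion (fun l => Pr n l) with hT
    have hinj : Set.InjOn (fun q : List (Fin n) × Fin n => q.1 ++ [q.2]) ↑T := by
      rintro ⟨w, j⟩ _ ⟨w', j'⟩ _ h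
      simp only at h
      have h3 := List.append_inj' h rfl
      simp only [List.cons.injEq, and_true] at h3
      rw [h3.1, h3.2]
    rw [← Finset.sum_image (f := Jn) hinj]
    have hnil : ([] : List (Fin n)) ∉ T.image fun q => q.1 ++ [q.2] := by
      intro h
      rw [Finset.mem_image] at h
      obtain ⟨q, -, hq⟩ := h
      simp at hq
    rw [← Finset.sum_insert hnil]
    refine M.jump_sum F hz₀ hz₀U hp _ fun w hw => ?_
    rw [Finset.mem_insert, Finset.mem_image] at hw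
    rcases hw with rfl | ⟨q, hq, rfl⟩
    · exact rw_nil
    · rw [hT, Finset.mem_biUnion] at hq
      obtain ⟨l, -, hq⟩ := hq
      exact (mem_Pr.1 hq).2
  have hmain : ∀ m, 2 * π * ‖X z₀ - Z z₀‖ - E ≤ ∑ q ∈ Pr n m, φ q.1 q.2 := by
    intro m
    have a1 := hind m
    have a2 := hjump m
    linarith
  -- maxima of the derivatives
  have hmax : ∀ {c : Fin n → ℂ} {r : Fin n → ℝ} {g : ℂ → ℂ}, Dk c r → (∀ j, Cd e R c r g j) →
      ∀ (j : Fin n) (w : List (Fin n)), ∃ x : ℂ, Rw w → x ∈ sphere (0 : ℂ) ρ ∧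
        ∀ ζ ∈ sphere (0 : ℂ) ρ, ‖deriv (uc e c r g j w) ζ‖ ≤ ‖deriv (uc e c r g j w) x‖ := by
    intro c r g D hg j w
    by_cases hw : Rw w
    · have hd := (uc_diff D (hg j) hw).deriv (isOpen_ann 1 R)
      have hc : ContinuousOn (fun ζ => ‖deriv (uc e c r g j w) ζ‖) (sphere (0 : ℂ) ρ) :=
        (hd.continuousOn.mono (sphere_sub_ann h1 h2)).norm
      obtain ⟨x, hx, hmx⟩ := (isCompact_sphere (0 : ℂ) ρ).exists_isMaxOn
        (NormedSpace.sphere_nonempty.2 hρ0.le) hc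
      exact ⟨x, fun _ => ⟨hx, fun ζ hζ => hmx hζ⟩⟩
    · exact ⟨0, fun h => absurd h hw⟩
  choose x hx using hmax M.D M.Zc
  choose x' hx' using hmax M.D' M.Gc
  set K := 8 * π ^ 2 * ρ ^ 2 with hK
  have hK0 : 0 ≤ K := by rw [hK]; positivity
  have hflux : ∀ w j, Rw w → w ≠ [] → φ w j ≤
      K * (‖deriv (uc e c r Z j w) (x j w)‖ ^ 2 + ‖deriv (uc e c' r' g' j w) (x' j w)‖ ^ 2) := by
    intro w j hw hne
    rw [hφ]
    simp only
    rw [fx, hK]
    refine flux_bound hρ0 (isOpen_ann 1 R) (sphere_sub_ann h1 h2) (uc_diff M.D (M.Zc j) hw)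
      (uc_diff M.D' (M.Gc j) hw) (hx j w hw).2 (hx' j w hw).2 (B := B) ?_ ?_
    · intro ζ hζ
      rw [uc, norm_pc]
      exact rfw_norm M.D M.cB hw hne (Ec_sub_Lo w ((M.Zc j).out ζ (sphere_sub_ann h1 h2 hζ)))
    · rw [norm_pc]; exact hp
  -- areas
  have hδ : 0 < ρ - 1 := by linarith
  have hball : ∀ {y : ℂ}, y ∈ sphere (0:ℂ) ρ → ball y (ρ - 1) ⊆ ann 1 R := by
    intro y hy ζ hζ
    rw [mem_sphere_zero_iff_norm] at hy
    rw [mem_ball, dist_eq_norm] at hζ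
    have h4 : ‖y‖ - ‖ζ‖ ≤ ‖ζ - y‖ := by
      rw [norm_sub_rev]; exact norm_sub_norm_le _ _
    have h5 : ‖ζ‖ - ‖y‖ ≤ ‖ζ - y‖ := norm_sub_norm_le _ _
    exact ⟨by linarith, by linarith⟩
  have harea : ∀ {c : Fin n → ℂ} {r : Fin n → ℝ} {g : ℂ → ℂ} (D : Dk c r)
      (hg : ∀ j, Cd e R c r g j) (_ : ∀ i, closedBall (c i) (r i) ⊆ closedBall 0 B)
      (x : Fin n → List (Fin n) → ℂ) (_ : ∀ j w, Rw w → x j w ∈ sphere (0:ℂ) ρ)
      (S : Finset (List (Fin n))) (_ : ∀ w ∈ S, Rw w ∧ w ≠ []) (j : Fin n),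
      ∑ w ∈ S, ‖deriv (uc e c r g j w) (x j w)‖ ^ 2 ≤ B ^ 2 / (ρ - 1) ^ 2 := by
    intro c r g D hg hcB x hx S hS j
    refine gen_area S hδ hB0
      (fun w hw => (uc_diff D (hg j) (hS w hw).1).mono (hball (hx j w (hS w hw).1)))
      (fun w hw => (uc_inj D (hg j) (hS w hw).1).mono (hball (hx j w (hS w hw).1)))
      (fun w hw w' hw' hne ζ hζ η hη h => ?_) (fun w hw ζ hζ => ?_)
    · simp only [uc, pc_pc] at h
      exact hne (rfw_word D (hS w hw).1 (hS w' hw').1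
        ((hg j).out ζ (hball (hx j w (hS w hw).1) hζ))
        ((hg j).out η (hball (hx j w' (hS w' hw').1) hη)) h)
    · rw [uc, norm_pc]
      exact rfw_norm D hcB (hS w hw).1 (hS w hw).2
        (Ec_sub_Lo w ((hg j).out ζ (hball (hx j w (hS w hw).1) hζ)))
  -- total
  have htot : ∀ m, ∑ l ∈ Finset.Icc 1 m, ∑ q ∈ Pr n l, φ q.1 q.2 ≤
      K * (n * (B ^ 2 / (ρ - 1) ^ 2) + n * (B ^ 2 / (ρ - 1) ^ 2)) := by
    intro m
    have hdisj : (↑(Finset.Icc 1 m) : Set ℕ).PairwiseDisjoint (fun l => Pr n l) := by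
      intro a _ b _ hab
      rw [Function.onFun, Finset.disjoint_left]
      intro q hqa hqb
      rw [mem_Pr] at hqa hqb
      exact hab (hqa.1.symm.trans hqb.1)
    rw [← Finset.sum_biUnion hdisj]
    set S := (Finset.Icc 1 m).biUnion (fun l => Pr n l) with hS
    have hSm : ∀ q ∈ S, Rw q.1 ∧ q.1 ≠ [] := by
      intro q hq
      rw [hS, Finset.mem_biUnion] at hq
      obtain ⟨l, hl, hq⟩ := hq
      rw [Finset.mem_Icc] at hl
      rw [mem_Pr] at hq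
      refine ⟨hq.2.left_of_append, ?_⟩
      intro h
      rw [h] at hq
      simp at hq
      omega
    set S' := S.image Prod.fst with hS'
    have hS'm : ∀ w ∈ S', Rw w ∧ w ≠ [] := by
      intro w hw
      rw [hS', Finset.mem_image] at hw
      obtain ⟨q, hq, rfl⟩ := hw
      exact hSm q hq
    have hsub : S ⊆ S' ×ˢ Finset.univ := by
      intro q hq
      rw [Finset.mem_product]
      exact ⟨Finset.mem_image_of_mem _ hq, Finset.mem_univ _⟩
    have hgen : ∀ (ψ : Fin n → List (Fin n) → ℝ), (∀ j w, 0 ≤ ψ j w) →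
        (∀ j, ∑ w ∈ S', ψ j w ≤ B ^ 2 / (ρ - 1) ^ 2) →
        ∑ q ∈ S, ψ q.2 q.1 ≤ n * (B ^ 2 / (ρ - 1) ^ 2) := by
      intro ψ hψ hb
      calc ∑ q ∈ S, ψ q.2 q.1 ≤ ∑ q ∈ S' ×ˢ Finset.univ, ψ q.2 q.1 :=
            Finset.sum_le_sum_of_subset_of_nonneg hsub fun q _ _ => hψ _ _
        _ = ∑ j, ∑ w ∈ S', ψ j w := by rw [Finset.sum_product_right]
        _ ≤ ∑ j : Fin n, B ^ 2 / (ρ - 1) ^ 2 := Finset.sum_le_sum fun j _ => hb j
        _ = n * (B ^ 2 / (ρ - 1) ^ 2) := by simp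
    have a1 := hgen (fun j w => ‖deriv (uc e c r Z j w) (x j w)‖ ^ 2) (fun _ _ => sq_nonneg _)
      fun j => harea M.D M.Zc M.cB x (fun j w hw => (hx j w hw).1) S' hS'm j
    have a2 := hgen (fun j w => ‖deriv (uc e c' r' g' j w) (x' j w)‖ ^ 2) (fun _ _ => sq_nonneg _)
      fun j => harea M.D' M.Gc M.cB' x' (fun j w hw => (hx' j w hw).1) S' hS'm j
    calc ∑ q ∈ S, φ q.1 q.2 ≤ ∑ q ∈ S, K * (‖deriv (uc e c r Z q.2 q.1) (x q.2 q.1)‖ ^ 2 +
        ‖deriv (uc e c' r' g' q.2 q.1) (x' q.2 q.1)‖ ^ 2) :=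
          Finset.sum_le_sum fun q hq => hflux q.1 q.2 (hSm q hq).1 (hSm q hq).2
      _ = K * (∑ q ∈ S, ‖deriv (uc e c r Z q.2 q.1) (x q.2 q.1)‖ ^ 2 +
        ∑ q ∈ S, ‖deriv (uc e c' r' g' q.2 q.1) (x' q.2 q.1)‖ ^ 2) := by
          rw [← Finset.mul_sum, Finset.sum_add_distrib]
      _ ≤ _ := mul_le_mul_of_nonneg_left (add_le_add a1 a2) hK0
  set C := K * (n * (B ^ 2 / (ρ - 1) ^ 2) + n * (B ^ 2 / (ρ - 1) ^ 2)) with hC
  have hfin : ∀ m : ℕ, (m : ℝ) * (2 * π * ‖X z₀ - Z z₀‖ - E) ≤ C := by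
    intro m
    refine le_trans ?_ (htot m)
    calc (m : ℝ) * (2 * π * ‖X z₀ - Z z₀‖ - E) =
        ∑ l ∈ Finset.Icc 1 m, (2 * π * ‖X z₀ - Z z₀‖ - E) := by
          rw [Finset.sum_const, Nat.card_Icc]; simp
      _ ≤ _ := Finset.sum_le_sum fun l _ => hmain l
  by_contra hcon
  rw [not_le] at hcon
  have hpos : 0 < 2 * π * ‖X z₀ - Z z₀‖ - E := by linarith
  obtain ⟨m, hm⟩ := exists_nat_gt (C / (2 * π * ‖X z₀ - Z z₀‖ - E))
  rw [div_lt_iff₀ hpos] at hm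
  linarith [hfin m]

end Vale.Agent.P116.Slow
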