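import Mathlib
import Vale.Agent.P116.Slow.Def
import Vale.Agent.P116.Slow.Sum
import Vale.Agent.P116.FK.M
import Vale.Agent.P116.Slow.S45

/-!
# Preparations for the mixing lemma: small collars, boundary behaviour, cross disjointness
-/

open Set Metric Filter Topology Complex Bornology MeasureTheory
open scoped ComplexConjugate Real Manifold

namespace Vale.Agent.P116.Slow

open FK

lemma hM : Spec.M := ext_exists SS.s5

lemma exists_pos_le {n : ℕ} {δ : Fin n → ℝ} (h : ∀ j, 0 < δ j) : ∃ d > 0, ∀ j, d ≤ δ j := by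
  by_cases hn : Nonempty (Fin n)
  · obtain ⟨j, hj⟩ := Finite.exists_min δ
    exact ⟨δ j, h j, hj⟩
  · exact ⟨1, one_pos, fun j => absurd ⟨j⟩ hn⟩

/-- collars inside given neighbourhoods -/
lemma exists_fam {n : ℕ} {P : Fin n → Set ℂ} (hc : ∀ j, Cont (P j))
    (hd : Pairwise (Function.onFun Disjoint P)) (hcc : IsConnected (⋃ j, P j)ᶜ) {R₀ : ℝ}
    (hR₀ : ∀ j, P j ⊆ ball 0 R₀) {W : Fin n → Set ℂ} (hW : ∀ j, IsOpen (W j))
    (hPW : ∀ j, P j ⊆ W j) :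
    ∃ e R, Fam P e R R₀ ∧ ∀ j, e j '' ann 1 R ⊆ W j := by
  obtain ⟨e, R, R₀', F⟩ := FK.E.e7 hM hc hd hcc
  have h1 : ∀ j, ∃ δ > 0, ∀ ζ, 1 < ‖ζ‖ → ‖ζ‖ < 1 + δ → e j ζ ∈ W j ∩ ball 0 R₀ := by
    intro j
    obtain ⟨c, r, hPar⟩ := F.par j
    obtain ⟨δ, hδ, hsub⟩ := (hc j).compact.exists_thickening_subset_open
      ((hW j).inter isOpen_ball) (subset_inter (hPW j) (hR₀ j))
    obtain ⟨ρ, hρ, h2⟩ := FK.E.e3 (F.cont j) hPar δ hδ
    refine ⟨ρ - 1, by linarith, fun ζ h3 h4 => hsub ?_⟩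
    rw [mem_thickening_iff_infDist_lt (hc j).conn.nonempty]
    exact h2 ζ h3 (by linarith)
  choose δ hδ h2 using h1
  obtain ⟨d, hd0, hdδ⟩ := exists_pos_le hδ
  have hR := F.hR
  set R' := min R (1 + d) with hR'
  have hR'1 : 1 < R' := lt_min hR (by linarith)
  have hann : ann 1 R' ⊆ ann 1 R := fun ζ hζ => ⟨hζ.1, hζ.2.trans_le (min_le_left _ _)⟩
  have h3 : ∀ j, ∀ ζ ∈ ann 1 R', e j ζ ∈ W j ∩ ball 0 R₀ := fun j ζ hζ =>
    h2 j ζ hζ.1 (hζ.2.trans_le ((min_le_right _ _).trans (by linarith [hdδ j])))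
  refine ⟨e, R', ⟨hR'1, F.cont, F.disj, F.conn, F.par, hR₀, ?_, ?_⟩, ?_⟩
  · rintro j _ ⟨ζ, hζ, rfl⟩
    exact (h3 j ζ hζ).2
  · intro i j hij
    exact (F.collar_disj i j hij).mono (image_mono hann)
      (union_subset_union_right _ (image_mono hann))
  · rintro j _ ⟨ζ, hζ, rfl⟩
    exact (h3 j ζ hζ).1

open H906 in
lemma cmap_bd {S : Set (Set ℂ)} (hS : Adm S) {f : ℂ → ℂ} {c : Set ℂ → ℂ} {r : Set ℂ → ℝ}
    (h : CMap S f c r) {P : Set ℂ} (hP : P ∈ S) {ε : ℝ} (hε : 0 < ε) :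
    ∃ δ > 0, ∀ z ∉ ⋃₀ S, infDist z P < δ → ‖f z - c P‖ < r P + ε := by
  have hr := h.rpos P hP
  have h1 : ∀ x ∈ P, {z | z ∉ ⋃₀ S → f z ∈ ball (c P) (r P + ε)} ∈ 𝓝 x := by
    intro x hx
    have h2 := h.lim_open hP hx isOpen_ball
      (closedBall_subset_ball (show r P < r P + ε by linarith))
    rw [eventually_nhdsWithin_iff] at h2
    exact h2
  have h3 : P ⊆ interior {z | z ∉ ⋃₀ S → f z ∈ ball (c P) (r P + ε)} := fun x hx =>
    mem_interior_iff_mem_nhds.2 (h1 x hx)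
  obtain ⟨δ, hδ, hsub⟩ := (hS.cpt P hP).exists_thickening_subset_open isOpen_interior h3
  refine ⟨δ, hδ, fun z hz hzP => ?_⟩
  have h4 : z ∈ thickening δ P :=
    (mem_thickening_iff_infDist_lt (hS.conn P hP).nonempty).2 hzP
  have h5 := interior_subset (hsub h4) hz
  rwa [mem_ball, dist_eq_norm] at h5

/-- the collar data of a circle map -/
lemma cd_of_bd {n : ℕ} {P : Fin n → Set ℂ} {e : Fin n → ℂ → ℂ} {R R₀ : ℝ} (F : Fam P e R R₀)
    {c : Fin n → ℂ} {r : Fin n → ℝ} {g f : ℂ → ℂ} {j : Fin n} {Ω : Set ℂ}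
    (hf : DifferentiableOn ℂ f Ω) (hi : InjOn f Ω)
    (hgf : ∀ ζ ∈ ann 1 R, g (e j ζ) = f (e j ζ)) (heΩ : ∀ ζ ∈ ann 1 R, e j ζ ∈ Ω)
    (hout : ∀ ζ ∈ ann 1 R, f (e j ζ) ∈ Ec c r)
    (hbd : ∀ ε > 0, ∃ δ > 0, ∀ z ∈ Ω, infDist z (P j) < δ → ‖f z - c j‖ < r j + ε) :
    Cd e R c r g j where
  diff := by
    have h1 : DifferentiableOn ℂ (fun ζ => f (e j ζ)) (ann 1 R) :=
      hf.comp ((F.diff j).mono fun ζ hζ => hζ.1) fun ζ hζ => heΩ ζ hζ
    exact h1.congr fun ζ hζ => hgf ζ hζ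
  inj := by
    intro x hx y hy hxy
    simp only at hxy
    rw [hgf x hx, hgf y hy] at hxy
    exact F.inj j hx.1 hy.1 (hi (heΩ x hx) (heΩ y hy) hxy)
  out ζ hζ := by
    rw [hgf ζ hζ]
    exact hout ζ hζ
  bd ε hε := by
    obtain ⟨δ, hδ, h1⟩ := hbd ε hε
    obtain ⟨c', r', hPar⟩ := F.par j
    obtain ⟨ρ, hρ, h2⟩ := FK.E.e3 (F.cont j) hPar δ hδ
    refine ⟨ρ - 1, by linarith, fun ζ hζ h3 => ?_⟩
    rw [hgf ζ hζ]
    exact h1 _ (heΩ ζ hζ) (h2 ζ hζ.1 (by linarith))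

open H906 in
/-- cross disjointness -/
lemma cross {S S' : Set (Set ℂ)} (hS : Adm S) (hS' : Adm S') {X Y : ℂ → ℂ} {c c' : Set ℂ → ℂ}
    {r r' : Set ℂ → ℝ} (h : CMap S X c r) (h' : CMap S' Y c' r') {C C' : Set ℂ}
    (hC : IsBounded C) (hC' : IsBounded C') (hc : IsPreconnected C'ᶜ)
    (hfr : Disjoint (frontier C) (⋃₀ S')) (hX : ∀ z ∈ frontier C, Y z ∉ Tm S X c r C'ᶜ) :
    Disjoint (Tm S X c r C'ᶜ) (Tm S' Y c' r' C) := by
  by_contra hcon
  rw [Set.not_disjoint_iff] at hcon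
  obtain ⟨w, hw1, hw2⟩ := hcon
  have h1 := h.push hS hc
  have h2 := h'.subset_Tm hS' h1 ⟨w, hw1, hw2⟩ (by
    rw [Set.disjoint_left]
    rintro v hv (⟨z, ⟨hz1, hz2⟩, rfl⟩ | hv2)
    · exact hX z hz1 hv
    · obtain ⟨P, ⟨hP, z, hz, hzP⟩, -⟩ := mem_iUnion₂.1 hv2
      exact Set.disjoint_left.1 hfr hz ⟨P, hP, hzP⟩)
  -- the right side is bounded, the left side is not
  obtain ⟨R1, hR1⟩ := (hC.union hS'.isCompact.isBounded).subset_closedBall 0
  set R := max R1 0 + 1 with hR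
  have hRpos : 0 < R := by positivity
  have hsub : closedBall (0:ℂ) R1 ⊆ ball 0 R := closedBall_subset_ball (by
    rw [hR]
    linarith [le_max_left R1 0])
  have h3 := h'.Tm_bound hS' hRpos
    (subset_union_right.trans (hR1.trans (hsub.trans ball_subset_closedBall)))
  have h4 : Tm S' Y c' r' C ⊆ closedBall 0 (5 * R) :=
    (Tm_mono (subset_union_left.trans (hR1.trans hsub))).trans h3
  obtain ⟨R2, hR2⟩ := (hC'.union hS.isCompact.isBounded).subset_closedBall 0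
  have h5 : ∀ᶠ z in cobounded ℂ, ‖X z - z‖ < 1 := by
    have := h.nu.norm.norm
    rw [norm_zero] at this
    exact this.eventually_lt_const one_pos
  have h6 : ∀ᶠ z : ℂ in cobounded ℂ, max R2 (5 * R + 1) < ‖z‖ :=
    (tendsto_norm_cobounded_atTop (E := ℂ)).eventually_gt_atTop _
  obtain ⟨z, hz1, hz2⟩ := (h5.and h6).exists
  rw [max_lt_iff] at hz2
  have hzS : z ∉ C' ∪ ⋃₀ S := fun hz => by
    have := hR2 hz
    rw [mem_closedBall_zero_iff] at this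
    linarith
  have h7 : X z ∈ Tm S X c r C'ᶜ :=
    Or.inl ⟨z, ⟨fun h => hzS (Or.inl h), fun h => hzS (Or.inr h)⟩, rfl⟩
  have h8 := h4 (h2 h7)
  rw [mem_closedBall_zero_iff] at h8
  have h9 := norm_sub_norm_le z (X z)
  rw [norm_sub_rev] at h9
  linarith [hz2.2]

open H906 in
/-- images of compact sets have uniform neighbourhoods in the images -/
lemma unif_ball {ι : Type*} {𝔉 : Ultrafilter ι} {V : Set ℂ} {S : ι → Set (Set ℂ)}
    {X : ι → ℂ → ℂ} {c : ι → Set ℂ → ℂ} {r : ι → Set ℂ → ℝ} {R : ℝ}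
    (hS : ∀ᶠ i in (𝔉 : Filter ι), Adm (S i))
    (h : ∀ᶠ i in (𝔉 : Filter ι), CMap (S i) (X i) (c i) (r i))
    (hSV : ∀ᶠ i in (𝔉 : Filter ι), Disjoint V (⋃₀ S i))
    (hex : Exh (𝔉 : Filter ι) V (fun i => (⋃₀ S i)ᶜ) X R) {f : ℂ → ℂ}
    (hf : TendstoLocallyUniformlyOn X f (𝔉 : Filter ι) V) {E W : Set ℂ} (hE : IsCompact E)
    (hW : IsOpen W) (hEW : E ⊆ W) (hWV : W ⊆ V) :
    ∃ δ > 0, ∀ᶠ i in (𝔉 : Filter ι), ∀ z ∈ E, ball (X i z) δ ⊆ X i '' W := by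
  obtain ⟨E', hE', hEE', hE'W⟩ := exists_compact_between hE hW hEW
  have hfc : ContinuousOn f V := (hex.lim_diff hf).continuousOn
  have hfi : InjOn f V := hex.lim_inj hf
  have hE'V : E' ⊆ V := hE'W.trans hWV
  have hfrE' : IsCompact (frontier E') := hE'.of_isClosed_subset isClosed_frontier
    hE'.isClosed.frontier_subset
  have hfrV : frontier E' ⊆ V := hE'.isClosed.frontier_subset.trans hE'V
  have hEV : E ⊆ V := hEW.trans hWV
  have hdis : Disjoint (f '' E) (f '' frontier E') := by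
    rw [Set.disjoint_left]
    rintro _ ⟨x, hx, rfl⟩ ⟨y, hy, hxy⟩
    have : y = x := hfi (hfrV hy) (hEV hx) hxy
    rw [this] at hy
    exact hy.2 (hEE' hx)
  obtain ⟨δ, hδ, hdδ⟩ := hdis.exists_thickenings (hE.image_of_continuousOn (hfc.mono hEV))
    (hfrE'.image_of_continuousOn (hfc.mono hfrV)).isClosed
  have hfar : ∀ x ∈ E, ∀ y ∈ frontier E', δ ≤ dist (f x) (f y) := by
    intro x hx y hy
    by_contra hlt
    rw [not_le] at hlt
    refine Set.disjoint_left.1 hdδ (?_ : f y ∈ _) (self_subset_thickening hδ _ ⟨y, hy, rfl⟩)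
    rw [mem_thickening_iff]
    exact ⟨f x, ⟨x, hx, rfl⟩, by rw [dist_comm]; exact hlt⟩
  have hunif : ∀ᶠ i in (𝔉 : Filter ι), ∀ z ∈ E', dist (f z) (X i z) < δ / 3 := by
    have h1 := (tendstoLocallyUniformlyOn_iff_forall_isCompact hex.open').1 hf E' hE'V hE'
    exact Metric.tendstoUniformlyOn_iff.1 h1 (δ / 3) (by positivity)
  refine ⟨δ / 3, by positivity, ?_⟩
  filter_upwards [hS, h, hSV, hunif] with i h1 h2 h3 h4 z hz
  have hzE' : z ∈ E' := interior_subset (hEE' hz)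
  have hdE : ∀ y ∈ E', y ∉ ⋃₀ S i := fun y hy => Set.disjoint_left.1 h3 (hE'V hy)
  have h5 := h2.subset_Tm h1 (V := E') (convex_ball (X i z) (δ / 3)).isPreconnected
    ⟨X i z, mem_ball_self (by positivity), Or.inl ⟨z, ⟨hzE', hdE z hzE'⟩, rfl⟩⟩ (by
      rw [Set.disjoint_left]
      rintro v hv (⟨y, ⟨hy1, hy2⟩, rfl⟩ | hv2)
      · rw [mem_ball] at hv
        have a1 := hfar z hz y hy1
        have a2 := h4 z hzE'
        have a3 := h4 y (hE'.isClosed.frontier_subset hy1)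
        have a4 := dist_triangle (f z) (X i z) (f y)
        have a5 := dist_triangle (X i z) (X i y) (f y)
        rw [dist_comm (X i y) (f y), dist_comm (X i z) (X i y)] at a5
        linarith
      · obtain ⟨P, ⟨hP, y, hy, hyP⟩, -⟩ := mem_iUnion₂.1 hv2
        exact hdE y (hE'.isClosed.frontier_subset hy) ⟨P, hP, hyP⟩)
  refine h5.trans ?_
  rintro v (⟨y, ⟨hy1, hy2⟩, rfl⟩ | hv2)
  · exact ⟨y, hE'W hy1, rfl⟩
  · obtain ⟨P, ⟨hP, y, hy, hyP⟩, -⟩ := mem_iUnion₂.1 hv2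
    exact absurd ⟨P, hP, hyP⟩ (hdE y hy)

open H906 in
/-- full compact neighbourhoods -/
lemma exists_nbhd {K W : Set ℂ} (hK : IsCompact K) (hf : Full K) (hW : IsOpen W) (hKW : K ⊆ W) :
    ∃ C, IsCompact C ∧ Full C ∧ K ⊆ interior C ∧ C ⊆ W := by
  have hE : IsCompact (lev K 0 \ W) := (isCompact_lev hK 0).diff hW
  obtain ⟨m, hm⟩ := exists_lev_disjoint hK hf hE (by
    rw [Set.disjoint_left]
    exact fun z hz hzK => hz.2 (hKW hzK))
  refine ⟨lev K m, isCompact_lev hK m, full_lev m, fun x hx => ?_, fun z hz => ?_⟩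
  · rw [mem_interior_iff_mem_nhds]
    exact mem_of_superset (closedBall_mem_nhds x (lr_pos m)) (closedBall_subset_lev hx m)
  · by_contra hzW
    exact Set.disjoint_left.1 (hm m le_rfl) ⟨lev_anti (Nat.zero_le m) hz, hzW⟩ hz

end Vale.Agent.P116.Slow
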