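import Mathlib
import Vale.Agent.P116.Slow.Fam

/-!
# The mixing lemma
-/

open Set Metric Filter Topology Complex Bornology MeasureTheory
open scoped ComplexConjugate Real Manifold

namespace Vale.Agent.P116.Slow

open FK
open H906 (Adm CMap Full NU Tm Tm_mono kc kr kmap Exh)

/-- geometric data: nested neighbourhoods of `K1` off `K2`, and a cutoff -/
structure Geo (K1 K2 C0 C1 Ca Cb C2 C3 : Set ℂ) (χ : ℂ → ℂ) (R₁ : ℝ) : Prop where
  k1 : K1 ⊆ interior C0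
  c01 : C0 ⊆ interior C1
  c1a : C1 ⊆ interior Ca
  cab : Ca ⊆ interior Cb
  cb2 : Cb ⊆ interior C2
  c23 : C2 ⊆ interior C3
  c3 : C3 ⊆ K2ᶜ
  cpt0 : IsCompact C0
  cpt1 : IsCompact C1
  cpta : IsCompact Ca
  cptb : IsCompact Cb
  cpt2 : IsCompact C2
  cpt3 : IsCompact C3
  full1 : Full C1
  full3 : Full C3
  smooth : ContDiff ℝ 1 χ
  one : ∀ z ∈ interior Ca, χ z = 1
  zero : ∀ z ∈ Cbᶜ, χ z = 0
  rpos : 0 < R₁
  b1 : K1 ⊆ ball 0 R₁
  b2 : K2 ⊆ ball 0 R₁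
  b3 : C3 ⊆ closedBall 0 (R₁ - 1)

lemma exists_geo {K1 K2 : Set ℂ} (hK1 : IsCompact K1) (hK2 : IsCompact K2) (hd : Disjoint K1 K2)
    (hf1 : Full K1) : ∃ C0 C1 Ca Cb C2 C3 χ R₁, Geo K1 K2 C0 C1 Ca Cb C2 C3 χ R₁ := by
  obtain ⟨C3, a3, b3, c3, d3⟩ := exists_nbhd hK1 hf1 hK2.isClosed.isOpen_compl
    (fun z hz h => Set.disjoint_left.1 hd hz h)
  obtain ⟨C2, a2, b2, c2, d2⟩ := exists_nbhd hK1 hf1 isOpen_interior c3
  obtain ⟨Cb, ab, bb, cb, db'⟩ := exists_nbhd hK1 hf1 isOpen_interior c2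
  obtain ⟨Ca, aa, ba, ca, da⟩ := exists_nbhd hK1 hf1 isOpen_interior cb
  obtain ⟨C1, a1, b1, c1, d1⟩ := exists_nbhd hK1 hf1 isOpen_interior ca
  obtain ⟨C0, a0, b0, c0, d0⟩ := exists_nbhd hK1 hf1 isOpen_interior c1
  obtain ⟨χ₀, h0, h1, -⟩ := exists_contMDiffMap_zero_one_of_isClosed (n := 1) 𝓘(ℝ, ℂ)
    (s := (interior Cb)ᶜ) (t := Ca) isOpen_interior.isClosed_compl aa.isClosed
    (Set.disjoint_left.2 fun w hw hw' => hw (da hw'))
  have hχ : ContDiff ℝ 1 fun z => ((χ₀ z : ℝ) : ℂ) :=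
    Complex.ofRealCLM.contDiff.comp χ₀.contMDiff.contDiff
  obtain ⟨R1, hR1⟩ := ((hK1.union hK2).union a3).isBounded.subset_closedBall 0
  refine ⟨C0, C1, Ca, Cb, C2, C3, fun z => ((χ₀ z : ℝ) : ℂ), max R1 0 + 1, ?_⟩
  have hR : closedBall (0:ℂ) R1 ⊆ ball 0 (max R1 0 + 1) :=
    closedBall_subset_ball (by linarith [le_max_left R1 0])
  refine ⟨c0, d0, d1, da, db', d2, d3, a0, a1, aa, ab, a2, a3, b1, b3, hχ, ?_, ?_, by positivity,
    ?_, ?_, ?_⟩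
  · intro z hz
    have := h1 (interior_subset hz)
    rw [this]
    simp
  · intro z hz
    have : z ∈ (interior Cb)ᶜ := fun h => hz (interior_subset h)
    have := h0 this
    rw [this]
    simp
  · exact (subset_union_left.trans subset_union_left).trans (hR1.trans hR)
  · exact (subset_union_right.trans subset_union_left).trans (hR1.trans hR)
  · refine subset_union_right.trans (hR1.trans (closedBall_subset_closedBall ?_))
    rw [add_sub_cancel_right]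
    exact le_max_left _ _

lemma KM_cmap {S : Set (Set ℂ)} (h : Adm S) :
    CMap S (KM S) (kc H906.fk ⟨S, h⟩) (kr H906.fk ⟨S, h⟩) := by
  have h1 := kmap H906.fk ⟨S, h⟩
  rwa [← KM_eq ⟨S, h⟩] at h1

lemma disk_sub_Tm {S : Set (Set ℂ)} {f : ℂ → ℂ} {c : Set ℂ → ℂ} {r : Set ℂ → ℝ} {P Γ : Set ℂ}
    (hP : P ∈ S) (h : (Γ ∩ P).Nonempty) : closedBall (c P) (r P) ⊆ Tm S f c r Γ :=
  fun _ hw => Or.inr (mem_iUnion₂.2 ⟨P, ⟨hP, h⟩, hw⟩)

lemma disk_bound {S : Set (Set ℂ)} (hS : Adm S) {f : ℂ → ℂ} {c : Set ℂ → ℂ} {r : Set ℂ → ℝ}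
    (h : CMap S f c r) {R : ℝ} (hR : 0 < R) (hSR : ∀ P ∈ S, P ⊆ ball 0 R) {P : Set ℂ}
    (hP : P ∈ S) : closedBall (c P) (r P) ⊆ closedBall 0 (5 * R) := by
  refine (disk_sub_Tm (f := f) hP ?_).trans (h.Tm_bound hS hR
    (sUnion_subset fun Q hQ => (hSR Q hQ).trans ball_subset_closedBall))
  obtain ⟨x, hx⟩ := (hS.conn P hP).nonempty
  exact ⟨x, hSR P hP hx, hx⟩

section

variable {K1 K2 C0 C1 Ca Cb C2 C3 : Set ℂ} {χ : ℂ → ℂ} {R₁ : ℝ}

lemma Geo.sub12 (G : Geo K1 K2 C0 C1 Ca Cb C2 C3 χ R₁) : C1 ⊆ C2 :=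
  G.c1a.trans (interior_subset.trans (G.cab.trans (interior_subset.trans
    (G.cb2.trans interior_subset))))

/-- one step of the mixing lemma: comparison for one family of pieces -/
theorem mix_one (G : Geo K1 K2 C0 C1 Ca Cb C2 C3 χ R₁) {a a' O O'' : Set (Set ℂ)}
    (ha : ∀ P ∈ a, P ⊆ K1) (ha' : ∀ P ∈ a', P ⊆ K1) (hO : ∀ P ∈ O, P ⊆ K2)
    (hO'' : ∀ P ∈ O'', P ⊆ K2) (hSX : Adm (O ∪ a)) (hSY : Adm (O'' ∪ a')) (hSZ : Adm (O ∪ a'))
    {X Y Z : ℂ → ℂ} {cX cY cZ : Set ℂ → ℂ} {rX rY rZ : Set ℂ → ℝ}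
    (hX : CMap (O ∪ a) X cX rX) (hY : CMap (O'' ∪ a') Y cY rY) (hZ : CMap (O ∪ a') Z cZ rZ)
    (x1 : Disjoint (Tm (O ∪ a) X cX rX C3ᶜ) (Tm (O'' ∪ a') Y cY rY C2))
    (x0 : Disjoint (Tm (O ∪ a) X cX rX C1ᶜ) (Tm (O'' ∪ a') Y cY rY C0))
    {d₀ r₀ ε : ℝ} (hd₀ : 0 < d₀) (hd₀1 : d₀ ≤ 1)
    (hdA : ∀ z ∈ Cb \ interior Ca, ball z d₀ ⊆ (K1 ∪ K2)ᶜ) (hr₀ : 0 < r₀) (hr₀1 : r₀ ≤ 1)
    (hbX : ∀ z ∈ Cb \ interior Ca, ball (X z) (2 * r₀) ⊆ X '' (K1 ∪ K2)ᶜ)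
    (hbY : ∀ z ∈ Cb \ interior Ca, ball (Y z) (2 * r₀) ⊆ Y '' (K1 ∪ K2)ᶜ)
    (hε0 : 0 ≤ ε) (hεr : ε ≤ r₀ / 2) (hclose : ∀ z ∈ Cb \ interior Ca, ‖X z - Y z‖ ≤ ε)
    {z₀ : ℂ} (hz₀ : 24 * R₁ + 2 < ‖z₀‖) :
    2 * π * ‖X z₀ - Z z₀‖ ≤ ε * (((5 * R₁ + 1) ^ 2 / (r₀ / 2) ^ 2 +
      (5 * R₁ + 1) ^ 2 / d₀ ^ 2) / 2) * ∫ z, ‖db χ z‖ := by
  classical
  have hR₁ := G.rpos
  -- enumeration
  have hfin : Finite ↥(O ∪ a') := hSZ.fin
  obtain ⟨n, ⟨σ⟩⟩ := Finite.exists_equiv_fin ↥(O ∪ a')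
  set P : Fin n → Set ℂ := fun j => (σ.symm j).1 with hP
  have hPS : ∀ j, P j ∈ O ∪ a' := fun j => (σ.symm j).2
  have hPinj : ∀ i j, i ≠ j → P i ≠ P j := fun i j hij h => hij (σ.symm.injective (Subtype.ext h))
  have hPU : (⋃ j, P j) = ⋃₀ (O ∪ a') := by
    ext z
    rw [mem_iUnion, mem_sUnion]
    constructor
    · rintro ⟨j, hj⟩
      exact ⟨P j, hPS j, hj⟩
    · rintro ⟨Q, hQ, hz⟩
      refine ⟨σ ⟨Q, hQ⟩, ?_⟩
      simp only [hP, Equiv.symm_apply_apply]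
      exact hz
  have hK1C0 : K1 ⊆ C0 := G.k1.trans interior_subset
  have hC01 : C0 ⊆ C1 := G.c01.trans interior_subset
  have hC1a : C1 ⊆ Ca := G.c1a.trans interior_subset
  have hCab : Ca ⊆ Cb := G.cab.trans interior_subset
  have hCb2 : Cb ⊆ C2 := G.cb2.trans interior_subset
  have hC23 : C2 ⊆ C3 := G.c23.trans interior_subset
  have hK12 : Disjoint K1 K2 := by
    rw [Set.disjoint_left]
    intro z h1 h2
    exact G.c3 (hC23 (hCb2 (hCab (hC1a (hC01 (hK1C0 h1)))))) h2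
  have hd : Pairwise (Function.onFun Disjoint P) := fun i j hij =>
    hSZ.disj _ (hPS i) _ (hPS j) (hPinj i j hij)
  have hcont : ∀ j, Cont (P j) := fun j =>
    ⟨hSZ.cpt _ (hPS j), hSZ.conn _ (hPS j), hSZ.nontriv _ (hPS j)⟩
  have hPb : ∀ Q ∈ O ∪ a', Q ⊆ ball 0 R₁ := by
    rintro Q (hQ | hQ)
    · exact (hO Q hQ).trans G.b2
    · exact (ha' Q hQ).trans G.b1
  have hXb : ∀ Q ∈ O ∪ a, Q ⊆ ball 0 R₁ := by
    rintro Q (hQ | hQ)
    · exact (hO Q hQ).trans G.b2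
    · exact (ha Q hQ).trans G.b1
  have hYb : ∀ Q ∈ O'' ∪ a', Q ⊆ ball 0 R₁ := by
    rintro Q (hQ | hQ)
    · exact (hO'' Q hQ).trans G.b2
    · exact (ha' Q hQ).trans G.b1
  have hcc : IsConnected (⋃ j, P j)ᶜ := by
    rw [hPU]
    refine ⟨?_, hSZ.full.isPreconnected_compl hSZ.isCompact.isBounded⟩
    refine ⟨((R₁ : ℝ) : ℂ), ?_⟩
    rintro ⟨Q, hQ, hz⟩
    have := hPb Q hQ hz
    rw [mem_ball_zero_iff, Complex.norm_real, Real.norm_of_nonneg hR₁.le] at this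
    exact lt_irrefl _ this
  -- in and out
  have hout : ∀ j, P j ∉ a' → P j ∈ O := fun j hj => (hPS j).resolve_right hj
  set W : Fin n → Set ℂ := fun j => if P j ∈ a' then interior C0 else C3ᶜ with hW
  have hWo : ∀ j, IsOpen (W j) := by
    intro j
    simp only [hW]
    split_ifs
    · exact isOpen_interior
    · exact G.cpt3.isClosed.isOpen_compl
  have hPW : ∀ j, P j ⊆ W j := by
    intro j
    simp only [hW]
    split_ifs with h
    · exact (ha' _ h).trans G.k1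
    · exact fun z hz h3 => G.c3 h3 (hO _ (hout j h) hz)
  obtain ⟨e, R, F, heW⟩ := exists_fam hcont hd hcc (R₀ := R₁) (fun j => hPb _ (hPS j)) hWo hPW
  have hR := F.hR
  -- the regions
  set A := Cb \ interior Ca with hA
  set N1 := interior Ca with hN1
  set N2 := Cbᶜ with hN2
  set U := interior C2 \ C1 with hU
  have hΩ : ∀ z, z ∈ (⋃ j, P j)ᶜ ↔ z ∉ ⋃₀ (O ∪ a') := fun z => by rw [hPU, mem_compl_iff]
  have hC0N1 : interior C0 ⊆ N1 := interior_mono (hC01.trans hC1a)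
  have hC3N2 : C3ᶜ ⊆ N2 := compl_subset_compl.2 (hCb2.trans hC23)
  have hN1U : N1 ∪ U ⊆ C2 := union_subset (interior_subset.trans (hCab.trans hCb2))
    (sdiff_subset.trans interior_subset)
  have hN2U : N2 ∪ U ⊆ C1ᶜ := union_subset (compl_subset_compl.2 (hC1a.trans hCab))
    fun z hz => hz.2
  have hT : Trans P e R χ A N1 N2 U := by
    refine ⟨G.cptb.diff isOpen_interior, isOpen_interior, G.cptb.isClosed.isOpen_compl, ?_,
      G.smooth, G.one, G.zero, isOpen_interior.sdiff G.cpt1.isClosed, ?_, ?_,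
      G.cpta.isBounded.subset interior_subset, ?_, ?_⟩
    · intro z
      by_cases h1 : z ∈ Cb
      · by_cases h2 : z ∈ interior Ca
        · exact Or.inr (Or.inl h2)
        · exact Or.inl ⟨h1, h2⟩
      · exact Or.inr (Or.inr h1)
    · exact fun z hz => ⟨G.cb2 hz.1, fun h => hz.2 (G.c1a h)⟩
    · rintro z ⟨hz1, hz2⟩
      rw [hΩ]
      rintro ⟨Q, hQ | hQ, hzQ⟩
      · exact G.c3 (hC23 (interior_subset hz1)) (hO Q hQ hzQ)
      · exact hz2 (hC01 (hK1C0 (ha' Q hQ hzQ)))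
    · intro j
      have h1 : P j ∪ e j '' ann 1 R ⊆ W j := union_subset (hPW j) (heW j)
      by_cases h : P j ∈ a'
      · simp only [hW, if_pos h] at h1
        exact Or.inl (h1.trans hC0N1)
      · simp only [hW, if_neg h] at h1
        exact Or.inr (h1.trans hC3N2)
    · exact fun z hz => ⟨hz.2, fun h => h hz.1⟩
  -- the disks
  set c : Fin n → ℂ := fun j => cZ (P j) with hc
  set r : Fin n → ℝ := fun j => rZ (P j) with hr
  set c' : Fin n → ℂ := fun j => if P j ∈ a' then cY (P j) else cX (P j) with hc'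
  set r' : Fin n → ℝ := fun j => if P j ∈ a' then rY (P j) else rX (P j) with hr'
  have hD : Dk c r := ⟨fun j => hZ.rpos _ (hPS j), fun i j hij =>
    hZ.disj _ (hPS i) _ (hPS j) (hPinj i j hij)⟩
  have eq1 : ∀ j, P j ∈ a' → closedBall (c' j) (r' j) = closedBall (cY (P j)) (rY (P j)) :=
    fun j h => by simp only [hc', hr', if_pos h]
  have eq2 : ∀ j, P j ∉ a' → closedBall (c' j) (r' j) = closedBall (cX (P j)) (rX (P j)) :=
    fun j h => by simp only [hc', hr', if_neg h]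
  have memY : ∀ {Q}, Q ∈ a' → Q ∈ O'' ∪ a' := fun h => Or.inr h
  have memX : ∀ {Q}, Q ∈ O → Q ∈ O ∪ a := fun h => Or.inl h
  have hneZ : ∀ j, (P j).Nonempty := fun j => (hcont j).conn.nonempty
  have sX : ∀ j, P j ∉ a' → closedBall (cX (P j)) (rX (P j)) ⊆ Tm (O ∪ a) X cX rX C3ᶜ := by
    intro j h
    refine disk_sub_Tm (memX (hout j h)) ?_
    obtain ⟨x, hx⟩ := hneZ j
    exact ⟨x, fun h3 => G.c3 h3 (hO _ (hout j h) hx), hx⟩
  have sY : ∀ j, P j ∈ a' → closedBall (cY (P j)) (rY (P j)) ⊆ Tm (O'' ∪ a') Y cY rY C0 := by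
    intro j h
    refine disk_sub_Tm (memY h) ?_
    obtain ⟨x, hx⟩ := hneZ j
    exact ⟨x, hK1C0 (ha' _ h hx), hx⟩
  have hC02 : C0 ⊆ C2 := hC01.trans (hC1a.trans (hCab.trans hCb2))
  have hD' : Dk c' r' := by
    constructor
    · intro j
      simp only [hr']
      split_ifs with h
      · exact hY.rpos _ (memY h)
      · exact hX.rpos _ (memX (hout j h))
    · intro i j hij
      by_cases hi : P i ∈ a' <;> by_cases hj : P j ∈ a'
      · rw [eq1 i hi, eq1 j hj]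
        exact hY.disj _ (memY hi) _ (memY hj) (hPinj i j hij)
      · rw [eq1 i hi, eq2 j hj]
        exact (x1.mono (sX j hj) ((sY i hi).trans (Tm_mono hC02))).symm
      · rw [eq2 i hi, eq1 j hj]
        exact x1.mono (sX i hi) ((sY j hj).trans (Tm_mono hC02))
      · rw [eq2 i hi, eq2 j hj]
        exact hX.disj _ (memX (hout i hi)) _ (memX (hout j hj)) (hPinj i j hij)
  -- domains
  have domY : ∀ z, z ∈ C2 → z ∈ (⋃ j, P j)ᶜ → z ∈ (⋃₀ (O'' ∪ a'))ᶜ := by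
    intro z hz hzΩ
    rw [hΩ] at hzΩ
    rintro ⟨Q, hQ | hQ, hzQ⟩
    · exact G.c3 (hC23 hz) (hO'' Q hQ hzQ)
    · exact hzΩ ⟨Q, Or.inr hQ, hzQ⟩
  have domX : ∀ z, z ∉ C1 → z ∈ (⋃ j, P j)ᶜ → z ∈ (⋃₀ (O ∪ a))ᶜ := by
    intro z hz hzΩ
    rw [hΩ] at hzΩ
    rintro ⟨Q, hQ | hQ, hzQ⟩
    · exact hzΩ ⟨Q, Or.inl hQ, hzQ⟩
    · exact hz (hC01 (hK1C0 (ha Q hQ hzQ)))
  have outY : ∀ z, z ∈ C2 → z ∈ (⋃ j, P j)ᶜ → Y z ∈ Ec c' r' := by
    intro z hz hzΩ j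
    have hzd := domY z hz hzΩ
    by_cases h : P j ∈ a'
    · rw [eq1 j h]
      exact hY.notMem hzd (memY h)
    · rw [eq2 j h]
      intro hmem
      exact Set.disjoint_left.1 x1 (sX j h hmem) (Or.inl ⟨z, ⟨hz, hzd⟩, rfl⟩)
  have outX : ∀ z, z ∉ C1 → z ∈ (⋃ j, P j)ᶜ → X z ∈ Ec c' r' := by
    intro z hz hzΩ j
    have hzd := domX z hz hzΩ
    by_cases h : P j ∈ a'
    · rw [eq1 j h]
      intro hmem
      exact Set.disjoint_left.1 x0 (Or.inl ⟨z, ⟨hz, hzd⟩, rfl⟩) (sY j h hmem)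
    · rw [eq2 j h]
      exact hX.notMem hzd (memX (hout j h))
  have hVX : ∀ z ∈ (K1 ∪ K2)ᶜ, z ∉ ⋃₀ (O ∪ a) := by
    rintro z hz ⟨Q, hQ | hQ, hzQ⟩
    · exact hz (Or.inr (hO Q hQ hzQ))
    · exact hz (Or.inl (ha Q hQ hzQ))
  have hVY : ∀ z ∈ (K1 ∪ K2)ᶜ, z ∉ ⋃₀ (O'' ∪ a') := by
    rintro z hz ⟨Q, hQ | hQ, hzQ⟩
    · exact hz (Or.inr (hO'' Q hQ hzQ))
    · exact hz (Or.inl (ha' Q hQ hzQ))
  have hVZ : ∀ z ∈ (K1 ∪ K2)ᶜ, z ∈ (⋃ j, P j)ᶜ := by
    intro z hz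
    rw [hΩ]
    rintro ⟨Q, hQ | hQ, hzQ⟩
    · exact hz (Or.inr (hO Q hQ hzQ))
    · exact hz (Or.inl (ha' Q hQ hzQ))
  have hfarX : (closedBall (0:ℂ) R₁)ᶜ ⊆ (⋃₀ (O ∪ a))ᶜ := compl_subset_compl.2
    (sUnion_subset fun Q hQ => (hXb Q hQ).trans ball_subset_closedBall)
  have hfarY : (closedBall (0:ℂ) R₁)ᶜ ⊆ (⋃₀ (O'' ∪ a'))ᶜ := compl_subset_compl.2
    (sUnion_subset fun Q hQ => (hYb Q hQ).trans ball_subset_closedBall)
  have hfarZ : (closedBall (0:ℂ) R₁)ᶜ ⊆ (⋃₀ (O ∪ a'))ᶜ := compl_subset_compl.2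
    (sUnion_subset fun Q hQ => (hPb Q hQ).trans ball_subset_closedBall)
  have hAR : ∀ z ∈ A, ‖z‖ ≤ R₁ - 1 := by
    intro z hz
    have := G.b3 (hC23 (hCb2 hz.1))
    rwa [mem_closedBall_zero_iff] at this
  have hAV : ∀ z ∈ A, z ∈ (K1 ∪ K2)ᶜ := fun z hz => hdA z hz (mem_ball_self hd₀)
  have hball1 : closedBall (0:ℂ) (5 * R₁) ⊆ closedBall 0 (5 * R₁ + 1) :=
    closedBall_subset_closedBall (by linarith)
  have hM : Mix P e R χ A N1 N2 U c r Z c' r' X Y (5 * R₁ + 1) d₀ r₀ ε := by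
    refine ⟨hT, hD, hD', ?_, ?_, ?_, hZ.nu.norm, ?_, ?_, ?_, ?_, ?_, hX.nu.norm, ?_, by positivity,
      ?_, ?_, hd₀, fun z hz => (hdA z hz).trans fun y hy => hVZ y hy, ?_, hr₀, ?_, ?_, hε0, hεr,
      hclose⟩
    · rw [hPU]; exact hZ.nu.diff
    · rw [hPU]; exact hZ.nu.inj
    · intro z hz j
      rw [hΩ] at hz
      exact hZ.notMem hz (hPS j)
    · intro j
      refine cd_of_bd F hZ.nu.diff hZ.nu.inj (fun _ _ => rfl) (fun ζ hζ => ?_) (fun ζ hζ i => ?_) ?_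
      · have := F.collar_mem j hζ
        rwa [hPU] at this
      · have := F.collar_mem j hζ
        rw [hΩ] at this
        exact hZ.notMem this (hPS i)
      · exact fun ε hε => cmap_bd hSZ hZ (hPS j) hε
    · exact hY.nu.diff.mono fun z hz => domY z (hN1U hz.1) hz.2
    · exact fun z hz => outY z (hN1U hz.1) hz.2
    · exact hX.nu.diff.mono fun z hz => domX z (hN2U hz.1) hz.2
    · exact fun z hz => outX z (hN2U hz.1) hz.2
    · intro j
      have h1 := heW j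
      by_cases h : P j ∈ a'
      · simp only [hW, if_pos h] at h1
        have h2 : ∀ ζ ∈ ann 1 R, e j ζ ∈ C0 := fun ζ hζ =>
          interior_subset (h1 (mem_image_of_mem _ hζ))
        refine cd_of_bd F hY.nu.diff hY.nu.inj (fun ζ hζ => ?_) (fun ζ hζ => ?_) (fun ζ hζ => ?_) ?_
        · have h3 : e j ζ ∈ N1 := hC0N1 (h1 (mem_image_of_mem _ hζ))
          simp only [gl, if_pos h3]
        · exact domY _ (hC02 (h2 ζ hζ)) (F.collar_mem j hζ)
        · exact outY _ (hC02 (h2 ζ hζ)) (F.collar_mem j hζ)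
        · simp only [hc', hr', if_pos h]
          exact fun ε hε => cmap_bd hSY hY (memY h) hε
      · simp only [hW, if_neg h] at h1
        have h2 : ∀ ζ ∈ ann 1 R, e j ζ ∉ C1 := fun ζ hζ hm =>
          h1 (mem_image_of_mem _ hζ) (hC23 (hCb2 (hCab (hC1a hm))))
        refine cd_of_bd F hX.nu.diff hX.nu.inj (fun ζ hζ => ?_) (fun ζ hζ => ?_) (fun ζ hζ => ?_) ?_
        · have h3 : e j ζ ∉ N1 := fun h3 =>
            h1 (mem_image_of_mem _ hζ) (hC23 (hCb2 (hCab (interior_subset h3))))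
          simp only [gl, if_neg h3]
        · exact domX _ (h2 ζ hζ) (F.collar_mem j hζ)
        · exact outX _ (h2 ζ hζ) (F.collar_mem j hζ)
        · simp only [hc', hr', if_neg h]
          exact fun ε hε => cmap_bd hSX hX (memX (hout j h)) hε
    · exact fun j => (disk_bound hSZ hZ hR₁ hPb (hPS j)).trans hball1
    · intro j
      by_cases h : P j ∈ a'
      · rw [eq1 j h]
        exact (disk_bound hSY hY hR₁ hYb (memY h)).trans hball1
      · rw [eq2 j h]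
        exact (disk_bound hSX hX hR₁ hXb (memX (hout j h))).trans hball1
    · intro z hz y hy
      have h1 := hAR z hz
      have h2 := (hΩ y).1 (hVZ y (hdA z hz hy))
      have h3 : ‖y‖ ≤ R₁ := by
        rw [mem_ball, dist_eq_norm] at hy
        have := norm_sub_norm_le y z
        linarith
      have := hZ.nu.norm_le hR₁ hfarZ h2 h3
      linarith
    · intro z hz y hy j
      by_cases h : P j ∈ a'
      · rw [eq1 j h]
        obtain ⟨x, hx, rfl⟩ := hbY z hz (ball_subset_ball (by linarith) hy)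
        exact hY.notMem (hVY x hx) (memY h)
      · rw [eq2 j h]
        have h1 : y ∈ ball (X z) (2 * r₀) := by
          have h2 := hclose z hz
          rw [mem_ball, dist_eq_norm] at hy ⊢
          have h3 : ‖y - X z‖ ≤ ‖y - Y z‖ + ‖X z - Y z‖ := by
            rw [norm_sub_rev (X z) (Y z)]
            exact norm_sub_le_norm_sub_add_norm_sub _ _ _
          linarith
        obtain ⟨x, hx, rfl⟩ := hbX z hz h1
        exact hX.notMem (hVX x hx) (memX (hout j h))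
    · intro z hz y hy
      have h1 := hY.nu.norm_le hR₁ hfarY (hVY z (hAV z hz)) ((hAR z hz).trans (by linarith))
      rw [mem_closedBall_zero_iff]
      rw [mem_ball, dist_eq_norm] at hy
      have := norm_sub_norm_le y (Y z)
      linarith
  -- the point
  have hz1 : z₀ ∉ closedBall (0:ℂ) (R₁ - 1) := by
    rw [mem_closedBall_zero_iff, not_le]
    linarith
  have hz2 : z₀ ∉ C3 := fun h => hz1 (G.b3 h)
  have hZz : 5 * R₁ + 1 + 1 ≤ ‖Z z₀‖ := by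
    have h1 := hZ.nu.tail hR₁ hfarZ (z := z₀) (by linarith)
    have h2 : 24 * R₁ ^ 2 / ‖z₀‖ ≤ R₁ := by
      rw [div_le_iff₀ (by linarith)]
      nlinarith
    have h3 : ‖z₀‖ - ‖Z z₀‖ ≤ ‖Z z₀ - z₀‖ := by
      rw [norm_sub_rev]; exact norm_sub_norm_le _ _
    linarith
  exact hM.main F (by linarith) (hC3N2 hz2) (fun h => hz2 (hC23 (interior_subset h.1))) hZz

end

section

variable {ι : Type*} {𝔉 : Ultrafilter ι} {K1 K2 : Set ℂ}

lemma exh_of {S : ι → Set (Set ℂ)} (hK1 : IsCompact K1) (hK2 : IsCompact K2)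
    (hf : Full (K1 ∪ K2)) (hS : ∀ i, Adm (S i)) (hsub : ∀ i, ∀ P ∈ S i, P ⊆ K1 ∪ K2) {R : ℝ}
    (hR : 0 < R) (hKR : K1 ∪ K2 ⊆ closedBall 0 R) :
    Exh (𝔉 : Filter ι) (K1 ∪ K2)ᶜ (fun i => (⋃₀ S i)ᶜ) (fun i => KM (S i)) R where
  open' := (hK1.union hK2).isClosed.isOpen_compl
  conn := hf.isPreconnected_compl (hK1.union hK2).isBounded
  rpos := hR
  tail := compl_subset_compl.2 hKR
  vtail := Eventually.of_forall fun i => compl_subset_compl.2
    (sUnion_subset fun P hP => (hsub i P hP).trans hKR)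
  nu := Eventually.of_forall fun i => KM_nu (hS i)
  exh := by
    intro z hz
    obtain ⟨r, hr, hb⟩ := Metric.isOpen_iff.1 (hK1.union hK2).isClosed.isOpen_compl z hz
    exact ⟨r, hr, hb, Eventually.of_forall fun i =>
      hb.trans (compl_subset_compl.2 (sUnion_subset fun P hP => hsub i P hP))⟩

/-- **the mixing lemma** -/
theorem mixing (hK1 : IsCompact K1) (hK2 : IsCompact K2) (hd : Disjoint K1 K2) (hf1 : Full K1)
    (hf : Full (K1 ∪ K2)) {a a' O O'' : ι → Set (Set ℂ)} (ha : ∀ i, ∀ P ∈ a i, P ⊆ K1)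
    (ha' : ∀ i, ∀ P ∈ a' i, P ⊆ K1) (hO : ∀ i, ∀ P ∈ O i, P ⊆ K2)
    (hO'' : ∀ i, ∀ P ∈ O'' i, P ⊆ K2) (h1 : ∀ i, Adm (O i ∪ a i)) (h2 : ∀ i, Adm (O'' i ∪ a' i))
    (h3 : ∀ i, Adm (O i ∪ a' i)) {f : ℂ → ℂ}
    (hX : TendstoLocallyUniformlyOn (fun i => KM (O i ∪ a i)) f (𝔉 : Filter ι) (K1 ∪ K2)ᶜ)
    (hY : TendstoLocallyUniformlyOn (fun i => KM (O'' i ∪ a' i)) f (𝔉 : Filter ι) (K1 ∪ K2)ᶜ) :
    ∃ R : ℝ, ∀ z : ℂ, R < ‖z‖ → Tendsto (fun i => KM (O i ∪ a' i) z) (𝔉 : Filter ι) (𝓝 (f z)) := by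
  obtain ⟨C0, C1, Ca, Cb, C2, C3, χ, R₁, G⟩ := exists_geo hK1 hK2 hd hf1
  have hR₁ := G.rpos
  have hKR : K1 ∪ K2 ⊆ closedBall 0 R₁ :=
    union_subset (G.b1.trans ball_subset_closedBall) (G.b2.trans ball_subset_closedBall)
  have hVo : IsOpen (K1 ∪ K2)ᶜ := (hK1.union hK2).isClosed.isOpen_compl
  have sX : ∀ i, ∀ P ∈ O i ∪ a i, P ⊆ K1 ∪ K2 := by
    rintro i P (hP | hP)
    · exact (hO i P hP).trans subset_union_right
    · exact (ha i P hP).trans subset_union_left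
  have sY : ∀ i, ∀ P ∈ O'' i ∪ a' i, P ⊆ K1 ∪ K2 := by
    rintro i P (hP | hP)
    · exact (hO'' i P hP).trans subset_union_right
    · exact (ha' i P hP).trans subset_union_left
  have eX := exh_of (𝔉 := 𝔉) hK1 hK2 hf h1 sX hR₁ hKR
  have eY := exh_of (𝔉 := 𝔉) hK1 hK2 hf h2 sY hR₁ hKR
  have cX := fun i => KM_cmap (h1 i)
  have cY := fun i => KM_cmap (h2 i)
  have cZ := fun i => KM_cmap (h3 i)
  have dX : ∀ i, Disjoint (K1 ∪ K2)ᶜ (⋃₀ (O i ∪ a i)) := fun i =>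
    Set.disjoint_left.2 fun z hz ⟨P, hP, hzP⟩ => hz (sX i P hP hzP)
  have dY : ∀ i, Disjoint (K1 ∪ K2)ᶜ (⋃₀ (O'' i ∪ a' i)) := fun i =>
    Set.disjoint_left.2 fun z hz ⟨P, hP, hzP⟩ => hz (sY i P hP hzP)
  have hC01 : C0 ⊆ C1 := G.c01.trans interior_subset
  have hK1C0 : K1 ⊆ C0 := G.k1.trans interior_subset
  have hC1a : C1 ⊆ Ca := G.c1a.trans interior_subset
  have hCab : Ca ⊆ Cb := G.cab.trans interior_subset
  have hCb2 : Cb ⊆ C2 := G.cb2.trans interior_subset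
  have hC23 : C2 ⊆ C3 := G.c23.trans interior_subset
  -- the transition region
  set A := Cb \ interior Ca with hA
  have hAc : IsCompact A := G.cptb.diff isOpen_interior
  have hAV : A ⊆ (K1 ∪ K2)ᶜ := by
    rintro z hz (h | h)
    · exact hz.2 (G.c1a (hC01 (hK1C0 h)))
    · exact G.c3 (hC23 (hCb2 hz.1)) h
  obtain ⟨d, hd0, hdA⟩ := hAc.exists_thickening_subset_open hVo hAV
  set d₀ := min d 1 with hd₀
  have hd₀0 : 0 < d₀ := lt_min hd0 one_pos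
  have hdA' : ∀ z ∈ A, ball z d₀ ⊆ (K1 ∪ K2)ᶜ := fun z hz =>
    ((ball_subset_ball (min_le_left _ _)).trans (ball_subset_thickening hz d)).trans hdA
  obtain ⟨δX, hδX, hbX⟩ := unif_ball (Eventually.of_forall h1) (Eventually.of_forall cX)
    (Eventually.of_forall dX) eX hX hAc hVo hAV subset_rfl
  obtain ⟨δY, hδY, hbY⟩ := unif_ball (Eventually.of_forall h2) (Eventually.of_forall cY)
    (Eventually.of_forall dY) eY hY hAc hVo hAV subset_rfl
  set r₀ := min (min (δX / 2) (δY / 2)) 1 with hr₀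
  have hr₀0 : 0 < r₀ := lt_min (lt_min (by positivity) (by positivity)) one_pos
  have hr₀X : 2 * r₀ ≤ δX := by
    have := (min_le_left (min (δX / 2) (δY / 2)) 1).trans (min_le_left _ _)
    rw [← hr₀] at this
    linarith
  have hr₀Y : 2 * r₀ ≤ δY := by
    have := (min_le_left (min (δX / 2) (δY / 2)) 1).trans (min_le_right _ _)
    rw [← hr₀] at this
    linarith
  -- closeness on compact sets
  have hclose : ∀ E : Set ℂ, IsCompact E → E ⊆ (K1 ∪ K2)ᶜ → ∀ ε > 0, ∀ᶠ i in (𝔉 : Filter ι),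
      ∀ z ∈ E, ‖KM (O i ∪ a i) z - KM (O'' i ∪ a' i) z‖ ≤ ε := by
    intro E hE hEV ε hε
    have u1 := Metric.tendstoUniformlyOn_iff.1
      ((tendstoLocallyUniformlyOn_iff_forall_isCompact hVo).1 hX E hEV hE) (ε / 2) (by positivity)
    have u2 := Metric.tendstoUniformlyOn_iff.1
      ((tendstoLocallyUniformlyOn_iff_forall_isCompact hVo).1 hY E hEV hE) (ε / 2) (by positivity)
    filter_upwards [u1, u2] with i v1 v2 z hz
    rw [← dist_eq_norm]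
    have := dist_triangle_left (KM (O i ∪ a i) z) (KM (O'' i ∪ a' i) z) (f z)
    linarith [v1 z hz, v2 z hz]
  -- cross disjointness
  have hcross : ∀ C C' : Set ℂ, IsCompact C → IsCompact C' → Full C' → K1 ⊆ interior C →
      C ⊆ interior C' → C' ⊆ C3 → ∀ᶠ i in (𝔉 : Filter ι),
      Disjoint (Tm (O i ∪ a i) (KM (O i ∪ a i)) (kc H906.fk ⟨_, h1 i⟩) (kr H906.fk ⟨_, h1 i⟩) C'ᶜ)
        (Tm (O'' i ∪ a' i) (KM (O'' i ∪ a' i)) (kc H906.fk ⟨_, h2 i⟩) (kr H906.fk ⟨_, h2 i⟩) C) := by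
    intro C C' hC hC' hfC' hKC hCC' hC'3
    have hfr : IsCompact (frontier C) :=
      hC.of_isClosed_subset isClosed_frontier hC.isClosed.frontier_subset
    have hfrV : frontier C ⊆ interior C' \ K1 := fun z hz =>
      ⟨hCC' (hC.isClosed.frontier_subset hz), fun h => hz.2 (hKC h)⟩
    have hW : IsOpen (interior C' \ K1) := isOpen_interior.sdiff hK1.isClosed
    have hWV : interior C' \ K1 ⊆ (K1 ∪ K2)ᶜ := by
      rintro z hz (h | h)
      · exact hz.2 h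
      · exact G.c3 (hC'3 (interior_subset hz.1)) h
    obtain ⟨δ, hδ, hb⟩ := unif_ball (Eventually.of_forall h1) (Eventually.of_forall cX)
      (Eventually.of_forall dX) eX hX hfr hW hfrV hWV
    filter_upwards [hb, hclose (frontier C) hfr (hfrV.trans hWV) (δ / 2) (by positivity)]
      with i b1 b2
    refine cross (h1 i) (h2 i) (cX i) (cY i) hC.isBounded hC'.isBounded
      (hfC'.isPreconnected_compl hC'.isBounded) ?_ ?_
    · exact (dY i).mono_left (hfrV.trans hWV)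
    · intro z hz
      have hmem : KM (O'' i ∪ a' i) z ∈ ball (KM (O i ∪ a i) z) δ := by
        rw [mem_ball, dist_eq_norm, norm_sub_rev]
        linarith [b2 z hz]
      obtain ⟨y, hy, hyz⟩ := b1 z hz hmem
      rw [← hyz]
      exact (cX i).notMem_Tm (Set.disjoint_left.1 (dX i) (hWV hy))
        fun h => h (interior_subset hy.1)
  have hx1 := hcross C2 C3 G.cpt2 G.cpt3 G.full3
    (fun z hz => interior_mono (hC01.trans (hC1a.trans (hCab.trans hCb2))) (G.k1 hz)) G.c23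
    subset_rfl
  have hx0 := hcross C0 C1 G.cpt0 G.cpt1 G.full1 G.k1 G.c01
    (hC1a.trans (hCab.trans (hCb2.trans hC23)))
  set M := (((5 * R₁ + 1) ^ 2 / (r₀ / 2) ^ 2 + (5 * R₁ + 1) ^ 2 / d₀ ^ 2) / 2) *
    ∫ z, ‖db χ z‖ with hM
  have hM0 : 0 ≤ M := mul_nonneg (by positivity) (integral_nonneg fun _ => norm_nonneg _)
  refine ⟨24 * R₁ + 2, fun z hz => ?_⟩
  have hzV : z ∈ (K1 ∪ K2)ᶜ := by
    intro h
    have := hKR h
    rw [mem_closedBall_zero_iff] at this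
    linarith
  have hdiff : Tendsto (fun i => KM (O i ∪ a i) z - KM (O i ∪ a' i) z) (𝔉 : Filter ι) (𝓝 0) := by
    rw [Metric.tendsto_nhds]
    intro η hη
    obtain ⟨ε, hε0, hε1, hε2⟩ : ∃ ε > 0, ε ≤ r₀ / 2 ∧ ε * M < η := by
      refine ⟨min (r₀ / 2) (η / (2 * (M + 1))), lt_min (by positivity) (by positivity),
        min_le_left _ _, ?_⟩
      calc min (r₀ / 2) (η / (2 * (M + 1))) * M ≤ η / (2 * (M + 1)) * M :=
            mul_le_mul_of_nonneg_right (min_le_right _ _) hM0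
        _ < η := by
            rw [div_mul_eq_mul_div, div_lt_iff₀ (by positivity)]
            nlinarith
    filter_upwards [hx1, hx0, hbX, hbY, hclose A hAc hAV ε hε0] with i g1 g2 g3 g4 g5
    have h := mix_one G (ha i) (ha' i) (hO i) (hO'' i) (h1 i) (h2 i) (h3 i) (cX i) (cY i) (cZ i)
      g1 g2 hd₀0 (min_le_right _ _) hdA' hr₀0 (min_le_right _ _)
      (fun y hy => (ball_subset_ball hr₀X).trans (g3 y hy))
      (fun y hy => (ball_subset_ball hr₀Y).trans (g4 y hy)) hε0.le hε1 g5 hz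
    rw [dist_zero_right]
    have hpi : 1 ≤ 2 * π := by have := Real.pi_gt_three; linarith
    have h5 : ε * (((5 * R₁ + 1) ^ 2 / (r₀ / 2) ^ 2 + (5 * R₁ + 1) ^ 2 / d₀ ^ 2) / 2) *
        ∫ z, ‖db χ z‖ = ε * M := by rw [hM]; ring
    rw [h5] at h
    have h6 := mul_le_mul_of_nonneg_right hpi
      (norm_nonneg (KM (O i ∪ a i) z - KM (O i ∪ a' i) z))
    linarith
  have h7 := (hX.tendsto_at hzV).sub hdiff
  simp only [sub_sub_cancel, sub_zero] at h7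
  exact h7

end

end Vale.Agent.P116.Slow
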