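import Mathlib
import Vale.Agent.P116.Slow.Mix

/-!
# Total boundedness of the spaces of structures
-/

open Set Metric Filter Topology Bornology

namespace Vale.Agent.P116.Slow

open H906 PBC

section

variable {α : Type*}

lemma map_eq_of_le {β : Type*} {f : α → β} {𝔘 : Ultrafilter α} {𝔄 : Ultrafilter β}
    (h : (𝔘 : Filter α) ≤ comap f 𝔄) : 𝔘.map f = 𝔄 := by
  apply Ultrafilter.coe_le_coe.1
  rw [Ultrafilter.coe_map]
  exact Filter.map_le_iff_le_comap.2 h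

lemma tlu_comp {β : Type*} {𝔘 : Ultrafilter α} {𝔄 : Ultrafilter β} {p : α → β}
    (h : 𝔘.map p = 𝔄) {F : β → ℂ → ℂ} {f : ℂ → ℂ} {V : Set ℂ}
    (hF : TendstoLocallyUniformlyOn F f (𝔄 : Filter β) V) :
    TendstoLocallyUniformlyOn (fun i => F (p i)) f (𝔘 : Filter α) V := by
  intro u hu x hx
  obtain ⟨t, ht, hev⟩ := hF u hu x hx
  refine ⟨t, ht, ?_⟩
  rw [← h, Ultrafilter.coe_map] at hev
  exact eventually_map.1 hev

end

/-- two structures, a context, and a point of the circle -/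
abbrev TQ (K Q : Set ℂ) (ρ : ℝ) : Type := SQ K Q × SQ K Q × CQ K Q × sphere (0:ℂ) ρ

variable {K Q K2 : Set ℂ} {R ρ : ℝ}

theorem Far.tb_of (h : Far K R ρ) (hQ : Q ⊆ lev K 0) (hQc : IsCompact Q) (hQf : Full Q)
    (hK2 : IsCompact K2) (hd : Disjoint Q K2) (hf : Full (Q ∪ K2)) (hK2s : K2 ⊆ lev K 0)
    (hctx : ∀ O : CQ K Q, ∀ P ∈ O.1, P ⊆ K2) :
    @TotallyBounded (SQ K Q) (h.pms hQ).toUniformSpace univ := by
  let _ : PseudoMetricSpace (SQ K Q) := h.pms hQ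
  rw [totallyBounded_iff_ultrafilter]
  intro 𝔄 _
  rw [Metric.cauchy_iff]
  refine ⟨inferInstance, ?_⟩
  by_contra hcon
  push Not at hcon
  obtain ⟨ε, hε, hcon⟩ := hcon
  have hρ := h.pos
  have hR := h.rpos
  -- the bad set
  set B : Set (TQ K Q ρ) :=
    {p | ε / 2 < ‖KM (p.2.2.1.1 ∪ p.1.1) p.2.2.2 - KM (p.2.2.1.1 ∪ p.2.1.1) p.2.2.2‖} with hB
  have hbad : ∀ t ∈ (𝔄 : Filter (SQ K Q)), ∃ p ∈ B, p.1 ∈ t ∧ p.2.1 ∈ t := by
    intro t ht
    obtain ⟨x, hx, y, hy, hxy⟩ := hcon t ht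
    by_contra hno
    push Not at hno
    have h1 : dQ K Q ρ x y ≤ ε / 2 := h.dQ_le fun O z => by
      by_contra hlt
      rw [not_le] at hlt
      exact hno (x, y, O, z) hlt hx hy
    have h2 : dist x y = dQ K Q ρ x y := rfl
    rw [h2] at hxy
    linarith
  -- first coupling
  set L : Filter (TQ K Q ρ) :=
    comap (fun p => p.1) 𝔄 ⊓ comap (fun p => p.2.1) 𝔄 ⊓ 𝓟 B with hL
  have hLne : L.NeBot := by
    rw [hL, inf_neBot_iff]
    intro s hs t ht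
    rw [mem_principal] at ht
    obtain ⟨s1, hs1, s2, hs2, rfl⟩ := mem_inf_iff.1 hs
    obtain ⟨t1, ht1, hsub1⟩ := hs1
    obtain ⟨t2, ht2, hsub2⟩ := hs2
    obtain ⟨p, hpB, hp1, hp2⟩ := hbad (t1 ∩ t2) (inter_mem ht1 ht2)
    exact ⟨p, ⟨hsub1 hp1.1, hsub2 hp2.2⟩, ht hpB⟩
  set 𝔘 := Ultrafilter.of L with h𝔘
  have h𝔘L : (𝔘 : Filter _) ≤ L := Ultrafilter.of_le L
  have hm1 : 𝔘.map (fun p => p.1) = 𝔄 := map_eq_of_le (h𝔘L.trans (inf_le_left.trans inf_le_left))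
  have hm2 : 𝔘.map (fun p => p.2.1) = 𝔄 := map_eq_of_le (h𝔘L.trans (inf_le_left.trans inf_le_right))
  have hmB : ∀ᶠ p in (𝔘 : Filter _), p ∈ B := le_principal_iff.1 (h𝔘L.trans inf_le_right)
  -- second coupling
  set L2 : Filter (TQ K Q ρ × TQ K Q ρ) := comap Prod.fst 𝔘 ⊓ comap Prod.snd 𝔘 ⊓
    𝓟 {pq | pq.2.1 = pq.1.2.1} with hL2
  have hL2ne : L2.NeBot := by
    rw [hL2, inf_neBot_iff]
    intro s hs t ht
    rw [mem_principal] at ht
    obtain ⟨s1, hs1, s2, hs2, rfl⟩ := mem_inf_iff.1 hs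
    obtain ⟨t1, ht1, hsub1⟩ := hs1
    obtain ⟨t2, ht2, hsub2⟩ := hs2
    have i1 : (fun p : TQ K Q ρ => p.2.1) '' t1 ∈ (𝔄 : Filter _) := by
      rw [← hm2, Ultrafilter.coe_map]
      exact image_mem_map ht1
    have i2 : (fun p : TQ K Q ρ => p.1) '' t2 ∈ (𝔄 : Filter _) := by
      rw [← hm1, Ultrafilter.coe_map]
      exact image_mem_map ht2
    obtain ⟨w, ⟨p, hp, hpw⟩, ⟨q, hq, hqw⟩⟩ := 𝔄.nonempty_of_mem (inter_mem i1 i2)
    refine ⟨(p, q), ⟨hsub1 hp, hsub2 hq⟩, ht ?_⟩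
    show q.1 = p.2.1
    simp only at hpw hqw
    rw [hpw, hqw]
  set 𝔚 := Ultrafilter.of L2 with h𝔚
  have h𝔚L : (𝔚 : Filter _) ≤ L2 := Ultrafilter.of_le L2
  have hw1 : 𝔚.map Prod.fst = 𝔘 := map_eq_of_le (h𝔚L.trans (inf_le_left.trans inf_le_left))
  have hw2 : 𝔚.map Prod.snd = 𝔘 := map_eq_of_le (h𝔚L.trans (inf_le_left.trans inf_le_right))
  have hwe : ∀ᶠ pq in (𝔚 : Filter (TQ K Q ρ × TQ K Q ρ)), pq.2.1 = pq.1.2.1 :=
    le_principal_iff.1 (h𝔚L.trans inf_le_right)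
  -- admissibility
  have hadm : ∀ (a : SQ K Q) (O : CQ K Q), Adm (O.1 ∪ a.1) := fun a O =>
    ns_adm h.cpt h.full (h.union hQ a O)
  have hsubU : ∀ (a : SQ K Q) (O : CQ K Q), ∀ P ∈ O.1 ∪ a.1, P ⊆ Q ∪ K2 := by
    rintro a O P (hP | hP)
    · exact (hctx O P hP).trans subset_union_right
    · exact (a.2.sub P hP).trans subset_union_left
  have hKR : Q ∪ K2 ⊆ closedBall 0 R := union_subset (hQ.trans h.sub) (hK2s.trans h.sub)
  have hVo : IsOpen (Q ∪ K2)ᶜ := (hQc.union hK2).isClosed.isOpen_compl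
  -- limits
  have e1 : Exh (𝔘 : Filter (TQ K Q ρ)) (Q ∪ K2)ᶜ (fun p : TQ K Q ρ => (⋃₀ (p.2.2.1.1 ∪ p.1.1))ᶜ)
      (fun p : TQ K Q ρ => KM (p.2.2.1.1 ∪ p.1.1)) R :=
    exh_of hQc hK2 hf (fun p : TQ K Q ρ => hadm p.1 p.2.2.1) (fun p => hsubU p.1 p.2.2.1) hR hKR
  have e2 : Exh (𝔘 : Filter (TQ K Q ρ)) (Q ∪ K2)ᶜ (fun p : TQ K Q ρ => (⋃₀ (p.2.2.1.1 ∪ p.2.1.1))ᶜ)
      (fun p : TQ K Q ρ => KM (p.2.2.1.1 ∪ p.2.1.1)) R :=
    exh_of hQc hK2 hf (fun p : TQ K Q ρ => hadm p.2.1 p.2.2.1) (fun p => hsubU p.2.1 p.2.2.1) hR hKR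
  obtain ⟨f, hf1⟩ := e1.exists_lim
  obtain ⟨f', hf2⟩ := e2.exists_lim
  -- mixing
  have hX := tlu_comp hw1 hf1
  have hY : TendstoLocallyUniformlyOn (fun i : TQ K Q ρ × TQ K Q ρ => KM (i.2.2.2.1.1 ∪ i.1.2.1.1)) f
      (𝔚 : Filter (TQ K Q ρ × TQ K Q ρ)) (Q ∪ K2)ᶜ := by
    have h1 := tlu_comp hw2 hf1
    intro u hu x hx
    obtain ⟨t, ht, hev⟩ := h1 u hu x hx
    refine ⟨t, ht, ?_⟩
    filter_upwards [hev, hwe] with pq h2 h3 y hy
    have := h2 y hy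
    rw [h3] at this
    exact this
  obtain ⟨R', hmix⟩ := mixing (𝔉 := 𝔚) hQc hK2 hd hQf hf
    (a := fun i => i.1.1.1) (a' := fun i => i.1.2.1.1) (O := fun i => i.1.2.2.1.1)
    (O'' := fun i => i.2.2.2.1.1)
    (fun i => i.1.1.2.sub) (fun i => i.1.2.1.2.sub) (fun i => hctx i.1.2.2.1)
    (fun i => hctx i.2.2.2.1) (fun i => hadm i.1.1 i.1.2.2.1) (fun i => hadm i.1.2.1 i.2.2.2.1)
    (fun i => hadm i.1.2.1 i.1.2.2.1) hX hY
  -- `f = f'`
  have hff : EqOn f f' (Q ∪ K2)ᶜ := by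
    obtain ⟨z₁, hz₁⟩ : ∃ z₁ : ℂ, max R R' < ‖z₁‖ := by
      refine ⟨((|max R R'| + 1 : ℝ) : ℂ), ?_⟩
      rw [Complex.norm_real, Real.norm_of_nonneg (by positivity)]
      linarith [le_abs_self (max R R')]
    rw [max_lt_iff] at hz₁
    have hz₁V : z₁ ∈ (Q ∪ K2)ᶜ := by
      intro hm
      have := hKR hm
      rw [mem_closedBall_zero_iff] at this
      linarith
    refine ((e1.lim_diff hf1).analyticOnNhd hVo).eqOn_of_preconnected_of_eventuallyEq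
      ((e2.lim_diff hf2).analyticOnNhd hVo) e1.conn hz₁V ?_
    filter_upwards [(isOpen_lt continuous_const continuous_norm).mem_nhds hz₁.2,
      hVo.mem_nhds hz₁V] with z hz hzV
    have t1 : Tendsto (fun i : TQ K Q ρ × TQ K Q ρ => KM (i.1.2.2.1.1 ∪ i.1.2.1.1) z) (𝔚 : Filter _) (𝓝 (f' z)) :=
      (tlu_comp hw1 hf2).tendsto_at hzV
    exact tendsto_nhds_unique (hmix z hz) t1
  -- contradiction
  have hsph : sphere (0:ℂ) ρ ⊆ (Q ∪ K2)ᶜ := by
    intro z hz hm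
    have := hKR hm
    rw [mem_closedBall_zero_iff] at this
    rw [mem_sphere_zero_iff_norm] at hz
    have := h.lt
    linarith
  have u1 := Metric.tendstoUniformlyOn_iff.1
    ((tendstoLocallyUniformlyOn_iff_forall_isCompact hVo).1 hf1 _ hsph (isCompact_sphere 0 ρ))
    (ε / 4) (by positivity)
  have u2 := Metric.tendstoUniformlyOn_iff.1
    ((tendstoLocallyUniformlyOn_iff_forall_isCompact hVo).1 hf2 _ hsph (isCompact_sphere 0 ρ))
    (ε / 4) (by positivity)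
  obtain ⟨p, ⟨hp1, hp2⟩, hp3⟩ := ((u1.and u2).and hmB).exists
  have a1 := hp1 p.2.2.2 p.2.2.2.2
  have a2 := hp2 p.2.2.2 p.2.2.2.2
  rw [← hff (hsph p.2.2.2.2)] at a2
  have a3 := dist_triangle_left (KM (p.2.2.1.1 ∪ p.1.1) p.2.2.2) (KM (p.2.2.1.1 ∪ p.2.1.1) p.2.2.2)
    (f p.2.2.2)
  rw [dist_eq_norm (KM (p.2.2.1.1 ∪ p.1.1) p.2.2.2)] at a3
  have a4 : ε / 2 < ‖KM (p.2.2.1.1 ∪ p.1.1) p.2.2.2 - KM (p.2.2.1.1 ∪ p.2.1.1) p.2.2.2‖ := hp3
  linarith

/-- total boundedness at the root -/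
theorem Far.tb_root (h : Far K R ρ) :
    @TotallyBounded (SQ K (lev K 0)) (h.pms subset_rfl).toUniformSpace univ := by
  refine h.tb_of subset_rfl (isCompact_lev h.cpt 0) (full_lev 0) isCompact_empty
    (disjoint_empty _) ?_ (empty_subset _) fun O P hP => ?_
  · rw [union_empty]
    exact full_lev 0
  · exfalso
    obtain ⟨x, hx⟩ := (O.2.1.pc P hP).nontriv.nonempty
    exact disjoint_left.1 (O.2.2 P hP) hx (O.2.1.sub P hP hx)

/-- the maximal nodes of level at most `n` which do not contain `x` -/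
def TT (K : Set ℂ) (n : ℕ) (x : ℂ) : Set (Set ℂ) :=
  {N | ∃ m ≤ n, ∃ y ∈ K, N = nd K m y ∧ nd K m y ≠ nd K m x ∧ ∀ m' < m, nd K m' y = nd K m' x}

lemma TT_fin (hK : IsCompact K) (n : ℕ) (x : ℂ) : (TT K n x).Finite := by
  refine ((Set.finite_Iic n).biUnion fun m _ => finite_nodes hK m).subset ?_
  rintro _ ⟨m, hm, y, hy, rfl, -, -⟩
  exact mem_iUnion₂.2 ⟨m, hm, y, hy, rfl⟩

lemma TT_disj_nd {n : ℕ} {x : ℂ} {N : Set ℂ} (hN : N ∈ TT K n x) : Disjoint N (nd K n x) := by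
  obtain ⟨m, hm, y, hy, rfl, hne, -⟩ := hN
  rw [disjoint_left]
  intro z hz hz'
  exact hne ((nd_eq hz).symm.trans (nd_eq (nd_anti hm hz')))

lemma TT_disj {n : ℕ} {x : ℂ} : ∀ N ∈ TT K n x, ∀ N' ∈ TT K n x, N ≠ N' → Disjoint N N' := by
  rintro _ ⟨m, hm, y, hy, rfl, hne, hlt⟩ _ ⟨m', hm', y', hy', rfl, hne', hlt'⟩ hNN
  rw [disjoint_left]
  intro z hz hz'
  rcases lt_trichotomy m m' with h | h | h
  · have h1 : z ∈ nd K m x := by
      rw [← hlt' m h]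
      exact nd_anti h.le hz'
    exact hne ((nd_eq hz).symm.trans (nd_eq h1))
  · subst h
    exact hNN ((nd_eq hz).symm.trans (nd_eq hz'))
  · have h1 : z ∈ nd K m' x := by
      rw [← hlt m' h]
      exact nd_anti h.le hz
    exact hne' ((nd_eq hz').symm.trans (nd_eq h1))

lemma TT_cover {n : ℕ} {x : ℂ} (hx : x ∈ K) {P : Set ℂ} (hP : Pc K P)
    (hd : Disjoint P (nd K n x)) : P ⊆ ⋃₀ TT K n x := by
  classical
  have key : ∀ y ∈ K, y ∈ P → (∀ m, P ⊆ nd K m y ∨ x ∈ P ∨ nd K m y ≠ nd K m x) →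
      (∀ m, nd K m y ≠ nd K m x → (∀ m' < m, nd K m' y = nd K m' x) → P ⊆ nd K m y) →
      P ⊆ ⋃₀ TT K n x := by
    intro y hy hyP _ h2
    have hex : ∃ m, m ≤ n ∧ nd K m y ≠ nd K m x := by
      refine ⟨n, le_rfl, fun h => ?_⟩
      have h3 := mem_nd hy n
      rw [h] at h3
      exact disjoint_left.1 hd hyP h3
    set m := Nat.find hex with hm
    obtain ⟨h3, h4⟩ := Nat.find_spec hex
    have h5 : ∀ m' < m, nd K m' y = nd K m' x := by
      intro m' hm'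
      have h6 := Nat.find_min hex hm'
      by_contra h7
      exact h6 ⟨hm'.le.trans h3, h7⟩
    exact (h2 m h4 h5).trans (subset_sUnion_of_mem ⟨m, h3, y, hy, rfl, h4, h5⟩)
  rcases hP with ⟨⟨y, hy, rfl⟩, hnt⟩ | ⟨k, y, hy, rfl⟩
  · refine key y hy (mem_connectedComponentIn hy) (fun m => Or.inl ?_) fun m _ _ => ?_
    · exact (isPreconnected_connectedComponentIn.subset_connectedComponentIn
        (mem_connectedComponentIn hy) ((connectedComponentIn_subset _ _).trans (subset_lev m)))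
    · exact (isPreconnected_connectedComponentIn.subset_connectedComponentIn
        (mem_connectedComponentIn hy) ((connectedComponentIn_subset _ _).trans (subset_lev m)))
  · refine key y hy (mem_nd hy k) (fun m => ?_) fun m h1 h2 => ?_
    · by_cases h : m ≤ k
      · exact Or.inl (nd_anti h)
      · by_cases h3 : nd K m y = nd K m x
        · right; left
          have h4 : x ∈ nd K m y := by
            rw [h3]
            exact mem_nd hx m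
          exact nd_anti (not_le.1 h).le h4
        · exact Or.inr (Or.inr h3)
    · by_cases h : m ≤ k
      · exact nd_anti h
      · exfalso
        have h3 := h2 k (not_le.1 h)
        refine disjoint_left.1 hd ?_ (mem_nd hx n)
        rw [h3]
        exact mem_nd hx k

/-- total boundedness at a node -/
theorem Far.tb_nd (h : Far K R ρ) (n : ℕ) {x : ℂ} (hx : x ∈ K) :
    @TotallyBounded (SQ K (nd K n x)) (h.pms (nd_sub_lev0 n x)).toUniformSpace univ := by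
  have hK := h.cpt
  have hcpt : IsCompact (⋃₀ TT K n x) := by
    refine (TT_fin hK n x).isCompact_sUnion ?_
    rintro _ ⟨m, _, y, _, rfl, -, -⟩
    exact isCompact_nd hK m y
  have hd : Disjoint (nd K n x) (⋃₀ TT K n x) := by
    rw [disjoint_sUnion_right]
    exact fun N hN => (TT_disj_nd hN).symm
  have hfull : Full (⋃₀ TT K n x) := by
    refine full_nodes hK h.full (TT_fin hK n x) ?_ TT_disj
    rintro _ ⟨m, _, y, hy, rfl, -, -⟩
    exact Or.inr ⟨m, y, hy, rfl⟩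
  refine h.tb_of (nd_sub_lev0 n x) (isCompact_nd hK n x) (full_nd hK n x) hcpt hd
    (full_union (isCompact_nd hK n x) hcpt (full_nd hK n x) hfull hd) ?_ fun O P hP => ?_
  · refine sUnion_subset ?_
    rintro _ ⟨m, _, y, _, rfl, -, -⟩
    exact nd_sub_lev0 m y
  · exact TT_cover hx (O.2.1.pc P hP) (O.2.2 P hP)

end Vale.Agent.P116.Slow
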