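import Mathlib
import Vale.Agent.P116.Slow.Tree
import Vale.Agent.P116.Slow.Seq
import Vale.Agent.P116.Slow.PBX
import Vale.Agent.P116.Slow.WS

/-!
# The simultaneous slow state

The abstract theorem on slow sequences applied to the tree of nodes.
-/

open Set Filter Topology Metric Bornology

namespace Vale.Agent.P116.Slow

open H906 PBC

variable {K : Set ℂ} {R ρ : ℝ}

/-- the space of structures inside a tree node, with the metric -/
def XQ (_h : Far K R ρ) (q : Tn K) : Type := SQ K q.st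

noncomputable instance instXQ (h : Far K R ρ) (q : Tn K) : PseudoMetricSpace (XQ h q) :=
  h.pms (nods_sub q.mem)

lemma dist_XQ (h : Far K R ρ) (q : Tn K) (a a' : XQ h q) : dist a a' = dQ K q.st ρ a a' := rfl

lemma reach_rt (hK : IsCompact K) (q : Tn K) :
    Relation.ReflTransGen (fun r q : Tn K => r ∈ cht hK q) q (rt K) := by
  have key : ∀ {x : ℂ} (hx : x ∈ K) (n : ℕ),
      Relation.ReflTransGen (fun r q : Tn K => r ∈ cht hK q) (br hx n) (rt K) := by
    intro x hx n
    induction n with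
    | zero => exact Relation.ReflTransGen.refl
    | succ n ih => exact Relation.ReflTransGen.head ((mem_cht hK).2 (br_succ_mem hx n)) ih
  obtain ⟨⟨n, Q⟩, hq⟩ := q
  cases n with
  | zero =>
    have hQ : Q = lev K 0 := hq
    subst hQ
    exact Relation.ReflTransGen.refl
  | succ n =>
    obtain ⟨x, hx, hxQ⟩ := hq
    have hQ : nd K n x = Q := hxQ
    subst hQ
    exact key hx (n + 1)

/-- the system of the structures of `K` -/
noncomputable def sysK (h : Far K R ρ) (hne : K.Nonempty) : Sys (Tn K) (XQ h) where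
  lv := Tn.lv
  ch := cht h.cpt
  root := rt K
  lv_root := rfl
  lv_ch q r hr := ((mem_cht h.cpt).1 hr).1
  uniq q q' r hr hr' := chs_parent hne ((mem_cht h.cpt).1 hr) ((mem_cht h.cpt).1 hr')
  reach := reach_rt h.cpt
  join := join h.cpt
  congr q a a' haa := by
    apply Subtype.ext
    change jn q a = jn q a'
    unfold jn
    refine iUnion₂_congr fun r hr => ?_
    rw [haa r ((mem_cht h.cpt).2 hr)]
  lip q a a' := h.dQ_join q a a'
  o := on

/-- parameters: depth and a finite set of components to cover -/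
abbrev Pr (K : Set ℂ) : Type := ℕ × {T : Finset (Set ℂ) // ∀ q ∈ T, q ∈ comps K ∧ q.Nontrivial}

lemma directed_Pr (K : Set ℂ) : IsDirected (Pr K) (· ≤ ·) := by
  classical
  refine ⟨fun t t' => ⟨(max t.1 t'.1, ⟨t.2.1 ∪ t'.2.1, fun q hq => ?_⟩), ⟨le_max_left _ _, ?_⟩,
    ⟨le_max_right _ _, ?_⟩⟩⟩
  · rcases Finset.mem_union.1 hq with h | h
    · exact t.2.2 q h
    · exact t'.2.2 q h
  · exact Finset.subset_union_left
  · exact Finset.subset_union_right

lemma nonempty_Pr (K : Set ℂ) : Nonempty (Pr K) := ⟨(0, ⟨∅, by simp⟩)⟩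

/-- unfolding a structure which is coherent above level `k` -/
lemma mem_of_coh (hK : IsCompact K) {k : ℕ} {c : ∀ q : Tn K, SN q}
    (hc : ∀ q : Tn K, q.lv < k → c q = join hK q c) {A : Set ℂ} :
    ∀ j : ℕ, ∀ q : Tn K, q.lv + j = k →
      (A ∈ (c q).1 ↔ ∃ r : Tn K, r.lv = k ∧ r.st ⊆ q.st ∧ A ∈ (c r).1) := by
  intro j
  induction j with
  | zero =>
    intro q hq
    constructor
    · intro hA
      exact ⟨q, by simpa using hq, Subset.rfl, hA⟩
    · rintro ⟨r, hr, hrq, hA⟩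
      have h1 := r.mem
      have hrl : r.lv = q.lv := by omega
      rw [hrl] at h1
      obtain ⟨z, hz⟩ : A.Nonempty := ((c r).2.pc A hA).nontriv.nonempty
      have hzr := (c r).2.sub A hA hz
      have : r = q := Tn.ext' hrl (nods_disj h1 q.mem ⟨z, hzr, hrq hzr⟩)
      rwa [this] at hA
  | succ j ih =>
    intro q hq
    have hlt : q.lv < k := by omega
    rw [hc q hlt]
    change A ∈ jn q c ↔ _
    rw [mem_jn]
    constructor
    · rintro ⟨r, hr, hA⟩
      obtain ⟨r', hr', hr'r, hA'⟩ := (ih r (by rw [hr.1]; omega)).1 hA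
      exact ⟨r', hr', hr'r.trans hr.2, hA'⟩
    · rintro ⟨r, hr, hrq, hA⟩
      have hpc := (c r).2.pc A hA
      have hAr := (c r).2.sub A hA
      -- the child of `q` containing `r`
      obtain ⟨z, hz⟩ : A.Nonempty := hpc.nontriv.nonempty
      obtain ⟨⟨n, Q⟩, hQ⟩ := r
      cases n with
      | zero =>
        exfalso
        have : (0:ℕ) = k := hr
        omega
      | succ n =>
        obtain ⟨x, hx, hxQ⟩ := hQ
        have hQ' : nd K n x = Q := hxQ
        subst hQ'
        have hn : n + 1 = k := hr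
        have hxq : x ∈ q.st := hrq (mem_nd hx n)
        refine ⟨nt q.lv hx, ⟨rfl, ?_⟩, ?_⟩
        · -- `nd K q.lv x ⊆ q.st`
          obtain ⟨⟨m, Q'⟩, hQ'⟩ := q
          cases m with
          | zero =>
            have : Q' = lev K 0 := hQ'
            subst this
            exact nd_sub_lev0 0 x
          | succ m =>
            obtain ⟨y, hy, hyQ⟩ := hQ'
            have hQ'' : nd K m y = Q' := hyQ
            subst hQ''
            have h1 : x ∈ nd K m y := hxq
            change nd K (m + 1) x ⊆ nd K m y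
            rw [← nd_eq h1]
            exact nd_anti (Nat.le_succ m)
        · refine (ih (nt q.lv hx) (by rw [nt_lv]; omega)).2 ⟨_, hr, ?_, hA⟩
          change nd K n x ⊆ nd K q.lv x
          exact nd_anti (by omega)

/-- weakly slow points -/
def WSl (K : Set ℂ) (ρ : ℝ) (𝔊 : Filter Str) (x : ℂ) : Prop :=
  ∀ ε > 0, ∀ k₀, ∃ k ≥ k₀, ∀ᶠ S : Str in 𝔊, ∀ z ∈ sphere (0:ℂ) ρ,
    ‖kF fk S z - KM (mrg (nd K k x) S.1) z‖ ≤ ε

/-- the merged state, as a family -/
lemma mg_eq (h : Far K R ρ) (hne : K.Nonempty) {x : ℂ} (hx : x ∈ K) (m : ℕ)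
    {a : ∀ q : Tn K, XQ h q} (ha : ∀ q : Tn K, q.lv < m + 1 → a q = (sysK h hne).join q a) :
    ((sysK h hne).mg (br hx) (m + 1) a (rt K)).1 = mrg (nd K m x) (a (rt K)).1 := by
  classical
  set s := sysK h hne with hs
  set c := s.mg (br hx) (m + 1) a with hc
  have hc1 : ∀ q : Tn K, q.lv < m + 1 → c q = join h.cpt q c := by
    intro q hq
    exact s.mg_lt a hq
  have hc2 : ∀ q : Tn K, q.lv = m + 1 →
      c q = Function.update a (br hx (m + 1)) (s.o (br hx (m + 1))) q := by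
    intro q hq
    exact s.Rc_ge _ (by change m + 1 ≤ q.lv; omega)
  ext A
  rw [mem_of_coh h.cpt hc1 (m + 1) (rt K) (by simp)]
  rw [mrg, mem_insert_iff, mem_ofPred_eq, mem_of_coh h.cpt ha (m + 1) (rt K) (by simp)]
  constructor
  · rintro ⟨r, hr, -, hA⟩
    rw [hc2 r hr] at hA
    by_cases hrb : r = br hx (m + 1)
    · subst hrb
      rw [Function.update_self] at hA
      left
      have hA' : A ∈ (on (nt m hx)).1 := hA
      rw [on_nt] at hA'
      exact hA'
    · rw [Function.update_of_ne hrb] at hA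
      refine Or.inr ⟨⟨r, hr, nods_sub r.mem, hA⟩, ?_⟩
      rw [disjoint_left]
      intro z hz hz'
      have h1 := r.mem
      rw [hr] at h1
      exact hrb (Tn.ext' (by rw [hr, br_lv]) (nods_disj h1 (br hx (m + 1)).mem
        ⟨z, (a r).2.sub A hA hz, hz'⟩))
  · rintro (rfl | ⟨⟨r, hr, -, hA⟩, hd⟩)
    · refine ⟨br hx (m + 1), br_lv hx _, nods_sub (br hx (m + 1)).mem, ?_⟩
      rw [hc2 _ (br_lv hx _), Function.update_self]
      change nd K m x ∈ (on (nt m hx)).1
      rw [on_nt]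
      exact rfl
    · have hrb : r ≠ br hx (m + 1) := by
        rintro rfl
        obtain ⟨z, hz⟩ : A.Nonempty := ((a _).2.pc A hA).nontriv.nonempty
        exact disjoint_left.1 hd hz ((a _).2.sub A hA hz)
      refine ⟨r, hr, nods_sub r.mem, ?_⟩
      rw [hc2 r hr, Function.update_of_ne hrb]
      exact hA

/-- **the simultaneous slow state** -/
theorem exists_state (h : Far K R ρ) (hne : K.Nonempty)
    (hTB : ∀ q : Tn K, TotallyBounded (univ : Set (XQ h q))) {PP : Set (Set ℂ)}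
    (hPP : PP ⊆ comps K) (hPc : PP.Countable) :
    ∃ 𝔊 : Ultrafilter Str, Fine K (𝔊 : Filter Str) ∧
      (∀ᶠ S : Str in (𝔊 : Filter Str), NS K (lev K 0) S.1) ∧
      (∀ p ∈ PP, ∀ x ∈ p, WSl K ρ (𝔊 : Filter Str) x) ∧
      (∀ δ > 0, ∀ᶠ S : Str in (𝔊 : Filter Str), Exc K δ S.1) ∧
      (∀ p ∈ comps K, p.Nontrivial → ∀ᶠ S : Str in (𝔊 : Filter Str), ∃ A ∈ S.1, p ⊆ A) := by
  classical
  obtain ⟨idx, hidx⟩ := Set.countable_iff_exists_injOn.1 hPc
  set s := sysK h hne with hs
  have hdir := directed_Pr K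
  have hnon := nonempty_Pr K
  set P : Set (ℕ → Tn K) := {b | ∃ p ∈ PP, ∃ x, ∃ hx : x ∈ K, x ∈ p ∧ b = br hx} with hP
  have hbr : ∀ p ∈ PP, ∀ x (hx : x ∈ K), x ∈ p → ∀ y (hy : y ∈ K), y ∈ p → br hx = br hy := by
    intro p hp x hx hxp y hy hyp
    funext n
    cases n with
    | zero => rfl
    | succ n =>
      refine Tn.ext' rfl ?_
      change nd K n x = nd K n y
      exact nd_eq (comp_subset_nd (hPP hp) hyp n hxp)
  have hPcount : P.Countable := by
    choose! y hy using fun p (hp : p ∈ PP) => comps_nonempty (hPP hp)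
    refine (hPc.image fun p => if hp : y p ∈ K then br hp else fun _ => rt K).mono ?_
    rintro b ⟨p, hp, x, hx, hxp, rfl⟩
    have hyK : y p ∈ K := comps_subset (hPP hp) (hy p hp)
    refine ⟨p, hp, ?_⟩
    simp only [hyK, dif_pos]
    exact hbr p hp _ _ (hy p hp) _ _ hxp
  have hPBr : ∀ b ∈ P, s.Br b := by
    rintro b ⟨p, hp, x, hx, hxp, rfl⟩
    exact ⟨rfl, fun k => (mem_cht h.cpt).2 (br_succ_mem hx k)⟩
  obtain ⟨𝓕, a, hE, hcoh, hslow⟩ := s.exists_slow_seq (Par := Pr K) hTB hPcount hPBr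
    (E := fun (t : Pr K) q => {b : XQ h q | ES K PP idx (lr t.1) (↑t.2.1) q.st b.1})
    (fun t q => ⟨⟨_, (es_nonempty (PP := PP) (idx := idx) (δ := lr t.1) t.2.1.finite_toSet
      (fun q hq => t.2.2 q hq) q.st).ns⟩,
      es_nonempty t.2.1.finite_toSet (fun q hq => t.2.2 q hq) q.st⟩)
    (fun t t' htt q b hb => by
      have htt' : t.1 ≤ t'.1 ∧ t.2 ≤ t'.2 := htt
      exact ES.mono hb (lr_anti htt'.1) (Finset.coe_subset.2 htt'.2))
    (fun t q b hb => es_join h.cpt (fun p hp => (t.2.2 p hp).1) q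
      fun r hr => hb r ((mem_cht h.cpt).2 hr))
    (by
      rintro t b ⟨p, hp, x, hx, hxp, rfl⟩
      exact es_on h.cpt h.full hPP hp hxp hx (lr_pos t.1))
  set Φ : Pr K × ℕ × Finset (Tn K) → Str := fun i =>
    ⟨(a i (rt K)).1, ns_adm h.cpt h.full (a i (rt K)).2⟩ with hΦ
  have hev : ∀ {p : Str → Prop}, (∀ᶠ i in (𝓕 : Filter _), p (Φ i)) →
      ∀ᶠ S in ((𝓕.map Φ : Ultrafilter Str) : Filter Str), p S := by
    intro p hp
    rw [Ultrafilter.coe_map, eventually_map]
    exact hp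
  refine ⟨𝓕.map Φ, ?_, ?_, ?_, ?_, ?_⟩
  · intro n
    refine hev ?_
    filter_upwards [hE (n, ⟨∅, by simp⟩) (rt K)] with i hi A hA
    exact ((hi : ES K PP idx (lr n) _ _ _).sm A hA).subset_lev hPP (lr_pos n).le le_rfl
  · exact hev (Eventually.of_forall fun i => (a i (rt K)).2)
  · intro p hp x hxp ε hε k₀
    have hx : x ∈ K := comps_subset (hPP hp) hxp
    obtain ⟨k, hk, hk'⟩ := hslow (br hx) ⟨p, hp, x, hx, hxp, rfl⟩ ε hε (k₀ + 1)
    obtain ⟨m, rfl⟩ : ∃ m, k = m + 1 := ⟨k - 1, by omega⟩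
    refine ⟨m, by omega, hev ?_⟩
    filter_upwards [hk', hcoh (m + 1)] with i hi hci z hz
    have h1 := mg_eq h hne hx m (a := a i) (fun q hq => hci q hq)
    have h2 := h.le_dQ (Q := lev K 0) Subset.rfl (a i (rt K)) (s.mg (br hx) (m + 1) (a i) (rt K))
      ⟨∅, ns_empty, fun _ hP => hP.elim⟩ ⟨z, hz⟩
    have h3 : dQ K (lev K 0) ρ (a i (rt K)) (s.mg (br hx) (m + 1) (a i) (rt K)) < ε := hi
    rw [← KM_eq (Φ i)]
    change ‖KM (a i (rt K)).1 z - KM (mrg (nd K m x) (a i (rt K)).1) z‖ ≤ ε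
    rw [← h1]
    simp only [empty_union] at h2
    exact h2.trans h3.le
  · intro δ hδ
    obtain ⟨n, hn⟩ : ∃ n, 2 * lr n ≤ δ := by
      obtain ⟨n, hn⟩ := exists_nat_one_div_lt (half_pos hδ)
      exact ⟨n, by unfold lr; linarith⟩
    refine hev ?_
    filter_upwards [hE (n, ⟨∅, by simp⟩) (rt K)] with i hi
    obtain ⟨p, e, h1, h2, h3⟩ := (hi : ES K PP idx (lr n) _ _ _).excess hPP hidx (lr_pos n).le
    exact ⟨p, e, fun A hA => ⟨(h1 A hA).1, (h1 A hA).2.1, (h1 A hA).2.2.1, (h1 A hA).2.2.2.1⟩, h2,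
      fun F hF => (h3 F hF).trans hn⟩
  · intro p hp hpn
    refine hev ?_
    filter_upwards [hE (0, ⟨{p}, by
      intro q hq
      rw [Finset.mem_singleton] at hq
      subst hq
      exact ⟨hp, hpn⟩⟩) (rt K)] with i hi
    refine (hi : ES K PP idx (lr 0) _ _ _).cov p (by simp) ?_
    exact (comps_subset hp).trans (H906.subset_lev 0)

end Vale.Agent.P116.Slow
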