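import Mathlib
import Vale.Agent.P116.Slow.Inst

/-!
# Weakly slow points form a residual set

The weakly slow points of a state are a `G_δ` set; it is residual if it contains a dense set.
-/

open Set Filter Topology Metric Bornology

namespace Vale.Agent.P116.Slow

open H906 PBC

variable {K : Set ℂ} {R ρ : ℝ}

/-- some node of level at least `k₀` around `x` is `ε`-negligible -/
def WSt (K : Set ℂ) (ρ : ℝ) (𝔊 : Filter Str) (ε : ℝ) (k₀ : ℕ) (x : ℂ) : Prop :=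
  ∃ k ≥ k₀, ∀ᶠ S : Str in 𝔊, ∀ z ∈ sphere (0:ℂ) ρ,
    ‖kF fk S z - KM (mrg (nd K k x) S.1) z‖ ≤ ε

variable {𝔊 : Filter Str} {ε : ℝ} {k₀ : ℕ}

lemma WSt.mono {ε' : ℝ} {x : ℂ} (h : WSt K ρ 𝔊 ε k₀ x) (hε : ε ≤ ε') : WSt K ρ 𝔊 ε' k₀ x := by
  obtain ⟨k, hk, h⟩ := h
  refine ⟨k, hk, ?_⟩
  filter_upwards [h] with S hS z hz
  exact (hS z hz).trans hε

lemma wsl_iff {x : ℂ} : WSl K ρ 𝔊 x ↔ ∀ jk : ℕ × ℕ, WSt K ρ 𝔊 (lr jk.1) jk.2 x := by
  constructor
  · intro h jk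
    exact h _ (lr_pos jk.1) jk.2
  · intro h ε hε k₀
    obtain ⟨n, hn⟩ := exists_nat_one_div_lt hε
    exact (h (n, k₀)).mono hn.le

/-- the condition depends only on the nodes -/
lemma WSt.congr {x y : ℂ} (hxy : ∀ k, nd K k y = nd K k x) (h : WSt K ρ 𝔊 ε k₀ x) :
    WSt K ρ 𝔊 ε k₀ y := by
  obtain ⟨k, hk, h⟩ := h
  refine ⟨k, hk, ?_⟩
  rwa [hxy k]

lemma isOpen_WSt : IsOpen {x : K | WSt K ρ 𝔊 ε k₀ x} := by
  rw [isOpen_iff_forall_mem_open]
  rintro ⟨x, hx⟩ ⟨k, hk, h⟩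
  refine ⟨{y : K | (y : ℂ) ∈ ball x (lr k)}, ?_, isOpen_ball.preimage continuous_subtype_val,
    mem_ball_self (lr_pos k)⟩
  rintro ⟨y, hy⟩ hyx
  have h1 : y ∈ nd K k x := closedBall_subset_nd hx (mem_nd hx k) (ball_subset_closedBall hyx)
  refine ⟨k, hk, ?_⟩
  rwa [nd_eq h1]

lemma nd_eq_of_mk {x y : K} (h : (ConnectedComponents.mk x) = ConnectedComponents.mk y) (k : ℕ) :
    nd K k y = nd K k x := by
  have h1 : x ∈ connectedComponent y := ConnectedComponents.coe_eq_coe'.1 h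
  have h2 : (x : ℂ) ∈ connectedComponentIn K y := by
    rw [connectedComponentIn_eq_image y.2]
    exact ⟨x, h1, rfl⟩
  refine (nd_eq (connectedComponentIn_mono _ (H906.subset_lev k) h2)).symm

/-- the test on components -/
lemma isOpen_WSt_cc :
    IsOpen {c : ConnectedComponents K | ∀ x : K, ConnectedComponents.mk x = c → WSt K ρ 𝔊 ε k₀ x} := by
  rw [← ConnectedComponents.isQuotientMap_coe.isOpen_preimage]
  convert isOpen_WSt (K := K) (ρ := ρ) (𝔊 := 𝔊) (ε := ε) (k₀ := k₀) using 1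
  ext x
  constructor
  · intro h
    exact h x rfl
  · intro h y hy
    exact WSt.congr (nd_eq_of_mk hy.symm) h

theorem residual_WSl {D : Set K} (hD : Dense D) (h : ∀ x ∈ D, WSl K ρ 𝔊 (x : ℂ)) :
    {x : K | WSl K ρ 𝔊 x} ∈ residual K ∧
    {c : ConnectedComponents K | ∀ x : K, ConnectedComponents.mk x = c → WSl K ρ 𝔊 x} ∈
      residual (ConnectedComponents K) := by
  constructor
  · have h1 : {x : K | WSl K ρ 𝔊 x} = ⋂ jk : ℕ × ℕ, {x : K | WSt K ρ 𝔊 (lr jk.1) jk.2 x} := by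
      ext x
      rw [mem_iInter]
      exact wsl_iff
    rw [h1]
    refine countable_iInter_mem.2 fun jk => residual_of_dense_open isOpen_WSt (hD.mono ?_)
    intro x hx
    exact wsl_iff.1 (h x hx) jk
  · have h1 : {c : ConnectedComponents K | ∀ x : K, ConnectedComponents.mk x = c →
        WSl K ρ 𝔊 x} = ⋂ jk : ℕ × ℕ, {c : ConnectedComponents K | ∀ x : K,
          ConnectedComponents.mk x = c → WSt K ρ 𝔊 (lr jk.1) jk.2 x} := by
      ext c
      rw [mem_iInter]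
      constructor
      · intro hc jk x hx
        exact wsl_iff.1 (hc x hx) jk
      · intro hc x hx
        exact wsl_iff.2 fun jk => hc jk x hx
    rw [h1]
    refine countable_iInter_mem.2 fun jk => residual_of_dense_open isOpen_WSt_cc ?_
    refine Dense.mono ?_ (ConnectedComponents.surjective_coe.denseRange.dense_image
      ConnectedComponents.continuous_coe hD)
    rintro _ ⟨x, hx, rfl⟩ y hy
    exact WSt.congr (nd_eq_of_mk hy.symm) (wsl_iff.1 (h x hx) jk)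

/-- a countable set of components can be enlarged to meet a dense set -/
theorem exists_dense_comps {P₀ : Set (Set ℂ)} (hP₀ : P₀ ⊆ comps K) (hc : P₀.Countable) :
    ∃ PP : Set (Set ℂ), P₀ ⊆ PP ∧ PP ⊆ comps K ∧ PP.Countable ∧
      Dense {x : K | connectedComponentIn K (x : ℂ) ∈ PP} := by
  obtain ⟨D, hDc, hD⟩ := TopologicalSpace.exists_countable_dense K
  refine ⟨P₀ ∪ (fun x : K => connectedComponentIn K (x : ℂ)) '' D, subset_union_left, ?_,
    hc.union (hDc.image _), hD.mono fun x hx => Or.inr ⟨x, hx, rfl⟩⟩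
  rintro p (hp | ⟨x, -, rfl⟩)
  · exact hP₀ hp
  · exact ⟨x, x.2, rfl⟩

/-- total boundedness of all spaces of structures -/
def TBd (h : Far K R ρ) : Prop := ∀ q : Tn K, TotallyBounded (univ : Set (XQ h q))

/-- **the state**, all properties -/
theorem exists_full_state (h : Far K R ρ) (hne : K.Nonempty) (hTB : TBd h)
    {P₀ : Set (Set ℂ)} (hP₀ : P₀ ⊆ comps K) (hc : P₀.Countable) :
    ∃ (𝔊 : Ultrafilter Str) (g : ℂ → ℂ), Fine K (𝔊 : Filter Str) ∧
      TendstoLocallyUniformlyOn (kF fk) g (𝔊 : Filter Str) Kᶜ ∧ NU Kᶜ g ∧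
      (∀ᶠ S : Str in (𝔊 : Filter Str), NS K (lev K 0) S.1) ∧
      (∀ δ > 0, ∀ᶠ S : Str in (𝔊 : Filter Str), Exc K δ S.1) ∧
      (∀ p ∈ comps K, p.Nontrivial → ∀ᶠ S : Str in (𝔊 : Filter Str), ∃ A ∈ S.1, p ⊆ A) ∧
      (∀ p ∈ P₀, ∀ x ∈ p, GoodAt fk K (𝔊 : Filter Str) x) ∧
      (∀ x ∈ K, (∀ y ∈ connectedComponentIn K x, PB K y) → GoodAt fk K (𝔊 : Filter Str) x) ∧
      {x : K | GoodAt fk K (𝔊 : Filter Str) x} ∈ residual K ∧
      {c : ConnectedComponents K | ∀ x : K, ConnectedComponents.mk x = c →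
        GoodAt fk K (𝔊 : Filter Str) x} ∈ residual (ConnectedComponents K) := by
  obtain ⟨PP, h1, h2, h3, h4⟩ := exists_dense_comps hP₀ hc
  obtain ⟨𝔊, hF, hNS, hsl, hexc, hcov⟩ := exists_state h hne hTB h2 h3
  have hexh := hF.exh (h := fk) h.cpt h.full h.rpos h.sub
  obtain ⟨g, hg⟩ := hexh.exists_lim
  have hρK : sphere (0:ℂ) ρ ⊆ Kᶜ := by
    intro z hz hzK
    have h5 := h.sub (H906.subset_lev 0 hzK)
    rw [mem_closedBall, dist_zero_right] at h5
    rw [mem_sphere, dist_zero_right] at hz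
    linarith [h.lt, h.rpos]
  have hws : ∀ x ∈ K, WSl K ρ (𝔊 : Filter Str) x → GoodAt fk K (𝔊 : Filter Str) x :=
    fun x hx hs => ws h.cpt h.full hx hF hNS h.pos hρK hs hg
  obtain ⟨h6, h7⟩ := residual_WSl h4 (fun x hx => hsl _ hx _ (mem_connectedComponentIn x.2))
  refine ⟨𝔊, g, hF, hg, hexh.lim_nu hg, hNS, hexc, hcov, fun p hp x hx =>
    hws x (comps_subset (hP₀ hp) hx) (hsl p (h1 hp) x hx), fun x hx hPB => ?_, ?_, ?_⟩
  · exact good_of_PBX h.cpt h.full hF hg hx hPB hexc fun hn => hcov _ ⟨x, hx, rfl⟩ hn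
  · exact mem_of_superset h6 fun x hx => hws x x.2 hx
  · exact mem_of_superset h7 fun c hc x hx => hws x x.2 (hc x hx)

end Vale.Agent.P116.Slow
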