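import Mathlib
import Vale.Agent.P116.Slow.Gd
import Vale.Agent.P116.Slow.TB

/-!
# Total boundedness for the tree of nodes
-/

open Set Filter Topology Metric Bornology

namespace Vale.Agent.P116.Slow

open H906 PBC

variable {K : Set ℂ} {R ρ : ℝ}

/-- total boundedness of all the spaces of structures -/
theorem tbd (h : Far K R ρ) : TBd h := by
  rintro ⟨⟨n, Q⟩, hq⟩
  cases n with
  | zero =>
    have hQ : Q = lev K 0 := hq
    subst hQ
    exact h.tb_root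
  | succ n =>
    obtain ⟨x, hx, hxQ⟩ := hq
    have hQ : nd K n x = Q := hxQ
    subst hQ
    exact h.tb_nd n hx

/-- **existence of a slow state** -/
theorem exists_full_state' (h : Far K R ρ) (hne : K.Nonempty) {P₀ : Set (Set ℂ)}
    (hP₀ : P₀ ⊆ comps K) (hc : P₀.Countable) : ∃ (𝔊 : Ultrafilter Str) (g : ℂ → ℂ),
      Fine K (𝔊 : Filter Str) ∧ TendstoLocallyUniformlyOn (kF fk) g (𝔊 : Filter Str) Kᶜ ∧
      NU Kᶜ g ∧ (∀ᶠ S in (𝔊 : Filter Str), NS K (lev K 0) S.1) ∧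
      (∀ δ > 0, ∀ᶠ S in (𝔊 : Filter Str), Exc K δ S.1) ∧
      (∀ p ∈ comps K, p.Nontrivial → ∀ᶠ S in (𝔊 : Filter Str), ∃ A ∈ S.1, p ⊆ A) ∧
      (∀ p ∈ P₀, ∀ x ∈ p, GoodAt fk K (𝔊 : Filter Str) x) ∧
      (∀ x ∈ K, (∀ y ∈ connectedComponentIn K x, PB K y) → GoodAt fk K (𝔊 : Filter Str) x) ∧
      {x : K | GoodAt fk K (𝔊 : Filter Str) x} ∈ residual K ∧
      {c : ConnectedComponents K | ∀ x : K, ConnectedComponents.mk x = c →
        GoodAt fk K (𝔊 : Filter Str) x} ∈ residual (ConnectedComponents K) :=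
  exists_full_state h hne (tbd h) hP₀ hc

end Vale.Agent.P116.Slow
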