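import Mathlib
import Vale.Agent.P116.Slow.TPX

/-!
The packing condition implies transboundary parabolicity.
-/

open Set Filter Topology Metric Bornology MeasureTheory
open scoped Real

namespace Vale.Agent.P116.Slow

open H906

/-- the profile -/
noncomputable def u₀ (z : ℂ) : ℝ := Real.smoothTransition ((4 - ‖z‖ ^ 2) / 3)

lemma u₀_contDiff : ContDiff ℝ 1 u₀ := by
  unfold u₀
  refine (Real.smoothTransition.contDiff (n := 1)).comp ?_
  exact ((contDiff_const).sub (contDiff_norm_sq ℝ)).div_const 3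

lemma u₀_one {z : ℂ} (hz : ‖z‖ ≤ 1) : u₀ z = 1 := by
  refine Real.smoothTransition.one_of_one_le ?_
  have := norm_nonneg z
  rw [le_div_iff₀ (by norm_num)]
  nlinarith

lemma u₀_zero {z : ℂ} (hz : 2 ≤ ‖z‖) : u₀ z = 0 := by
  refine Real.smoothTransition.zero_of_nonpos ?_
  rw [div_nonpos_iff]
  right
  constructor
  · nlinarith
  · norm_num

lemma u₀_le (z : ℂ) : u₀ z ≤ 1 := Real.smoothTransition.le_one _

lemma u₀_nonneg (z : ℂ) : 0 ≤ u₀ z := Real.smoothTransition.nonneg _

lemma u₀_norm {z w : ℂ} (h : ‖z‖ = ‖w‖) : u₀ z = u₀ w := by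
  unfold u₀
  rw [h]

lemma exists_lip : ∃ L : NNReal, LipschitzWith L u₀ := by
  refine ContDiff.lipschitzWith_of_hasCompactSupport ?_ u₀_contDiff (by norm_num)
  refine HasCompactSupport.intro (isCompact_closedBall 0 2) fun z hz => u₀_zero ?_
  rw [mem_closedBall, dist_zero_right, not_le] at hz
  exact hz.le

/-- the cut-off function of the annulus `ann y r` -/
noncomputable def cu (y : ℂ) (r : ℝ) (z : ℂ) : ℝ := u₀ ((r⁻¹ : ℝ) • (z - y))

lemma cu_contDiff (y : ℂ) (r : ℝ) : ContDiff ℝ 1 (cu y r) := by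
  unfold cu
  exact u₀_contDiff.comp ((contDiff_id.sub contDiff_const).const_smul _)

lemma norm_smul_sub {y z : ℂ} {r : ℝ} (hr : 0 < r) : ‖(r⁻¹ : ℝ) • (z - y)‖ = dist z y / r := by
  rw [norm_smul, Real.norm_of_nonneg (by positivity), dist_eq_norm]
  ring

lemma cu_one {y z : ℂ} {r : ℝ} (hr : 0 < r) (hz : dist z y ≤ r) : cu y r z = 1 := by
  refine u₀_one ?_
  rw [norm_smul_sub hr]
  exact div_le_one_of_le₀ hz hr.le

lemma cu_zero {y z : ℂ} {r : ℝ} (hr : 0 < r) (hz : 2 * r ≤ dist z y) : cu y r z = 0 := by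
  refine u₀_zero ?_
  rw [norm_smul_sub hr, le_div_iff₀ hr]
  exact hz

lemma cu_le (y : ℂ) (r : ℝ) (z : ℂ) : cu y r z ≤ 1 := u₀_le _

lemma cu_nonneg (y : ℂ) (r : ℝ) (z : ℂ) : 0 ≤ cu y r z := u₀_nonneg _

lemma cu_lip {L : NNReal} (hL : LipschitzWith L u₀) {y : ℂ} {r : ℝ} (hr : 0 < r) (z w : ℂ) :
    |cu y r z - cu y r w| ≤ L / r * dist z w := by
  have h1 := hL.dist_le_mul ((r⁻¹ : ℝ) • (z - y)) ((r⁻¹ : ℝ) • (w - y))
  rw [Real.dist_eq, dist_eq_norm, ← smul_sub, norm_smul, Real.norm_of_nonneg (by positivity),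
    sub_sub_sub_cancel_right] at h1
  rw [dist_eq_norm]
  calc |cu y r z - cu y r w| ≤ L * (r⁻¹ * ‖z - w‖) := h1
    _ = L / r * ‖z - w‖ := by ring

/-- the oscillation depends on the radii only -/
lemma cu_rad {L : NNReal} (hL : LipschitzWith L u₀) {y : ℂ} {r : ℝ} (hr : 0 < r) (z w : ℂ) :
    |cu y r z - cu y r w| ≤ L / r * |dist z y - dist w y| := by
  set z' : ℂ := y + (dist z y : ℝ) with hz'
  set w' : ℂ := y + (dist w y : ℝ) with hw'
  have h0 : ∀ v : ℂ, dist (y + (dist v y : ℝ)) y = dist v y := by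
    intro v
    rw [dist_eq_norm, add_sub_cancel_left, Complex.norm_real, Real.norm_of_nonneg dist_nonneg]
  have h1 : ∀ v : ℂ, cu y r v = cu y r (y + (dist v y : ℝ)) := by
    intro v
    refine u₀_norm ?_
    rw [norm_smul_sub hr, norm_smul_sub hr, h0]
  rw [h1 z, h1 w]
  refine (cu_lip hL hr _ _).trans (le_of_eq ?_)
  congr 1
  rw [dist_eq_norm, add_sub_add_left_eq_sub, ← Complex.ofReal_sub, Complex.norm_real,
    Real.norm_eq_abs]

lemma norm_fderiv_cu {L : NNReal} (hL : LipschitzWith L u₀) {y : ℂ} {r : ℝ} (hr : 0 < r) (z : ℂ) :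
    ‖fderiv ℝ (cu y r) z‖ ≤ L / r := by
  have h1 : LipschitzWith (L / ⟨r, hr.le⟩) (cu y r) := by
    refine LipschitzWith.of_dist_le_mul fun z w => ?_
    rw [Real.dist_eq]
    exact cu_lip hL hr z w
  exact norm_fderiv_le_of_lipschitz ℝ h1 (x₀ := z)

lemma fderiv_cu_eq_zero {y z : ℂ} {r : ℝ} (hr : 0 < r) (hz : z ∉ ann y r) :
    fderiv ℝ (cu y r) z = 0 := by
  by_cases h1 : dist z y ≤ r
  · apply IsLocalMax.fderiv_eq_zero
    refine Eventually.of_forall fun w => ?_
    rw [cu_one hr h1]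
    exact cu_le _ _ _
  · apply IsLocalMin.fderiv_eq_zero
    refine Eventually.of_forall fun w => ?_
    have h2 : 2 * r ≤ dist z y := by
      by_contra hcon
      exact hz ⟨not_le.1 h1, not_le.1 hcon⟩
    rw [cu_zero hr h2]
    exact cu_nonneg _ _ _

/-- the oscillation on a connected set -/
lemma cu_osc {L : NNReal} (hL : LipschitzWith L u₀) {y : ℂ} {r : ℝ} (hr : 0 < r) {c : Set ℂ}
    (hc : IsPreconnected c) {z w : ℂ} (hz : z ∈ c) (hw : w ∈ c) :
    |cu y r z - cu y r w| ≤ L / r * exten y c r := by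
  wlog hzw : dist z y ≤ dist w y generalizing z w with H
  · rw [abs_sub_comm]
    exact H hw hz (le_of_not_ge hzw)
  set a := max (dist z y) r with ha
  set b := min (dist w y) (2 * r) with hb
  have hL0 : 0 ≤ (L:ℝ) / r := by positivity
  by_cases hab : a ≤ b
  · have h0 : r ≤ a := le_max_right _ _
    have h0' : b ≤ 2 * r := min_le_right _ _
    have h00 : dist z y ≤ a := le_max_left _ _
    have h01 : b ≤ dist w y := min_le_left _ _
    have h1 : b - a ≤ exten y c r := by
      have h2 : Ioo a b ⊆ Ioo r (2 * r) ∩ {ρ | (c ∩ sphere y ρ).Nonempty} := by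
        intro ρ hρ
        refine ⟨⟨h0.trans_lt hρ.1, hρ.2.trans_le h0'⟩, ?_⟩
        have h3 : IsPreconnected ((fun w => dist w y) '' c) :=
          hc.image _ (continuous_id.dist continuous_const).continuousOn
        obtain ⟨v, hv, hvρ⟩ := h3.ordConnected.out ⟨z, hz, rfl⟩ ⟨w, hw, rfl⟩
          ⟨h00.trans hρ.1.le, hρ.2.le.trans h01⟩
        exact ⟨v, hv, hvρ⟩
      have h4 : volume.real (Ioo a b) ≤ exten y c r := by
        refine measureReal_mono h2 ?_
        exact ((measure_mono inter_subset_left).trans_lt (by simp)).ne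
      rwa [Real.volume_real_Ioo_of_le hab] at h4
    -- replace the points by points of the circles of radii `a`, `b`
    have hpt : ∀ t : ℝ, 0 ≤ t → dist (y + (t : ℝ)) y = t := by
      intro t ht
      rw [dist_eq_norm, add_sub_cancel_left, Complex.norm_real, Real.norm_of_nonneg ht]
    have ha0 : 0 ≤ a := hr.le.trans h0
    have hb0 : 0 ≤ b := ha0.trans hab
    have h5 : cu y r z = cu y r (y + (a : ℝ)) := by
      rcases le_total (dist z y) r with h | h
      · rw [cu_one hr h, cu_one hr]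
        rw [hpt a ha0, ha, max_eq_right h]
      · refine u₀_norm ?_
        rw [norm_smul_sub hr, norm_smul_sub hr, hpt a ha0, ha, max_eq_left h]
    have h6 : cu y r w = cu y r (y + (b : ℝ)) := by
      rcases le_total (dist w y) (2 * r) with h | h
      · refine u₀_norm ?_
        rw [norm_smul_sub hr, norm_smul_sub hr, hpt b hb0, hb, min_eq_left h]
      · rw [cu_zero hr h, cu_zero hr]
        rw [hpt b hb0, hb, min_eq_right h]
    rw [h5, h6]
    refine (cu_rad hL hr _ _).trans (mul_le_mul_of_nonneg_left ?_ hL0)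
    rw [hpt a ha0, hpt b hb0, abs_sub_comm, abs_of_nonneg (by linarith)]
    exact h1
  · -- no crossing
    have h1 : cu y r z = cu y r w := by
      rw [not_le] at hab
      by_cases h2 : dist w y ≤ r
      · rw [cu_one hr h2, cu_one hr (hzw.trans h2)]
      · by_cases h3 : 2 * r ≤ dist z y
        · rw [cu_zero hr h3, cu_zero hr (h3.trans hzw)]
        · exfalso
          rw [not_le] at h2 h3
          have h4 : a ≤ b := by
            rw [ha, hb]
            exact max_le (le_min hzw h3.le) (le_min h2.le (by linarith))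
          exact absurd h4 (not_le.2 hab)
    rw [h1, sub_self, abs_zero]
    exact mul_nonneg hL0 measureReal_nonneg

lemma exten_eq_zero {y : ℂ} {c : Set ℂ} {r : ℝ} (h : ¬ (c ∩ ann y r).Nonempty) :
    exten y c r = 0 := by
  have h1 : Ioo r (2 * r) ∩ {ρ | (c ∩ sphere y ρ).Nonempty} = ∅ := by
    rw [eq_empty_iff_forall_notMem]
    rintro ρ ⟨hρ, v, hv, hvρ⟩
    refine h ⟨v, hv, ?_⟩
    change dist v y ∈ Ioo r (2 * r)
    rw [show dist v y = ρ from hvρ]
    exact hρ
  rw [exten, h1, measureReal_empty]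

lemma sum_sq_of_unique {ι : Type*} (s : Finset ι) (f : ι → ℝ)
    (h : ∀ i ∈ s, ∀ j ∈ s, i ≠ j → f i * f j = 0) : (∑ i ∈ s, f i) ^ 2 = ∑ i ∈ s, f i ^ 2 := by
  classical
  rw [sq, Finset.sum_mul_sum]
  refine Finset.sum_congr rfl fun i hi => ?_
  rw [Finset.sum_eq_single i (fun j hj hji => h i hi j hj hji.symm) (fun hi' => absurd hi hi')]
  ring

variable {K : Set ℂ}

/-- a criterion: weights on annuli -/
theorem TPar.of_weights {y : ℂ}
    (hW : ∀ ε > 0, ∀ ρ > 0, ∃ (s : Finset ℕ) (r a C : ℕ → ℝ),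
      (∀ k ∈ s, 0 < r k ∧ 2 * r k ≤ ρ ∧ 0 ≤ a k ∧ PBr K y (C k) (r k)) ∧ ∑ k ∈ s, a k = 1 ∧
      (∀ k ∈ s, ∀ l ∈ s, k ≠ l → Disjoint (ann y (r k)) (ann y (r l))) ∧
      (∀ c ∈ comps K, y ∉ c → ∀ k ∈ s, ∀ l ∈ s, (c ∩ ann y (r k)).Nonempty →
        (c ∩ ann y (r l)).Nonempty → k = l) ∧ ∑ k ∈ s, a k ^ 2 * (1 + C k) ≤ ε) : TPar K y := by
  classical
  obtain ⟨L, hL⟩ := exists_lip
  have hL0 : (0:ℝ) ≤ L := L.2
  intro ε hε ρ hρ
  set B : ℝ := 4 * π * (L:ℝ) ^ 2 + (L:ℝ) ^ 2 + 1 with hB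
  have hB0 : 0 < B := by positivity
  obtain ⟨s, r, a, C, h1, hsum, hdis, huni, hW'⟩ := hW (ε / B) (by positivity) ρ hρ
  have hC0 : ∀ k ∈ s, 0 ≤ C k := by
    intro k hk
    have h2 := (h1 k hk).2.2.2 ∅ (by simp)
    rw [Finset.sum_empty] at h2
    have h3 := (h1 k hk).1
    by_contra hcon
    rw [not_le] at hcon
    nlinarith [mul_pos h3 h3, mul_neg_of_neg_of_pos hcon (mul_pos h3 h3)]
  have hE1 : ∑ k ∈ s, a k ^ 2 ≤ ε / B := by
    refine (Finset.sum_le_sum fun k hk => ?_).trans hW'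
    nlinarith [hC0 k hk, mul_nonneg (sq_nonneg (a k)) (hC0 k hk)]
  have hE2 : ∑ k ∈ s, a k ^ 2 * C k ≤ ε / B := by
    refine (Finset.sum_le_sum fun k hk => ?_).trans hW'
    nlinarith [sq_nonneg (a k)]
  set u : ℂ → ℝ := fun z => ∑ k ∈ s, a k * cu y (r k) z with hu
  refine ⟨u, ?_, ?_, ?_, ?_, ?_⟩
  · exact ContDiff.sum fun k _ => contDiff_const.mul (cu_contDiff y (r k))
  · have h2 : ∀ᶠ z in 𝓝 y, ∀ k ∈ s, dist z y ≤ r k := by
      rw [Filter.eventually_all_finset]
      intro k hk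
      filter_upwards [ball_mem_nhds y (h1 k hk).1] with z hz
      exact (mem_ball.1 hz).le
    filter_upwards [h2] with z hz
    rw [hu]
    simp only
    rw [← hsum]
    refine Finset.sum_congr rfl fun k hk => ?_
    rw [cu_one (h1 k hk).1 (hz k hk), mul_one]
  · intro z hz
    rw [hu]
    simp only
    refine Finset.sum_eq_zero fun k hk => ?_
    rw [cu_zero (h1 k hk).1 ((h1 k hk).2.1.trans hz), mul_zero]
  · -- the energy
    have hfd : ∀ z, fderiv ℝ u z = ∑ k ∈ s, a k • fderiv ℝ (cu y (r k)) z := by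
      intro z
      have h2 : HasFDerivAt u (∑ k ∈ s, a k • fderiv ℝ (cu y (r k)) z) z := by
        rw [hu]
        refine HasFDerivAt.fun_sum fun k _ => ?_
        exact (((cu_contDiff y (r k)).differentiable (by norm_num)).differentiableAt.hasFDerivAt).const_mul
          (a k)
      exact h2.fderiv
    have hpt : ∀ z, ‖fderiv ℝ u z‖ ^ 2 ≤ ∑ k ∈ s,
        (ann y (r k)).indicator (fun _ => a k ^ 2 * (L / r k) ^ 2) z := by
      intro z
      rw [hfd z]
      calc ‖∑ k ∈ s, a k • fderiv ℝ (cu y (r k)) z‖ ^ 2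
          ≤ (∑ k ∈ s, ‖a k • fderiv ℝ (cu y (r k)) z‖) ^ 2 :=
            pow_le_pow_left₀ (norm_nonneg _) (norm_sum_le _ _) 2
        _ = ∑ k ∈ s, ‖a k • fderiv ℝ (cu y (r k)) z‖ ^ 2 := by
            refine sum_sq_of_unique s _ fun k hk l hl hkl => ?_
            by_cases hz : z ∈ ann y (r k)
            · have h3 : z ∉ ann y (r l) := disjoint_left.1 (hdis k hk l hl hkl) hz
              rw [fderiv_cu_eq_zero (h1 l hl).1 h3, smul_zero, norm_zero, mul_zero]
            · rw [fderiv_cu_eq_zero (h1 k hk).1 hz, smul_zero, norm_zero, zero_mul]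
        _ ≤ _ := by
            refine Finset.sum_le_sum fun k hk => ?_
            by_cases hz : z ∈ ann y (r k)
            · rw [indicator_of_mem hz, norm_smul, mul_pow, Real.norm_eq_abs, sq_abs]
              exact mul_le_mul_of_nonneg_left
                (pow_le_pow_left₀ (norm_nonneg _) (norm_fderiv_cu hL (h1 k hk).1 z) 2) (sq_nonneg _)
            · rw [indicator_of_notMem hz, fderiv_cu_eq_zero (h1 k hk).1 hz, smul_zero, norm_zero]
              norm_num
    have hvol : ∀ k ∈ s, volume.real (ann y (r k)) ≤ π * (2 * r k) ^ 2 := by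
      intro k hk
      have h2 : ann y (r k) ⊆ closedBall y (2 * r k) := fun z hz => hz.2.le
      have h3 : volume (closedBall y (2 * r k)) = ENNReal.ofReal (π * (2 * r k) ^ 2) :=
        volume_closedBall_real y (by have := (h1 k hk).1; positivity)
      have h4 : volume.real (closedBall y (2 * r k)) = π * (2 * r k) ^ 2 := by
        rw [measureReal_def, h3, ENNReal.toReal_ofReal (by positivity)]
      rw [← h4]
      exact measureReal_mono h2 (by rw [h3]; exact ENNReal.ofReal_ne_top)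
    have hfin : ∀ k ∈ s, volume (ann y (r k)) ≠ ⊤ := by
      intro k hk
      have h2 : ann y (r k) ⊆ closedBall y (2 * r k) := fun z hz => hz.2.le
      exact ((measure_mono h2).trans_lt (isCompact_closedBall y _).measure_lt_top).ne
    have hint : ∀ k ∈ s, Integrable ((ann y (r k)).indicator
        (fun _ => a k ^ 2 * ((L:ℝ) / r k) ^ 2)) := by
      intro k hk
      rw [integrable_indicator_iff (isOpen_ann y (r k)).measurableSet]
      exact integrableOn_const (hfin k hk)
    calc ∫ z, ‖fderiv ℝ u z‖ ^ 2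
        ≤ ∫ z, ∑ k ∈ s, (ann y (r k)).indicator (fun _ => a k ^ 2 * ((L:ℝ) / r k) ^ 2) z :=
          integral_mono_of_nonneg (Eventually.of_forall fun z => by positivity)
            (integrable_finsetSum _ fun k hk => hint k hk) (Eventually.of_forall hpt)
      _ = ∑ k ∈ s, volume.real (ann y (r k)) * (a k ^ 2 * ((L:ℝ) / r k) ^ 2) := by
          rw [integral_finsetSum _ fun k hk => hint k hk]
          refine Finset.sum_congr rfl fun k hk => ?_
          rw [integral_indicator_const _ (isOpen_ann y (r k)).measurableSet, smul_eq_mul]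
      _ ≤ ∑ k ∈ s, 4 * π * (L:ℝ) ^ 2 * a k ^ 2 := by
          refine Finset.sum_le_sum fun k hk => ?_
          have h2 := hvol k hk
          have h3 := (h1 k hk).1
          calc volume.real (ann y (r k)) * (a k ^ 2 * ((L:ℝ) / r k) ^ 2)
              ≤ π * (2 * r k) ^ 2 * (a k ^ 2 * ((L:ℝ) / r k) ^ 2) :=
                mul_le_mul_of_nonneg_right h2 (by positivity)
            _ = 4 * π * (L:ℝ) ^ 2 * a k ^ 2 := by
                field_simp
                ring
      _ = 4 * π * (L:ℝ) ^ 2 * ∑ k ∈ s, a k ^ 2 := by rw [Finset.mul_sum]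
      _ ≤ 4 * π * (L:ℝ) ^ 2 * (ε / B) := mul_le_mul_of_nonneg_left hE1 (by positivity)
      _ ≤ B * (ε / B) := by
          refine mul_le_mul_of_nonneg_right ?_ (by positivity)
          rw [hB]
          nlinarith [sq_nonneg (L:ℝ)]
      _ = ε := by field_simp
  · -- the oscillation
    intro F hF
    have hosc : ∀ c ∈ F, diam (u '' c) ^ 2 ≤ ∑ k ∈ s, (a k * (L / r k * exten y c (r k))) ^ 2 := by
      intro c hc
      have hcon := comps_isPreconnected (hF c hc).1
      have h2 : diam (u '' c) ≤ ∑ k ∈ s, a k * (L / r k * exten y c (r k)) := by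
        refine diam_le_of_forall_dist_le ?_ ?_
        · exact Finset.sum_nonneg fun k hk => mul_nonneg (h1 k hk).2.2.1
            (mul_nonneg (div_nonneg hL0 (h1 k hk).1.le) measureReal_nonneg)
        · rintro _ ⟨z, hz, rfl⟩ _ ⟨w, hw, rfl⟩
          rw [Real.dist_eq, hu]
          simp only
          rw [← Finset.sum_sub_distrib]
          refine (Finset.abs_sum_le_sum_abs _ _).trans (Finset.sum_le_sum fun k hk => ?_)
          rw [← mul_sub, abs_mul, abs_of_nonneg (h1 k hk).2.2.1]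
          exact mul_le_mul_of_nonneg_left (cu_osc hL (h1 k hk).1 hcon hz hw) (h1 k hk).2.2.1
      refine (pow_le_pow_left₀ diam_nonneg h2 2).trans (le_of_eq ?_)
      refine sum_sq_of_unique s _ fun k hk l hl hkl => ?_
      by_cases h3 : (c ∩ ann y (r k)).Nonempty
      · have h4 : ¬ (c ∩ ann y (r l)).Nonempty :=
          fun h4 => hkl (huni c (hF c hc).1 (hF c hc).2 k hk l hl h3 h4)
        rw [exten_eq_zero h4, mul_zero, mul_zero, mul_zero]
      · rw [exten_eq_zero h3, mul_zero, mul_zero, zero_mul]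
    calc ∑ c ∈ F, diam (u '' c) ^ 2
        ≤ ∑ c ∈ F, ∑ k ∈ s, (a k * (L / r k * exten y c (r k))) ^ 2 := Finset.sum_le_sum hosc
      _ = ∑ k ∈ s, ∑ c ∈ F, (a k * (L / r k * exten y c (r k))) ^ 2 := Finset.sum_comm
      _ = ∑ k ∈ s, a k ^ 2 * (L / r k) ^ 2 * ∑ c ∈ F, exten y c (r k) ^ 2 := by
          refine Finset.sum_congr rfl fun k _ => ?_
          rw [Finset.mul_sum]
          exact Finset.sum_congr rfl fun c _ => by ring
      _ ≤ ∑ k ∈ s, a k ^ 2 * (L / r k) ^ 2 * (C k * r k ^ 2) := by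
          refine Finset.sum_le_sum fun k hk => ?_
          exact mul_le_mul_of_nonneg_left ((h1 k hk).2.2.2 F hF) (by positivity)
      _ = ∑ k ∈ s, (L:ℝ) ^ 2 * (a k ^ 2 * C k) := by
          refine Finset.sum_congr rfl fun k hk => ?_
          have := (h1 k hk).1
          field_simp
      _ = (L:ℝ) ^ 2 * ∑ k ∈ s, a k ^ 2 * C k := by rw [Finset.mul_sum]
      _ ≤ (L:ℝ) ^ 2 * (ε / B) := mul_le_mul_of_nonneg_left hE2 (by positivity)
      _ ≤ B * (ε / B) := by
          refine mul_le_mul_of_nonneg_right ?_ (by positivity)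
          rw [hB]
          nlinarith [sq_nonneg (L:ℝ), Real.pi_pos, mul_nonneg Real.pi_pos.le (sq_nonneg (L:ℝ))]
      _ = ε := by field_simp

/-- a criterion: a divergent series of the inverses of the packing constants of annuli, such that
no component meets two of the annuli -/
theorem TPar.of_series {y : ℂ} {r C : ℕ → ℝ} (hr : ∀ k, 0 < r k) (hr0 : Tendsto r atTop (𝓝 0))
    (hP : ∀ k, PBr K y (C k) (r k)) (hdis : ∀ k l, k ≠ l → Disjoint (ann y (r k)) (ann y (r l)))
    (huni : ∀ c ∈ comps K, y ∉ c → ∀ k l, (c ∩ ann y (r k)).Nonempty →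
      (c ∩ ann y (r l)).Nonempty → k = l) (hdiv : ¬ Summable fun k => 1 / (1 + C k)) :
    TPar K y := by
  have hC0 : ∀ k, 0 ≤ C k := by
    intro k
    have h2 := hP k ∅ (by simp)
    rw [Finset.sum_empty] at h2
    have h3 := hr k
    by_contra hcon
    rw [not_le] at hcon
    nlinarith [mul_pos h3 h3, mul_neg_of_neg_of_pos hcon (mul_pos h3 h3)]
  have hpos : ∀ k, 0 < 1 / (1 + C k) := fun k => by have := hC0 k; positivity
  refine TPar.of_weights fun ε hε ρ hρ => ?_
  obtain ⟨N, hN⟩ := (hr0.eventually (gt_mem_nhds (half_pos hρ))).exists_forall_of_atTop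
  have hdiv' : ¬ Summable fun k => 1 / (1 + C (k + N)) := fun h =>
    hdiv ((summable_nat_add_iff (f := fun k => 1 / (1 + C k)) N).1 h)
  have ht := (not_summable_iff_tendsto_nat_atTop_of_nonneg (fun k => (hpos (k + N)).le)).1 hdiv'
  obtain ⟨n, hn⟩ := (ht.eventually_ge_atTop (1 / ε)).exists
  set S : ℝ := ∑ k ∈ Finset.range n, 1 / (1 + C (k + N)) with hS
  have hS0 : 0 < S := lt_of_lt_of_le (by positivity) hn
  have hmap : ∀ f : ℕ → ℝ, ∑ k ∈ (Finset.range n).map (addRightEmbedding N), f k =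
      ∑ k ∈ Finset.range n, f (k + N) := by
    intro f
    rw [Finset.sum_map]
    rfl
  have hmem : ∀ k ∈ (Finset.range n).map (addRightEmbedding N), N ≤ k := by
    intro k hk
    obtain ⟨l, -, rfl⟩ := Finset.mem_map.1 hk
    exact Nat.le_add_left _ _
  refine ⟨(Finset.range n).map (addRightEmbedding N), r, fun k => 1 / (1 + C k) / S, C,
    fun k hk => ⟨hr k, ?_, div_nonneg (hpos k).le hS0.le, hP k⟩, ?_,
    fun k _ l _ hkl => hdis k l hkl,
    fun c hc hyc k _ l _ hk hl => huni c hc hyc k l hk hl, ?_⟩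
  · have := hN k (hmem k hk)
    linarith
  · rw [hmap, ← Finset.sum_div, ← hS, div_self hS0.ne']
  · rw [hmap]
    have h1 : ∀ k, (1 / (1 + C k) / S) ^ 2 * (1 + C k) = 1 / (1 + C k) / S ^ 2 := by
      intro k
      have := hC0 k
      have h2 : 1 + C k ≠ 0 := by positivity
      field_simp
    rw [Finset.sum_congr rfl fun k _ => h1 (k + N), ← Finset.sum_div, ← hS, div_le_iff₀
      (by positivity)]
    rw [div_le_iff₀ hε] at hn
    nlinarith

/-- points with the packing condition are transboundary parabolic -/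
theorem TPar.of_PB (hK : IsCompact K) {y : ℂ} (hy : PB K y) : TPar K y := by
  obtain ⟨C, hC⟩ := hy
  refine TPar.of_weights fun ε hε ρ hρ => ?_
  obtain ⟨r, h1, h2, h3⟩ := sel hK hC hρ
  have hC0 : 0 ≤ C := by
    have h4 := (h1 0).2.2 ∅ (by simp)
    rw [Finset.sum_empty] at h4
    have h5 := (h1 0).1
    by_contra hcon
    rw [not_le] at hcon
    nlinarith [mul_pos h5 h5, mul_neg_of_neg_of_pos hcon (mul_pos h5 h5)]
  obtain ⟨m, hm⟩ := exists_nat_gt ((1 + C) / ε)
  have hm0 : (0:ℝ) < m := lt_of_le_of_lt (by positivity) hm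
  refine ⟨Finset.range m, r, fun _ => 1 / m, fun _ => C, fun k _ =>
    ⟨(h1 k).1, (h1 k).2.1.le, by positivity, (h1 k).2.2⟩, ?_, fun k _ l _ hkl => h2 k l hkl,
    fun c hc hyc k _ l _ hk hl => h3 c hc hyc k l hk hl, ?_⟩
  · rw [Finset.sum_const, Finset.card_range, nsmul_eq_mul]
    field_simp
  · rw [Finset.sum_const, Finset.card_range, nsmul_eq_mul]
    rw [div_lt_iff₀ hε] at hm
    have : (m:ℝ) * ((1 / (m:ℝ)) ^ 2 * (1 + C)) = (1 + C) / m := by
      field_simp
    rw [this, div_le_iff₀ hm0]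
    linarith

end Vale.Agent.P116.Slow
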