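import Mathlib
import Vale.Agent.P116.Slow.TBd
import Vale.Agent.P116.Slow.TPB

/-!
# The full state, with transboundary parabolic components
-/

open Set Filter Topology Metric Bornology

namespace Vale.Agent.P116.Slow

open H906 PBC

variable {K : Set ℂ} {R ρ : ℝ}

/-- **the state**, with transboundary parabolic components -/
theorem exists_full_stateT (h : Far K R ρ) (hne : K.Nonempty)
    {P₀ : Set (Set ℂ)} (hP₀ : P₀ ⊆ comps K) (hc : P₀.Countable) :
    ∃ (𝔊 : Ultrafilter Str) (g : ℂ → ℂ), Fine K (𝔊 : Filter Str) ∧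
      TendstoLocallyUniformlyOn (kF fk) g (𝔊 : Filter Str) Kᶜ ∧ NU Kᶜ g ∧
      (∀ p ∈ P₀, ∀ x ∈ p, GoodAt fk K (𝔊 : Filter Str) x) ∧
      (∀ x ∈ K, (∀ y ∈ connectedComponentIn K x, TPar K y) → GoodAt fk K (𝔊 : Filter Str) x) ∧
      {x : K | GoodAt fk K (𝔊 : Filter Str) x} ∈ residual K ∧
      {c : ConnectedComponents K | ∀ x : K, ConnectedComponents.mk x = c →
        GoodAt fk K (𝔊 : Filter Str) x} ∈ residual (ConnectedComponents K) := by
  obtain ⟨𝔊, g, hF, hg, hNU, -, hexc, hcov, h1, -, h2, h3⟩ := exists_full_state' h hne hP₀ hc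
  exact ⟨𝔊, g, hF, hg, hNU, h1, fun x hx hT => good_of_TPX h.cpt h.full hF hg hx hT hexc
    fun hn => hcov _ ⟨x, hx, rfl⟩ hn, h2, h3⟩

end Vale.Agent.P116.Slow
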