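import Vale.Agent.P116.PBC.Sph
import Vale.Agent.P116.Slow.LocA

/-!
# Transfer to the Riemann sphere, localized
-/

open Set Metric Filter Topology Bornology OnePoint

namespace Vale.Agent.P116.Slow

open PBC

theorem sphere_loc {K : Set ℂ} (hK : IsCompact K) (hc : IsPreconnected Kᶜ) {g : ℂ → ℂ}
    (hg : H906.NU Kᶜ g) :
    IsDom (((fun z : ℂ => (z : OnePoint ℂ)) '' (g '' Kᶜ)ᶜ)ᶜ) ∧
    BijOn (lift g) (((fun z : ℂ => (z : OnePoint ℂ)) '' K)ᶜ)
      (((fun z : ℂ => (z : OnePoint ℂ)) '' (g '' Kᶜ)ᶜ)ᶜ) ∧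
    (∀ p ∈ ((fun z : ℂ => (z : OnePoint ℂ)) '' K)ᶜ, HolAt (lift g) p) ∧
    (∀ x ∈ K, Disked K g x →
      ∃ q ∈ (((fun z : ℂ => (z : OnePoint ℂ)) '' (g '' Kᶜ)ᶜ)ᶜ)ᶜ,
        (comp (((fun z : ℂ => (z : OnePoint ℂ)) '' (g '' Kᶜ)ᶜ)ᶜ) q = {q} ∨
          IsRoundDisk (comp (((fun z : ℂ => (z : OnePoint ℂ)) '' (g '' Kᶜ)ᶜ)ᶜ) q)) ∧
        ∀ U : Set (OnePoint ℂ), IsOpen U →
          comp (((fun z : ℂ => (z : OnePoint ℂ)) '' (g '' Kᶜ)ᶜ)ᶜ) q ⊆ U →
          ∃ W : Set (OnePoint ℂ), IsOpen W ∧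
            comp (((fun z : ℂ => (z : OnePoint ℂ)) '' K)ᶜ) (x : OnePoint ℂ) ⊆ W ∧
            lift g '' (W ∩ ((fun z : ℂ => (z : OnePoint ℂ)) '' K)ᶜ) ⊆ U) ∧
    ((∀ w ∉ g '' Kᶜ, ∃ (c : ℂ) (r : ℝ), 0 ≤ r ∧
      connectedComponentIn (g '' Kᶜ)ᶜ w = Metric.closedBall c r) →
      IsCircleDomain (((fun z : ℂ => (z : OnePoint ℂ)) '' (g '' Kᶜ)ᶜ)ᶜ)) := by
  set L : Set ℂ := (g '' Kᶜ)ᶜ with hL
  have hKo : IsOpen Kᶜ := hK.isClosed.isOpen_compl
  have hopen : IsOpen (g '' Kᶜ) := FK.isOpen_image_of_injOn hKo hg.diff hg.inj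
  -- `g` is defined near infinity
  obtain ⟨b, hb⟩ := hK.isBounded.exists_norm_le
  set R : ℝ := max b 1 with hR
  have hR0 : 0 < R := lt_max_of_lt_right one_pos
  have hfar : ∀ z : ℂ, R < ‖z‖ → z ∈ Kᶜ := by
    intro z hz hzK
    exact absurd (hb z hzK) (not_le.2 ((le_max_left b 1).trans_lt hz))
  -- the chart at infinity
  have hchart : ∃ γ : ℂ → ℂ, AnalyticAt ℂ γ 0 ∧ γ 0 = 0 ∧
      ∀ᶠ s in 𝓝 (0 : ℂ), s ≠ 0 → γ s = (g s⁻¹)⁻¹ ∧ g s⁻¹ ≠ 0 := by
    classical
    have hlim : Tendsto (fun s : ℂ => g s⁻¹ - s⁻¹) (𝓝[≠] 0) (𝓝 0) :=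
      hg.norm.comp tendsto_inv₀_nhdsNE_zero
    -- `k s = g (1 / s) - 1 / s`
    set k : ℂ → ℂ := fun s => if s = 0 then 0 else g s⁻¹ - s⁻¹ with hk
    have hk1 : ∀ s, s ≠ 0 → k s = g s⁻¹ - s⁻¹ := fun s hs => by simp [hk, hs]
    have hkd : DifferentiableOn ℂ k (ball 0 R⁻¹) := by
      rw [← Complex.differentiableOn_compl_singleton_and_continuousAt_iff
        (isOpen_ball.mem_nhds (mem_ball_self (inv_pos.2 hR0)))]
      constructor
      · have h1 : DifferentiableOn ℂ (fun s => g s⁻¹ - s⁻¹) (ball (0 : ℂ) R⁻¹ \ {0}) := by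
          intro s hs
          have hs0 : s ≠ 0 := hs.2
          have hs1 : R < ‖s⁻¹‖ := by
            rw [norm_inv]
            have h2 : ‖s‖ < R⁻¹ := mem_ball_zero_iff.1 hs.1
            exact (lt_inv_comm₀ (norm_pos_iff.2 hs0) hR0).1 h2
          have h3 : DifferentiableAt ℂ (fun s : ℂ => s⁻¹) s := differentiableAt_inv hs0
          have h4 : DifferentiableAt ℂ g s⁻¹ := hg.diff.differentiableAt (hKo.mem_nhds (hfar _ hs1))
          exact ((h4.comp s h3).sub h3).differentiableWithinAt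
        exact h1.congr fun s hs => hk1 s hs.2
      · rw [← continuousWithinAt_compl_self, ContinuousWithinAt]
        have hk0 : k 0 = 0 := by simp [hk]
        rw [hk0]
        refine hlim.congr' ?_
        filter_upwards [self_mem_nhdsWithin] with s hs
        exact (hk1 s hs).symm
    have hka : AnalyticAt ℂ k 0 :=
      hkd.analyticAt (isOpen_ball.mem_nhds (mem_ball_self (inv_pos.2 hR0)))
    -- `γ s = s / (1 + s k s)`
    have hden : AnalyticAt ℂ (fun s => 1 + s * k s) 0 :=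
      analyticAt_const.add (analyticAt_id.mul hka)
    have hden0 : (1 : ℂ) + 0 * k 0 ≠ 0 := by simp
    refine ⟨fun s => s / (1 + s * k s), analyticAt_id.div hden hden0, by simp, ?_⟩
    have h5 : ∀ᶠ s in 𝓝 (0 : ℂ), 1 + s * k s ≠ 0 := hden.continuousAt.eventually_ne hden0
    filter_upwards [h5] with s hs hs0
    have h6 : 1 + s * k s = s * g s⁻¹ := by
      rw [hk1 s hs0]
      field_simp
      ring
    rw [h6] at hs
    have h7 : g s⁻¹ ≠ 0 := right_ne_zero_of_mul hs
    refine ⟨?_, h7⟩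
    rw [h6]
    field_simp
  -- `L` is compact
  have hLb : IsBounded L := by
    obtain ⟨γ, hγ, hγ0, hγe⟩ := hchart
    -- `g` takes all large values: use the open mapping theorem in the form `C1`-like
    by_contra hcon
    -- the map `γ` is injective near `0` and its image is a neighbourhood of `0`
    have hlim : Tendsto (fun s : ℂ => g s⁻¹ - s⁻¹) (𝓝[≠] 0) (𝓝 0) :=
      hg.norm.comp tendsto_inv₀_nhdsNE_zero
    have hder : HasDerivAt γ 1 0 := by
      rw [hasDerivAt_iff_tendsto_slope]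
      have h1 : Tendsto (fun s : ℂ => (1 + s * (g s⁻¹ - s⁻¹))⁻¹) (𝓝[≠] 0) (𝓝 1) := by
        have h2 : Tendsto (fun s : ℂ => 1 + s * (g s⁻¹ - s⁻¹)) (𝓝[≠] 0) (𝓝 (1 + 0 * 0)) := by
          refine tendsto_const_nhds.add (Tendsto.mul ?_ hlim)
          exact tendsto_id.mono_left nhdsWithin_le_nhds
        rw [mul_zero, add_zero] at h2
        simpa using h2.inv₀ one_ne_zero
      refine h1.congr' ?_
      have h2 : ∀ᶠ s in 𝓝[≠] (0 : ℂ), s ≠ 0 → γ s = (g s⁻¹)⁻¹ ∧ g s⁻¹ ≠ 0 :=
        hγe.filter_mono nhdsWithin_le_nhds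
      filter_upwards [h2, self_mem_nhdsWithin] with s hs hs0
      have hs0' : s ≠ 0 := hs0
      obtain ⟨h3, h4⟩ := hs hs0'
      rw [slope_def_field, hγ0, sub_zero, sub_zero, h3]
      have h5 : 1 + s * (g s⁻¹ - s⁻¹) = s * g s⁻¹ := by
        field_simp
        ring
      rw [h5]
      field_simp
    have hstr : HasStrictDerivAt γ 1 0 := by
      have := hγ.hasStrictDerivAt
      rwa [hder.deriv] at this
    have hmap : map γ (𝓝 0) = 𝓝 0 := by
      have := hstr.map_nhds_eq one_ne_zero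
      rwa [hγ0] at this
    have h8 : ∀ᶠ s in 𝓝 (0 : ℂ), ‖s‖ < R⁻¹ ∧ (s ≠ 0 → γ s = (g s⁻¹)⁻¹ ∧ g s⁻¹ ≠ 0) := by
      refine Filter.Eventually.and ?_ hγe
      filter_upwards [isOpen_ball.mem_nhds (mem_ball_self (inv_pos.2 hR0) :
        (0 : ℂ) ∈ ball (0 : ℂ) R⁻¹)] with s hs
      exact mem_ball_zero_iff.1 hs
    have h9 : γ '' {s | ‖s‖ < R⁻¹ ∧ (s ≠ 0 → γ s = (g s⁻¹)⁻¹ ∧ g s⁻¹ ≠ 0)} ∈ 𝓝 (0 : ℂ) := by
      rw [← hmap]
      exact image_mem_map h8
    obtain ⟨ε, hε, hball⟩ := Metric.mem_nhds_iff.1 h9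
    refine hcon ((isBounded_iff_forall_norm_le).2 ⟨ε⁻¹, fun w hw => ?_⟩)
    by_contra hlt
    push Not at hlt
    have hw0 : w ≠ 0 := by
      rintro rfl
      rw [norm_zero] at hlt
      exact absurd hlt (not_lt.2 (inv_pos.2 hε).le)
    have h10 : w⁻¹ ∈ ball (0 : ℂ) ε := by
      rw [mem_ball_zero_iff, norm_inv]
      exact (inv_lt_comm₀ hε (norm_pos_iff.2 hw0)).1 hlt
    obtain ⟨s, ⟨hs1, hs2⟩, hs3⟩ := hball h10
    have hs0 : s ≠ 0 := by
      rintro rfl
      rw [hγ0] at hs3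
      exact inv_ne_zero hw0 hs3.symm
    obtain ⟨h11, -⟩ := hs2 hs0
    rw [h11] at hs3
    have h12 : g s⁻¹ = w := inv_injective hs3
    refine hw ⟨s⁻¹, hfar _ ?_, h12⟩
    rw [norm_inv]
    exact (lt_inv_comm₀ (norm_pos_iff.2 hs0) hR0).1 hs1
  have hLc : IsCompact L := isCompact_of_isClosed_isBounded hopen.isClosed_compl hLb
  have hcl : IsClosed ((fun z : ℂ => (z : OnePoint ℂ)) '' L) :=
    (hLc.image isEmbedding_coe.continuous).isClosed
  have hcpl : ((fun z : ℂ => (z : OnePoint ℂ)) '' L)ᶜ =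
      insert ∞ ((fun z : ℂ => (z : OnePoint ℂ)) '' (g '' Kᶜ)) := by
    ext p
    induction p using OnePoint.rec with
    | infty =>
      constructor
      · exact fun _ => mem_insert _ _
      · rintro - ⟨z, -, hz⟩
        exact OnePoint.coe_ne_infty z hz
    | coe z =>
      constructor
      · intro hz
        refine Or.inr ⟨z, ?_, rfl⟩
        by_contra h
        exact hz ⟨z, h, rfl⟩
      · rintro (h | ⟨w, hw, he⟩)
        · exact (OnePoint.coe_ne_infty z h).elim
        · rintro ⟨w', hw', he'⟩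
          have h1 := OnePoint.coe_injective he
          have h2 := OnePoint.coe_injective he'
          rw [h2, ← h1] at hw'
          exact hw' hw
  have hdom : IsDom (((fun z : ℂ => (z : OnePoint ℂ)) '' L)ᶜ) := by
    refine ⟨hcl.isOpen_compl, ?_⟩
    · -- connected
      refine ⟨⟨∞, ?_⟩, ?_⟩
      · rw [hcpl]
        exact mem_insert _ _
      · have h1 : IsPreconnected ((fun z : ℂ => (z : OnePoint ℂ)) '' (g '' Kᶜ)) :=
          (hc.image _ hg.diff.continuousOn).image _ isEmbedding_coe.continuous.continuousOn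
        refine h1.subset_closure ?_ ?_
        · rw [hcpl]
          exact subset_insert _ _
        · rw [hcpl]
          refine insert_subset ?_ subset_closure
          -- `∞` is in the closure
          have h2 : Tendsto (fun z : ℂ => (z : OnePoint ℂ)) (coclosedCompact ℂ) (𝓝 ∞) :=
            OnePoint.tendsto_coe_infty
          refine mem_closure_of_tendsto h2 ?_
          filter_upwards [hLc.compl_mem_coclosedCompact_of_isClosed hLc.isClosed] with z hz
          refine mem_image_of_mem _ ?_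
          by_contra h3
          exact hz h3
  refine ⟨hdom, ?_, ?_, ?_, ?_⟩
  · -- bijection
    refine ⟨?_, ?_, ?_⟩
    · intro p hp
      rw [hcpl]
      induction p using OnePoint.rec with
      | infty => exact mem_insert _ _
      | coe z =>
        refine Or.inr ⟨g z, ⟨z, fun hz => hp ⟨z, hz, rfl⟩, rfl⟩, rfl⟩
    · intro p hp q hq hpq
      induction p using OnePoint.rec with
      | infty =>
        induction q using OnePoint.rec with
        | infty => rfl
        | coe z => exact (OnePoint.coe_ne_infty (g z) hpq.symm).elim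
      | coe z =>
        induction q using OnePoint.rec with
        | infty => exact (OnePoint.coe_ne_infty (g z) hpq).elim
        | coe z' =>
          have h1 : g z = g z' := OnePoint.coe_injective hpq
          rw [hg.inj (fun hz => hp ⟨z, hz, rfl⟩) (fun hz => hq ⟨z', hz, rfl⟩) h1]
    · intro p hp
      rw [hcpl] at hp
      rcases hp with rfl | ⟨_, ⟨z, hz, rfl⟩, rfl⟩
      · refine ⟨∞, ?_, rfl⟩
        rintro ⟨z, -, hz⟩
        exact OnePoint.coe_ne_infty z hz
      · refine ⟨z, ?_, rfl⟩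
        rintro ⟨z', hz', he⟩
        rw [OnePoint.coe_injective he] at hz'
        exact hz hz'
  · -- holomorphic
    intro p hp
    induction p using OnePoint.rec with
    | infty =>
      obtain ⟨γ, hγ, hγ0, hγe⟩ := hchart
      refine ⟨fun z : ℂ => recip (z : OnePoint ℂ), Or.inr rfl, fun z : ℂ => recip (z : OnePoint ℂ),
        Or.inr rfl, 0, γ, recip_coe_zero, hγ, ?_⟩
      filter_upwards [hγe] with s hs
      by_cases hs0 : s = 0
      · subst hs0
        rw [recip_coe_zero, lift_infty, hγ0, recip_coe_zero]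
      · obtain ⟨h1, h2⟩ := hs hs0
        rw [recip_coe_ne hs0, lift_coe, h1, recip_coe_ne (inv_ne_zero h2), inv_inv]
    | coe z =>
      have hz : z ∈ Kᶜ := fun hz => hp ⟨z, hz, rfl⟩
      refine ⟨fun z : ℂ => (z : OnePoint ℂ), Or.inl rfl, fun z : ℂ => (z : OnePoint ℂ), Or.inl rfl,
        z, g, rfl, hg.diff.analyticAt (hKo.mem_nhds hz), ?_⟩
      exact Eventually.of_forall fun w => lift_coe g w

  · -- good ends
    rintro x hx ⟨c, r, hr, h1, h2, h3⟩
    have hcm : c ∈ closedBall c r := mem_closedBall_self hr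
    have hcc : comp (((fun z : ℂ => (z : OnePoint ℂ)) '' L)ᶜ) (c : OnePoint ℂ) =
        (fun z : ℂ => (z : OnePoint ℂ)) '' closedBall c r := by
      unfold comp
      rw [compl_compl, connectedComponentIn_coe (h1 hcm), h2 c hcm]
    refine ⟨(c : OnePoint ℂ), ?_, ?_, ?_⟩
    · rw [compl_compl]
      exact ⟨c, h1 hcm, rfl⟩
    · rw [hcc]
      rcases hr.eq_or_lt with h0 | h0
      · left
        subst h0
        rw [closedBall_zero, image_singleton]
      · exact Or.inr (isRoundDisk_closedBall c h0)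
    · intro U hU hUc
      rw [hcc] at hUc
      have hUp : IsOpen ((fun z : ℂ => (z : OnePoint ℂ)) ⁻¹' U) :=
        hU.preimage OnePoint.continuous_coe
      have hsub : closedBall c r ⊆ (fun z : ℂ => (z : OnePoint ℂ)) ⁻¹' U := by
        intro z hz
        exact hUc ⟨z, hz, rfl⟩
      obtain ⟨ε, hε, hεU⟩ := (isCompact_closedBall c r).exists_cthickening_subset_open hUp hsub
      rw [cthickening_closedBall hε.le hr, add_comm] at hεU
      obtain ⟨n, hn⟩ := h3 ε hε
      refine ⟨(fun z : ℂ => (z : OnePoint ℂ)) '' interior (H906.nd K n x),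
        OnePoint.isOpenEmbedding_coe.isOpenMap _ isOpen_interior, ?_, ?_⟩
      · unfold comp
        rw [compl_compl, connectedComponentIn_coe hx]
        refine image_mono fun y hy => ?_
        have hyK : y ∈ K := connectedComponentIn_subset _ _ hy
        have hyn : y ∈ H906.nd K n x := connectedComponentIn_mono _ (H906.subset_lev n) hy
        exact mem_interior.2 ⟨ball y (H906.lr n),
          ball_subset_closedBall.trans (H906.closedBall_subset_nd hyK hyn), isOpen_ball,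
          mem_ball_self (H906.lr_pos n)⟩
      · rintro _ ⟨p, ⟨⟨z, hz, rfl⟩, hpG⟩, rfl⟩
        have hzK : z ∉ K := fun h => hpG ⟨z, h, rfl⟩
        have h4 := hn ⟨z, ⟨interior_subset hz, hzK⟩, rfl⟩
        exact hεU h4
  · intro hcomp
    refine ⟨hdom, ?_⟩
    intro p hp
    rw [compl_compl] at hp
    obtain ⟨w, hw, rfl⟩ := hp
    obtain ⟨c, r, hr, he⟩ := hcomp w hw
    have h1 : comp (((fun z : ℂ => (z : OnePoint ℂ)) '' L)ᶜ) (w : OnePoint ℂ) =
        (fun z : ℂ => (z : OnePoint ℂ)) '' closedBall c r := by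
      unfold comp
      rw [compl_compl, connectedComponentIn_coe hw, he]
    simp only
    rw [h1]
    rcases hr.eq_or_lt with h0 | h0
    · left
      subst h0
      rw [closedBall_zero] at he ⊢
      have : w ∈ ({c} : Set ℂ) := by
        rw [← he]
        exact mem_connectedComponentIn hw
      rw [mem_singleton_iff] at this
      subst this
      rw [image_singleton]
    · exact Or.inr (isRoundDisk_closedBall c h0)

end Vale.Agent.P116.Slow
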