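import Mathlib

/-!
Trees of state spaces: splicing, merging, and slow operators.
-/

open Set Filter Topology Metric
open scoped Classical

namespace Vale.Agent.P116.Slow

/-- a rooted tree of state spaces -/
structure Sys (T : Type*) (X : T → Type*) [∀ Q, PseudoMetricSpace (X Q)] where
  /-- level -/
  lv : T → ℕ
  /-- children -/
  ch : T → Finset T
  /-- root -/
  root : T
  lv_root : lv root = 0
  lv_ch : ∀ Q, ∀ R ∈ ch Q, lv R = lv Q + 1
  uniq : ∀ Q Q' R, R ∈ ch Q → R ∈ ch Q' → Q = Q'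
  reach : ∀ Q, Relation.ReflTransGen (fun R Q => R ∈ ch Q) Q root
  /-- composition of the states of the children -/
  join : ∀ Q, (∀ Q', X Q') → X Q
  congr : ∀ Q a a', (∀ R ∈ ch Q, a R = a' R) → join Q a = join Q a'
  lip : ∀ Q a a', dist (join Q a) (join Q a') ≤ ∑ R ∈ ch Q, dist (a R) (a' R)
  /-- merged state -/
  o : ∀ Q, X Q

namespace Sys

section

variable {T : Type*} {X : T → Type*} [∀ Q, PseudoMetricSpace (X Q)] (s : Sys T X)

/-- `Q'` is below (or equal to) `Q` -/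
def Bel (Q Q' : T) : Prop := Relation.ReflTransGen (fun R Q => R ∈ s.ch Q) Q' Q

lemma bel_refl (Q : T) : s.Bel Q Q := Relation.ReflTransGen.refl

lemma bel_trans {Q Q' Q'' : T} (h : s.Bel Q Q') (h' : s.Bel Q' Q'') : s.Bel Q Q'' :=
  Relation.ReflTransGen.trans h' h

lemma bel_ch {Q R : T} (h : R ∈ s.ch Q) : s.Bel Q R := Relation.ReflTransGen.single h

lemma bel_child {Q Q' R : T} (h : R ∈ s.ch Q') : s.Bel Q R ↔ R = Q ∨ s.Bel Q Q' := by
  constructor
  · intro h1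
    rcases Relation.ReflTransGen.cases_head h1 with h2 | ⟨c, h2, h3⟩
    · exact Or.inl h2
    · right
      rw [s.uniq Q' c R h h2]
      exact h3
  · rintro (rfl | h1)
    · exact s.bel_refl _
    · exact s.bel_trans h1 (s.bel_ch h)

lemma bel_lv {Q Q' : T} (h : s.Bel Q Q') : s.lv Q ≤ s.lv Q' := by
  induction h using Relation.ReflTransGen.head_induction_on with
  | refl => exact le_rfl
  | head h1 _ ih =>
    rw [s.lv_ch _ _ h1]
    omega

lemma bel_eq_of_lv {Q Q' : T} (h : s.Bel Q Q') (hl : s.lv Q = s.lv Q') : Q = Q' := by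
  rcases Relation.ReflTransGen.cases_head h with h2 | ⟨c, h2, h3⟩
  · exact h2.symm
  · have h4 := s.lv_ch _ _ h2
    have h5 := s.bel_lv h3
    omega

lemma bel_total {Q Q' Q'' : T} (h : s.Bel Q Q'') (h' : s.Bel Q' Q'') :
    s.Bel Q Q' ∨ s.Bel Q' Q := by
  have hU : Relator.RightUnique (fun R Q => R ∈ s.ch Q) := fun a b c hb hc => s.uniq b c a hb hc
  exact (Relation.ReflTransGen.total_of_right_unique hU h h').symm

lemma bel_of_lt {Q Q' : T} (h : s.Bel Q Q') (hne : Q ≠ Q') : ∃ R ∈ s.ch Q, s.Bel R Q' := by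
  rcases Relation.ReflTransGen.cases_tail h with h2 | ⟨c, h2, h3⟩
  · exact absurd h2 hne
  · exact ⟨c, h3, h2⟩

/-- recompute the values at level `n` -/
noncomputable def U (n : ℕ) (a : ∀ Q, X Q) : ∀ Q, X Q :=
  fun Q => if s.lv Q = n then s.join Q a else a Q

/-- recompute the values at all levels `< n` -/
noncomputable def Rc : ℕ → (∀ Q, X Q) → ∀ Q, X Q
  | 0, a => a
  | n + 1, a => Rc n (s.U n a)

lemma Rc_ge {n : ℕ} (a : ∀ Q, X Q) {Q : T} (h : n ≤ s.lv Q) : s.Rc n a Q = a Q := by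
  induction n generalizing a with
  | zero => rfl
  | succ n ih =>
    rw [Rc, ih _ (by omega), U, if_neg (by omega)]

lemma Rc_lt {n : ℕ} (a : ∀ Q, X Q) {Q : T} (h : s.lv Q < n) :
    s.Rc n a Q = s.join Q (s.Rc n a) := by
  induction n generalizing a with
  | zero => omega
  | succ n ih =>
    by_cases hn : s.lv Q < n
    · exact ih _ hn
    · have hn' : s.lv Q = n := by omega
      rw [Rc, s.Rc_ge _ (by omega : n ≤ s.lv Q), U, if_pos hn']
      refine s.congr Q _ _ fun R hR => ?_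
      have h1 := s.lv_ch Q R hR
      rw [s.Rc_ge _ (by omega : n ≤ s.lv R), U, if_neg (by omega)]

lemma Rc_congr {n : ℕ} {a a' : ∀ Q, X Q} {Q : T} (hQ : s.lv Q ≤ n)
    (h : ∀ Q', s.Bel Q Q' → s.lv Q' = n → a Q' = a' Q') : s.Rc n a Q = s.Rc n a' Q := by
  obtain ⟨d, hd⟩ : ∃ d, d = n - s.lv Q := ⟨_, rfl⟩
  induction d generalizing Q with
  | zero =>
    have h1 : s.lv Q = n := by omega
    rw [s.Rc_ge _ h1.ge, s.Rc_ge _ h1.ge]
    exact h Q (s.bel_refl Q) h1
  | succ d ih =>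
    have h1 : s.lv Q < n := by omega
    rw [s.Rc_lt _ h1, s.Rc_lt _ h1]
    refine s.congr Q _ _ fun R hR => ?_
    have h2 := s.lv_ch Q R hR
    exact ih (by omega) (fun Q' hQ' hl => h Q' (s.bel_trans (s.bel_ch hR) hQ') hl) (by omega)

/-- coherent trees -/
def Coh (a : ∀ Q, X Q) : Prop := ∀ Q, a Q = s.join Q a

lemma Rc_coh {n : ℕ} {a : ∀ Q, X Q} (ha : s.Coh a) (Q : T) : s.Rc n a Q = a Q := by
  obtain ⟨d, hd⟩ : ∃ d, d = n - s.lv Q := ⟨_, rfl⟩
  induction d generalizing Q with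
  | zero => exact s.Rc_ge _ (by omega)
  | succ d ih =>
    rw [s.Rc_lt _ (by omega), ha Q]
    refine s.congr Q _ _ fun R hR => ?_
    have h2 := s.lv_ch Q R hR
    exact ih R (by omega)

lemma join_tendsto {ι : Type*} {l : Filter ι} {a : ι → ∀ Q, X Q} {b : ∀ Q, X Q} {Q : T}
    (h : ∀ R ∈ s.ch Q, Tendsto (fun i => a i R) l (𝓝 (b R))) :
    Tendsto (fun i => s.join Q (a i)) l (𝓝 (s.join Q b)) := by
  rw [tendsto_iff_dist_tendsto_zero]
  have h1 : Tendsto (fun i => ∑ R ∈ s.ch Q, dist (a i R) (b R)) l (𝓝 0) := by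
    have h2 : Tendsto (fun i => ∑ R ∈ s.ch Q, dist (a i R) (b R)) l
        (𝓝 (∑ _R ∈ s.ch Q, (0:ℝ))) :=
      tendsto_finsetSum _ fun R hR => tendsto_iff_dist_tendsto_zero.1 (h R hR)
    simpa using h2
  exact squeeze_zero (fun i => dist_nonneg) (fun i => s.lip Q _ _) h1

lemma continuous_join (Q : T) : Continuous (s.join Q) := by
  rw [continuous_iff_continuousAt]
  intro a
  exact s.join_tendsto fun R _ => (continuous_apply R).continuousAt

lemma continuous_U (n : ℕ) : Continuous (s.U n) := by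
  refine continuous_pi fun Q => ?_
  unfold U
  by_cases h : s.lv Q = n
  · simp only [h, if_true]
    exact s.continuous_join Q
  · simp only [h, if_false]
    exact continuous_apply Q

lemma continuous_Rc (n : ℕ) : Continuous (s.Rc n) := by
  induction n with
  | zero => exact continuous_id
  | succ n ih => exact ih.comp (s.continuous_U n)

/-- splicing -/
noncomputable def sp (Q : T) (η ξ : ∀ Q, X Q) : ∀ Q, X Q :=
  s.Rc (s.lv Q) (fun Q' => if s.Bel Q Q' then η Q' else ξ Q')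

lemma sp_ge {Q : T} (η ξ : ∀ Q, X Q) {Q' : T} (h : s.lv Q ≤ s.lv Q') (hb : ¬ s.Bel Q Q') :
    s.sp Q η ξ Q' = ξ Q' := by
  rw [sp, s.Rc_ge _ h, if_neg hb]

lemma sp_bel {Q : T} (η ξ : ∀ Q, X Q) {Q' : T} (h : s.Bel Q Q') : s.sp Q η ξ Q' = η Q' := by
  rw [sp, s.Rc_ge _ (s.bel_lv h), if_pos h]

lemma sp_coh {Q : T} {η ξ : ∀ Q, X Q} (hη : s.Coh η) (hξ : s.Coh ξ) : s.Coh (s.sp Q η ξ) := by
  intro Q'
  by_cases hl : s.lv Q' < s.lv Q
  · exact s.Rc_lt _ hl
  · push Not at hl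
    by_cases hb : s.Bel Q Q'
    · rw [s.sp_bel _ _ hb, hη Q']
      refine s.congr _ _ _ fun R hR => ?_
      rw [s.sp_bel _ _ (s.bel_trans hb (s.bel_ch hR))]
    · rw [s.sp_ge _ _ hl hb, hξ Q']
      refine s.congr _ _ _ fun R hR => ?_
      have h1 := s.lv_ch Q' R hR
      rw [s.sp_ge _ _ (by omega)]
      rw [s.bel_child hR]
      rintro (h2 | h2)
      · rw [h2] at h1
        omega
      · exact hb h2

lemma sp_inc {Q : T} {η ξ : ∀ Q, X Q} (hξ : s.Coh ξ) {Q' : T} (h1 : ¬ s.Bel Q Q')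
    (h2 : ¬ s.Bel Q' Q) : s.sp Q η ξ Q' = ξ Q' := by
  by_cases hl : s.lv Q ≤ s.lv Q'
  · exact s.sp_ge _ _ hl h1
  · push Not at hl
    rw [← s.Rc_coh (n := s.lv Q) hξ Q', sp]
    refine s.Rc_congr hl.le fun Q'' h3 _ => ?_
    rw [if_neg]
    intro h4
    rcases s.bel_total h3 h4 with h5 | h5
    · exact h2 h5
    · exact h1 h5

lemma continuous_sp (Q : T) :
    Continuous (fun p : (∀ Q, X Q) × (∀ Q, X Q) => s.sp Q p.1 p.2) := by
  refine (s.continuous_Rc _).comp (continuous_pi fun Q' => ?_)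
  by_cases h : s.Bel Q Q'
  · simp only [h, if_true]
    exact (continuous_apply Q').comp continuous_fst
  · simp only [h, if_false]
    exact (continuous_apply Q').comp continuous_snd

/-- branches of the tree -/
def Br (b : ℕ → T) : Prop := b 0 = s.root ∧ ∀ k, b (k + 1) ∈ s.ch (b k)

variable {s} in
lemma Br.lv {b : ℕ → T} (hb : s.Br b) (k : ℕ) : s.lv (b k) = k := by
  induction k with
  | zero => rw [hb.1, s.lv_root]
  | succ k ih => rw [s.lv_ch _ _ (hb.2 k), ih]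

variable {s} in
lemma Br.bel {b : ℕ → T} (hb : s.Br b) {j k : ℕ} (h : j ≤ k) : s.Bel (b j) (b k) := by
  induction k, h using Nat.le_induction with
  | base => exact s.bel_refl _
  | succ k _ ih => exact s.bel_trans ih (s.bel_ch (hb.2 k))

variable {s} in
lemma Br.eq_of_bel {b : ℕ → T} (hb : s.Br b) {Q : T} {m : ℕ} (h : s.Bel Q (b m)) :
    Q = b (s.lv Q) := by
  have h1 : s.lv Q ≤ m := by
    have := s.bel_lv h
    rwa [hb.lv] at this
  rcases s.bel_total h (hb.bel h1) with h2 | h2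
  · exact s.bel_eq_of_lv h2 (by rw [hb.lv])
  · exact (s.bel_eq_of_lv h2 (by rw [hb.lv])).symm

/-- merge the node `b m` -/
noncomputable def mg (b : ℕ → T) (m : ℕ) (ξ : ∀ Q, X Q) : ∀ Q, X Q :=
  s.Rc m (Function.update ξ (b m) (s.o (b m)))

variable {s} in
lemma Br.mg_self {b : ℕ → T} (hb : s.Br b) (m : ℕ) (ξ : ∀ Q, X Q) :
    s.mg b m ξ (b m) = s.o (b m) := by
  rw [mg, s.Rc_ge _ (hb.lv m).ge, Function.update_self]

lemma mg_lt {b : ℕ → T} {m : ℕ} (ξ : ∀ Q, X Q) {Q : T} (h : s.lv Q < m) :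
    s.mg b m ξ Q = s.join Q (s.mg b m ξ) := s.Rc_lt _ h

lemma mg_off {b : ℕ → T} {m : ℕ} {ξ : ∀ Q, X Q} (hξ : s.Coh ξ) {Q : T} (h : ¬ s.Bel Q (b m)) :
    s.mg b m ξ Q = ξ Q := by
  by_cases hl : s.lv Q ≤ m
  · rw [← s.Rc_coh (n := m) hξ Q, mg]
    refine s.Rc_congr hl fun Q' h1 _ => ?_
    rw [Function.update_of_ne]
    rintro rfl
    exact h h1
  · push Not at hl
    rw [mg, s.Rc_ge _ hl.le, Function.update_of_ne]
    rintro rfl
    exact h (s.bel_refl _)

lemma mg_congr {b : ℕ → T} {m : ℕ} {ξ η : ∀ Q, X Q} {Q : T} (hQ : s.lv Q ≤ m)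
    (h : ∀ Q', s.Bel Q Q' → s.lv Q' = m → Q' ≠ b m → ξ Q' = η Q') :
    s.mg b m ξ Q = s.mg b m η Q := by
  refine s.Rc_congr hQ fun Q' h1 h2 => ?_
  by_cases h3 : Q' = b m
  · subst h3
    rw [Function.update_self, Function.update_self]
  · rw [Function.update_of_ne h3, Function.update_of_ne h3]
    exact h Q' h1 h2 h3

lemma continuous_mg (b : ℕ → T) (m : ℕ) : Continuous (s.mg b m) := by
  refine (s.continuous_Rc m).comp ?_
  exact continuous_id.update _ continuous_const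

/-- the ultrafilter used in the definition of the slow operators -/
noncomputable def UU : Ultrafilter ℕ := Filter.hyperfilter ℕ

lemma UU_ge (n : ℕ) : ∀ᶠ m in (UU : Filter ℕ), n ≤ m :=
  Nat.hyperfilter_le_atTop (eventually_ge_atTop n)

/-- slow trees -/
def IsSlow (b : ℕ → T) (ξ : ∀ Q, X Q) : Prop :=
  ∀ Q, Tendsto (fun m => s.mg b m ξ Q) (UU : Filter ℕ) (𝓝 (ξ Q))

variable {s} in
/-- slowness is local -/
lemma Br.slow_local {b : ℕ → T} (hb : s.Br b) {l : ℕ} {ζ ξ : ∀ Q, X Q} (hζ : s.Coh ζ)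
    (hξ : s.IsSlow b ξ) (h : ∀ Q', s.Bel (b l) Q' → ζ Q' = ξ Q') : s.IsSlow b ζ := by
  have hoff : ∀ Q, Q ≠ b (s.lv Q) →
      Tendsto (fun m => s.mg b m ζ Q) (UU : Filter ℕ) (𝓝 (ζ Q)) := by
    intro Q hQ
    have h1 : (fun m => s.mg b m ζ Q) = fun _ => ζ Q := by
      ext m
      exact s.mg_off hζ fun h2 => hQ (hb.eq_of_bel h2)
    rw [h1]
    exact tendsto_const_nhds
  have hon1 : ∀ k, l ≤ k →
      Tendsto (fun m => s.mg b m ζ (b k)) (UU : Filter ℕ) (𝓝 (ζ (b k))) := by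
    intro k hk
    rw [h _ (hb.bel hk)]
    refine (hξ (b k)).congr' ?_
    filter_upwards [UU_ge k] with m hm
    exact (s.mg_congr (by rw [hb.lv]; exact hm)
      fun Q' h1 _ _ => h Q' (s.bel_trans (hb.bel hk) h1)).symm
  have hon2 : ∀ d, ∀ k, k + d = l →
      Tendsto (fun m => s.mg b m ζ (b k)) (UU : Filter ℕ) (𝓝 (ζ (b k))) := by
    intro d
    induction d with
    | zero => exact fun k hk => hon1 k (by omega)
    | succ d ih =>
      intro k hk
      rw [hζ (b k)]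
      have h1 : Tendsto (fun m => s.join (b k) (s.mg b m ζ)) (UU : Filter ℕ)
          (𝓝 (s.join (b k) ζ)) := by
        refine s.join_tendsto fun R hR => ?_
        by_cases hRb : R = b (k + 1)
        · rw [hRb]
          exact ih (k + 1) (by omega)
        · refine hoff R ?_
          rw [s.lv_ch _ _ hR, hb.lv]
          exact hRb
      refine h1.congr' ?_
      filter_upwards [UU_ge (k + 1)] with m hm
      exact (s.mg_lt _ (by rw [hb.lv]; omega)).symm
  intro Q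
  by_cases hQ : Q = b (s.lv Q)
  · rw [hQ]
    by_cases hl : l ≤ s.lv Q
    · exact hon1 _ hl
    · exact hon2 (l - s.lv Q) _ (by omega)
  · exact hoff Q hQ

end

section

variable {T : Type*} {X : T → Type*} [∀ Q, MetricSpace (X Q)] [∀ Q, CompactSpace (X Q)]
  (s : Sys T X)

lemma exists_Tb (b : ℕ → T) (ξ : ∀ Q, X Q) (Q : T) :
    ∃ x, Tendsto (fun m => s.mg b m ξ Q) (UU : Filter ℕ) (𝓝 x) := by
  obtain ⟨x, -, hx⟩ := (isCompact_univ (X := X Q)).ultrafilter_le_nhds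
    (UU.map fun m => s.mg b m ξ Q) (by simp)
  exact ⟨x, hx⟩

/-- the slow operator -/
noncomputable def Tb (b : ℕ → T) (ξ : ∀ Q, X Q) : ∀ Q, X Q := fun Q => (s.exists_Tb b ξ Q).choose

lemma Tb_tendsto (b : ℕ → T) (ξ : ∀ Q, X Q) (Q : T) :
    Tendsto (fun m => s.mg b m ξ Q) (UU : Filter ℕ) (𝓝 (s.Tb b ξ Q)) :=
  (s.exists_Tb b ξ Q).choose_spec

lemma Tb_coh (b : ℕ → T) (ξ : ∀ Q, X Q) : s.Coh (s.Tb b ξ) := by
  intro Q
  have h1 : Tendsto (fun m => s.join Q (s.mg b m ξ)) (UU : Filter ℕ)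
      (𝓝 (s.join Q (s.Tb b ξ))) := s.join_tendsto fun R _ => s.Tb_tendsto b ξ R
  refine tendsto_nhds_unique (s.Tb_tendsto b ξ Q) (h1.congr' ?_)
  filter_upwards [UU_ge (s.lv Q + 1)] with m hm
  exact (s.mg_lt _ (by omega)).symm

variable {s}

lemma Br.Tb_off {b : ℕ → T} (hb : s.Br b) {ξ : ∀ Q, X Q} (hξ : s.Coh ξ) {Q : T}
    (hQ : Q ≠ b (s.lv Q)) : s.Tb b ξ Q = ξ Q := by
  refine tendsto_nhds_unique (s.Tb_tendsto b ξ Q) ?_
  have h1 : (fun m => s.mg b m ξ Q) = fun _ => ξ Q := by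
    ext m
    exact s.mg_off hξ fun h2 => hQ (hb.eq_of_bel h2)
  rw [h1]
  exact tendsto_const_nhds

lemma Br.Tb_slow {b : ℕ → T} (hb : s.Br b) {ξ : ∀ Q, X Q} (hξ : s.Coh ξ) :
    s.IsSlow b (s.Tb b ξ) := by
  intro Q
  refine (s.Tb_tendsto b ξ Q).congr' ?_
  filter_upwards [UU_ge (s.lv Q)] with m hm
  refine s.mg_congr hm fun Q' _ h2 h3 => ?_
  rw [hb.Tb_off hξ]
  rwa [h2]

omit [∀ Q, CompactSpace (X Q)] in
lemma Br.dist_mg {b : ℕ → T} (hb : s.Br b) {ζ ξ : ∀ Q, X Q} (hζ : s.Coh ζ) (hξ : s.Coh ξ)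
    {e : ℕ → ℝ} (he : ∀ j, ∑ R ∈ (s.ch (b j)).filter (fun R => R ≠ b (j + 1)),
      dist (ζ R) (ξ R) ≤ e j) (m : ℕ) :
    ∀ d k, k + d = m → dist (s.mg b m ζ (b k)) (s.mg b m ξ (b k)) ≤ ∑ j ∈ Finset.Ico k m, e j := by
  intro d
  induction d with
  | zero =>
    intro k hk
    have : k = m := by omega
    subst this
    rw [hb.mg_self, hb.mg_self, dist_self, Finset.Ico_self, Finset.sum_empty]
  | succ d ih =>
    intro k hk
    have h1 : s.lv (b k) < m := by rw [hb.lv]; omega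
    rw [s.mg_lt ζ h1, s.mg_lt ξ h1]
    refine (s.lip _ _ _).trans ?_
    rw [← Finset.sum_filter_add_sum_filter_not (s.ch (b k)) (fun R => R ≠ b (k + 1))]
    have h2 : ∑ R ∈ (s.ch (b k)).filter (fun R => R ≠ b (k + 1)),
        dist (s.mg b m ζ R) (s.mg b m ξ R) ≤ e k := by
      refine le_trans (le_of_eq ?_) (he k)
      refine Finset.sum_congr rfl fun R hR => ?_
      obtain ⟨hR1, hR2⟩ := Finset.mem_filter.1 hR
      have h3 : ¬ s.Bel R (b m) := by
        intro h4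
        have h5 := hb.eq_of_bel h4
        rw [s.lv_ch _ _ hR1, hb.lv] at h5
        exact hR2 h5
      rw [s.mg_off hζ h3, s.mg_off hξ h3]
    have h3 : ∑ R ∈ (s.ch (b k)).filter (fun R => ¬ R ≠ b (k + 1)),
        dist (s.mg b m ζ R) (s.mg b m ξ R) ≤ ∑ j ∈ Finset.Ico (k + 1) m, e j := by
      have h4 : (s.ch (b k)).filter (fun R => ¬ R ≠ b (k + 1)) = {b (k + 1)} := by
        ext R
        simp only [Finset.mem_filter, not_not, Finset.mem_singleton]
        constructor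
        · exact fun h => h.2
        · rintro rfl
          exact ⟨hb.2 k, rfl⟩
      rw [h4, Finset.sum_singleton]
      exact ih (k + 1) (by omega)
    rw [Finset.sum_eq_sum_Ico_succ_bot (by omega : k < m)]
    exact add_le_add h2 h3

end

end Sys

end Vale.Agent.P116.Slow
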