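import Vale.Agent.P116.Slow.Abs

/-!
Nice sets of coherent trees; Zorn and Baire.
-/

open Set Filter Topology Metric
open scoped Classical

namespace Vale.Agent.P116.Slow

namespace Sys

variable {T : Type*} {X : T → Type*} [∀ Q, MetricSpace (X Q)] [∀ Q, CompactSpace (X Q)]

/-- nice sets of coherent trees -/
structure Nice (s : Sys T X) (P : Set (ℕ → T)) (V : Set (∀ Q, X Q)) : Prop where
  closed : IsClosed V
  nonempty : V.Nonempty
  coh : ∀ ξ ∈ V, s.Coh ξ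
  splice : ∀ Q, ∀ η ∈ V, ∀ ξ ∈ V, s.sp Q η ξ ∈ V
  tb : ∀ b ∈ P, ∀ ξ ∈ V, s.Tb b ξ ∈ V

variable {s : Sys T X} {P : Set (ℕ → T)} {V : Set (∀ Q, X Q)}

lemma Nice.sInter {c : Set (Set (∀ Q, X Q))} (hc : ∀ V ∈ c, s.Nice P V)
    (hchain : IsChain (· ⊆ ·) c) (hne : c.Nonempty) : s.Nice P (⋂₀ c) where
  closed := isClosed_sInter fun V hV => (hc V hV).closed
  nonempty := by
    have : Nonempty c := hne.to_subtype
    refine IsCompact.nonempty_sInter_of_directed_nonempty_isCompact_isClosed ?_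
      (fun V hV => (hc V hV).nonempty) (fun V hV => (hc V hV).closed.isCompact)
      (fun V hV => (hc V hV).closed)
    intro V hV W hW
    rcases hchain.total hV hW with h | h
    · exact ⟨V, hV, subset_rfl, h⟩
    · exact ⟨W, hW, h, subset_rfl⟩
  coh := by
    obtain ⟨V, hV⟩ := hne
    exact fun ξ hξ => (hc V hV).coh ξ (hξ V hV)
  splice := fun Q η hη ξ hξ V hV => (hc V hV).splice Q η (hη V hV) ξ (hξ V hV)
  tb := fun b hb ξ hξ V hV => (hc V hV).tb b hb ξ (hξ V hV)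

lemma Nice.exists_minimal {V₀ : Set (∀ Q, X Q)} (h : s.Nice P V₀) :
    ∃ V ⊆ V₀, s.Nice P V ∧ ∀ W ⊆ V, s.Nice P W → W = V := by
  obtain ⟨V, hV, hmin⟩ := zorn_superset_nonempty {V | s.Nice P V}
    (fun c hc hchain hne => ⟨⋂₀ c, Nice.sInter hc hchain hne, fun V hV => sInter_subset_of_mem hV⟩)
    V₀ h
  exact ⟨V, hV, hmin.1, fun W hW hWn => Subset.antisymm hW (hmin.2 hWn hW)⟩

lemma exists_near {D : Set (∀ Q, X Q)} {ξ : ∀ Q, X Q} (hξ : ξ ∈ closure D) (F : Finset T)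
    {ε : ℝ} (hε : 0 < ε) : ∃ ζ ∈ D, ∀ Q ∈ F, dist (ζ Q) (ξ Q) < ε := by
  have h1 : {ζ : ∀ Q, X Q | ∀ Q ∈ F, dist (ζ Q) (ξ Q) < ε} ∈ 𝓝 ξ := by
    have h2 : ∀ Q ∈ F, ∀ᶠ ζ : ∀ Q, X Q in 𝓝 ξ, dist (ζ Q) (ξ Q) < ε := by
      intro Q _
      exact (continuous_apply Q).continuousAt.eventually (Metric.ball_mem_nhds (ξ Q) hε)
    exact (Filter.eventually_all_finset F).2 h2
  obtain ⟨ζ, hζ, hζD⟩ := mem_closure_iff_nhds.1 hξ _ h1
  exact ⟨ζ, hζD, hζ⟩

lemma mem_closure_of_near {D : Set (∀ Q, X Q)} {ξ : ∀ Q, X Q}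
    (h : ∀ F : Finset T, ∀ ε > 0, ∃ ζ ∈ D, ∀ Q ∈ F, dist (ζ Q) (ξ Q) ≤ ε) : ξ ∈ closure D := by
  rw [mem_closure_iff_nhds]
  intro t ht
  rw [nhds_pi, Filter.mem_pi] at ht
  obtain ⟨I, hI, u, hu, hsub⟩ := ht
  have h1 : ∀ Q, ∃ ε > 0, Metric.ball (ξ Q) ε ⊆ u Q := fun Q => Metric.mem_nhds_iff.1 (hu Q)
  choose e he hsub' using h1
  obtain ⟨ε, hε, hεe⟩ : ∃ ε > 0, ∀ Q ∈ I, ε ≤ e Q := by
    rcases I.eq_empty_or_nonempty with h2 | h2
    · exact ⟨1, one_pos, by simp [h2]⟩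
    · obtain ⟨Q, hQ, hmin⟩ := hI.exists_minimalFor e I h2
      refine ⟨e Q, he Q, fun Q' hQ' => ?_⟩
      rcases le_total (e Q) (e Q') with h3 | h3
      · exact h3
      · exact hmin hQ' h3
  obtain ⟨ζ, hζ, hζF⟩ := h hI.toFinset (ε / 2) (by positivity)
  refine ⟨ζ, hsub fun Q hQ => hsub' Q ?_, hζ⟩
  rw [Metric.mem_ball]
  have := hζF Q (by simpa using hQ)
  have := hεe Q hQ
  linarith

/-- splicing along a branch -/
noncomputable def gl (s : Sys T X) (b : ℕ → T) (ξs : ℕ → ∀ Q, X Q) : ℕ → ∀ Q, X Q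
  | 0 => ξs 0
  | j + 1 => s.sp (b (j + 1)) (ξs (j + 1)) (gl s b ξs j)

lemma gl_mem (hV : s.Nice P V) {b : ℕ → T} {ξs : ℕ → ∀ Q, X Q} (h : ∀ j, ξs j ∈ V) (j : ℕ) :
    s.gl b ξs j ∈ V := by
  induction j with
  | zero => exact h 0
  | succ j ih => exact hV.splice _ _ (h _) _ ih

lemma Br.sib_off {b : ℕ → T} (hb : s.Br b) {j : ℕ} {R Q' : T} (hR : R ∈ s.ch (b j))
    (hRb : R ≠ b (j + 1)) (h : s.Bel R Q') (i : ℕ) : ¬ s.Bel Q' (b i) := by
  intro h1
  have h2 := hb.eq_of_bel (s.bel_trans h h1)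
  rw [s.lv_ch _ _ hR, hb.lv] at h2
  exact hRb h2

lemma Br.sib_off' {b : ℕ → T} (hb : s.Br b) {j : ℕ} {R Q' : T} (hR : R ∈ s.ch (b j))
    (hRb : R ≠ b (j + 1)) (h : s.Bel R Q') : Q' ≠ b (s.lv Q') := by
  intro h1
  exact hb.sib_off hR hRb h (s.lv Q') (h1 ▸ s.bel_refl _)

lemma Br.sib_not_bel {b : ℕ → T} (hb : s.Br b) {j : ℕ} {R Q' : T} (hR : R ∈ s.ch (b j))
    (hRb : R ≠ b (j + 1)) (h : s.Bel R Q') {i : ℕ} (hi : j + 1 ≤ i) : ¬ s.Bel (b i) Q' := by
  intro h1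
  rcases s.bel_total h (s.bel_trans (hb.bel hi) h1) with h2 | h2
  · exact hRb (s.bel_eq_of_lv h2 (by rw [s.lv_ch _ _ hR, hb.lv, hb.lv]))
  · exact hRb (s.bel_eq_of_lv h2 (by rw [s.lv_ch _ _ hR, hb.lv, hb.lv])).symm

lemma gl_sib (hV : s.Nice P V) {b : ℕ → T} (hb : s.Br b) {ξs : ℕ → ∀ Q, X Q}
    (h : ∀ j, ξs j ∈ V) {j : ℕ} {R Q' : T} (hR : R ∈ s.ch (b j))
    (hRb : R ≠ b (j + 1)) (hQ : s.Bel R Q') {m : ℕ} (hm : j ≤ m) :
    s.gl b ξs m Q' = ξs j Q' := by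
  induction m, hm using Nat.le_induction with
  | base =>
    cases j with
    | zero => rfl
    | succ j =>
      rw [gl, s.sp_bel _ _ (s.bel_trans (s.bel_ch hR) hQ)]
  | succ m hm ih =>
    rw [gl, s.sp_inc (hV.coh _ (gl_mem hV h m)) (hb.sib_not_bel hR hRb hQ (by omega))
      (hb.sib_off hR hRb hQ _), ih]

lemma Br.exists_sib {b : ℕ → T} (hb : s.Br b) {Q : T} (hQ : Q ≠ b (s.lv Q)) :
    ∃ j, ∃ R ∈ s.ch (b j), R ≠ b (j + 1) ∧ s.Bel R Q := by
  have h0 : s.Bel (b 0) Q := by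
    rw [hb.1]
    exact s.reach Q
  have hex : ∃ j, ¬ s.Bel (b j) Q := by
    refine ⟨s.lv Q + 1, fun h => ?_⟩
    have := s.bel_lv h
    rw [hb.lv] at this
    omega
  obtain ⟨i, hi⟩ : ∃ i, Nat.find hex = i + 1 := by
    refine Nat.exists_eq_succ_of_ne_zero fun h => ?_
    have := Nat.find_spec hex
    rw [h] at this
    exact this h0
  have h1 : s.Bel (b i) Q := by
    by_contra h
    have := Nat.find_min' hex h
    omega
  have h2 : ¬ s.Bel (b (i + 1)) Q := by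
    rw [← hi]
    exact Nat.find_spec hex
  have h3 : b i ≠ Q := by
    intro h
    apply hQ
    rw [← h, hb.lv]
  obtain ⟨R, hR, hRQ⟩ := s.bel_of_lt h1 h3
  refine ⟨i, R, hR, ?_, hRQ⟩
  rintro rfl
  exact h2 hRQ

lemma Br.diverge {b b' : ℕ → T} (hb : s.Br b) (hb' : s.Br b') (hne : b' ≠ b) :
    ∃ j, b' (j + 1) ∈ s.ch (b j) ∧ b' (j + 1) ≠ b (j + 1) := by
  by_contra hcon
  push Not at hcon
  apply hne
  funext k
  induction k with
  | zero => rw [hb.1, hb'.1]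
  | succ k ih =>
    refine hcon k ?_
    rw [← ih]
    exact hb'.2 k

/-- the key closure property -/
theorem Nice.closure_slow (hV : s.Nice P V) (hP : ∀ b ∈ P, s.Br b) {b' : ℕ → T} (hb'P : b' ∈ P) :
    s.Nice P (closure (V ∩ {ξ | s.IsSlow b' ξ})) := by
  have hb' := hP b' hb'P
  set D := V ∩ {ξ | s.IsSlow b' ξ} with hD
  have hDV : closure D ⊆ V := closure_minimal inter_subset_left hV.closed
  refine ⟨isClosed_closure, ?_, fun ξ hξ => hV.coh ξ (hDV hξ), ?_, ?_⟩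
  · obtain ⟨ξ, hξ⟩ := hV.nonempty
    exact ⟨s.Tb b' ξ, subset_closure ⟨hV.tb _ hb'P _ hξ, hb'.Tb_slow (hV.coh ξ hξ)⟩⟩
  · intro Q η hη ξ hξ
    refine map_mem_closure₂ (f := s.sp Q) (s.continuous_sp Q) hη hξ ?_
    rintro η' ⟨h1, h2⟩ ξ' ⟨h3, h4⟩
    refine ⟨hV.splice _ _ h1 _ h3, ?_⟩
    have hcoh := s.sp_coh (Q := Q) (hV.coh _ h1) (hV.coh _ h3)
    by_cases hQ : Q = b' (s.lv Q)
    · refine hb'.slow_local (l := s.lv Q) hcoh h2 fun Q' hQ' => ?_
      rw [← hQ] at hQ'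
      exact s.sp_bel _ _ hQ'
    · refine hb'.slow_local (l := s.lv Q) hcoh h4 fun Q' hQ' => ?_
      have h5 := s.bel_lv hQ'
      rw [hb'.lv] at h5
      refine s.sp_ge _ _ h5 fun h6 => hQ ?_
      rcases s.bel_total h6 hQ' with h7 | h7
      · exact s.bel_eq_of_lv h7 (by rw [hb'.lv])
      · exact (s.bel_eq_of_lv h7 (by rw [hb'.lv])).symm
  · intro b hbP ξ hξ
    have hb := hP b hbP
    have hξV := hDV hξ
    have hξc := hV.coh ξ hξV
    refine mem_closure_of_near fun F ε hε => ?_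
    -- approximations
    have hex : ∀ j : ℕ, ∃ ζ ∈ D, ∀ Q ∈ F ∪ s.ch (b j),
        dist (ζ Q) (ξ Q) < ε / 2 ^ (j + 1) / ((s.ch (b j)).card + 1) := by
      intro j
      exact exists_near hξ _ (by positivity)
    choose ξs hξD hξs using hex
    have hξsV : ∀ j, ξs j ∈ V := fun j => (hξD j).1
    -- limit of the gluings
    obtain ⟨ζ, hζV, hζlim⟩ := hV.closed.isCompact.ultrafilter_le_nhds
      (UU.map (s.gl b ξs)) (by
        rw [le_principal_iff, Ultrafilter.coe_map, Filter.mem_map]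
        exact Eventually.of_forall fun m => gl_mem hV hξsV m)
    have hζc := hV.coh ζ hζV
    have hζ : ∀ {j R Q'}, R ∈ s.ch (b j) → R ≠ b (j + 1) → s.Bel R Q' → ζ Q' = ξs j Q' := by
      intro j R Q' hR hRb hQ
      have h1 : Tendsto (fun m => s.gl b ξs m Q') (UU : Filter ℕ) (𝓝 (ζ Q')) :=
        ((continuous_apply Q').tendsto ζ).comp hζlim
      refine tendsto_nhds_unique h1 ?_
      refine tendsto_const_nhds.congr' ?_
      filter_upwards [UU_ge j] with m hm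
      exact (gl_sib hV hb hξsV hR hRb hQ hm).symm
    have hTζ : s.Tb b ζ ∈ V := hV.tb b hbP ζ hζV
    refine ⟨s.Tb b ζ, ⟨hTζ, ?_⟩, ?_⟩
    · by_cases hbb : b' = b
      · rw [hbb]
        exact hb.Tb_slow hζc
      · obtain ⟨j, hj1, hj2⟩ := hb.diverge hb' hbb
        refine hb'.slow_local (l := j + 1) (hV.coh _ hTζ) (hξD j).2 fun Q' hQ' => ?_
        rw [hb.Tb_off hζc (hb.sib_off' hj1 hj2 hQ'), hζ hj1 hj2 hQ']
    · intro Q hQF
      have h2 : ∀ j, ε / 2 ^ (j + 1) / ((s.ch (b j)).card + 1) ≤ ε := by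
        intro j
        have h3 : (1:ℝ) ≤ 2 ^ (j + 1) := one_le_pow₀ (by norm_num)
        have h4 : (1:ℝ) ≤ (s.ch (b j)).card + 1 := by
          have : (0:ℝ) ≤ (s.ch (b j)).card := Nat.cast_nonneg _
          linarith
        calc ε / 2 ^ (j + 1) / ((s.ch (b j)).card + 1) ≤ ε / 2 ^ (j + 1) :=
              div_le_self (by positivity) h4
          _ ≤ ε := div_le_self hε.le h3
      by_cases hQ : Q = b (s.lv Q)
      · -- on the branch
        have he : ∀ j, ∑ R ∈ (s.ch (b j)).filter (fun R => R ≠ b (j + 1)),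
            dist (ζ R) (ξ R) ≤ ε / 2 ^ (j + 1) := by
          intro j
          have h3 : ∀ R ∈ (s.ch (b j)).filter (fun R => R ≠ b (j + 1)),
              dist (ζ R) (ξ R) ≤ ε / 2 ^ (j + 1) / ((s.ch (b j)).card + 1) := by
            intro R hR
            obtain ⟨hR1, hR2⟩ := Finset.mem_filter.1 hR
            rw [hζ hR1 hR2 (s.bel_refl R)]
            exact (hξs j R (Finset.mem_union_right _ hR1)).le
          refine (Finset.sum_le_sum h3).trans ?_
          rw [Finset.sum_const, nsmul_eq_mul]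
          have h4 : (((s.ch (b j)).filter (fun R => R ≠ b (j + 1))).card : ℝ) ≤
              (s.ch (b j)).card + 1 := by
            have : ((s.ch (b j)).filter (fun R => R ≠ b (j + 1))).card ≤ (s.ch (b j)).card :=
              Finset.card_filter_le _ _
            have : (((s.ch (b j)).filter (fun R => R ≠ b (j + 1))).card : ℝ) ≤
              (s.ch (b j)).card := by exact_mod_cast this
            linarith
          have h5 : (0:ℝ) < (s.ch (b j)).card + 1 := by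
            have : (0:ℝ) ≤ (s.ch (b j)).card := Nat.cast_nonneg _
            linarith
          have h6 : 0 < ε / 2 ^ (j + 1) := div_pos hε (pow_pos two_pos _)
          refine (mul_le_mul_of_nonneg_right h4 (div_pos h6 h5).le).trans (le_of_eq ?_)
          exact mul_div_cancel₀ _ h5.ne'
        have hsum : ∀ m, ∑ j ∈ Finset.Ico (s.lv Q) m, ε / 2 ^ (j + 1) ≤ ε := by
          intro m
          have h5 : ∑ j ∈ Finset.Ico (s.lv Q) m, ε / 2 ^ (j + 1) ≤
              ∑ j ∈ Finset.range m, ε / 2 ^ (j + 1) := by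
            refine Finset.sum_le_sum_of_subset_of_nonneg ?_ fun j _ _ => by positivity
            intro j hj
            exact Finset.mem_range.2 (Finset.mem_Ico.1 hj).2
          have h6 : ∀ m : ℕ, ∑ j ∈ Finset.range m, ε / 2 ^ (j + 1) = ε - ε / 2 ^ m := by
            intro m
            induction m with
            | zero => simp
            | succ m ih =>
              rw [Finset.sum_range_succ, ih]
              rw [pow_succ]
              field_simp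
              ring
          rw [h6] at h5
          have : 0 < ε / 2 ^ m := by positivity
          linarith
        have h7 : ∀ᶠ m in (UU : Filter ℕ), dist (s.mg b m ζ Q) (s.mg b m ξ Q) ≤ ε := by
          filter_upwards [UU_ge (s.lv Q)] with m hm
          rw [hQ]
          have h8 := hb.dist_mg hζc hξc he m (m - s.lv Q) (s.lv Q) (by omega)
          exact h8.trans (hsum m)
        exact le_of_tendsto ((s.Tb_tendsto b ζ Q).dist (s.Tb_tendsto b ξ Q)) h7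
      · obtain ⟨j, R, hR, hRb, hRQ⟩ := hb.exists_sib hQ
        rw [hb.Tb_off hζc hQ, hb.Tb_off hξc hQ, hζ hR hRb hRQ]
        exact (hξs j Q (Finset.mem_union_left _ hQF)).le.trans (h2 j)

/-- **Simultaneous slow states**, compact version -/
theorem Nice.exists_slow {V₀ : Set (∀ Q, X Q)} (h₀ : s.Nice P V₀) (hP : ∀ b ∈ P, s.Br b)
    (hPc : P.Countable) :
    ∃ ξ ∈ V₀, ∀ b ∈ P, ∀ ε > 0, ∀ k₀, ∃ k ≥ k₀, dist (ξ s.root) (s.mg b k ξ s.root) < ε := by
  obtain ⟨V, hVV₀, hV, hmin⟩ := h₀.exists_minimal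
  have hdense : ∀ b ∈ P, closure (V ∩ {ξ | s.IsSlow b ξ}) = V := fun b hb =>
    hmin _ (closure_minimal inter_subset_left hV.closed) (hV.closure_slow hP hb)
  have : CompactSpace V := isCompact_iff_compactSpace.1 hV.closed.isCompact
  have : Nonempty V := hV.nonempty.to_subtype
  have : Countable P := hPc.to_subtype
  let W : P × ℕ × ℕ → Set V := fun p => {ξ | ∃ k ≥ p.2.2,
    dist (ξ.1 s.root) (s.mg p.1.1 k ξ.1 s.root) < 1 / ((p.2.1 : ℝ) + 1)}
  have hWo : ∀ p, IsOpen (W p) := by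
    intro p
    have h1 : W p = ⋃ k ≥ p.2.2, {ξ : V | dist (ξ.1 s.root) (s.mg p.1.1 k ξ.1 s.root) <
        1 / ((p.2.1 : ℝ) + 1)} := by
      ext ξ
      simp [W]
    rw [h1]
    refine isOpen_biUnion fun k _ => isOpen_lt ?_ continuous_const
    exact ((continuous_apply _).comp continuous_subtype_val).dist
      ((continuous_apply _).comp ((s.continuous_mg _ _).comp continuous_subtype_val))
  have hWd : ∀ p, Dense (W p) := by
    rintro ⟨⟨b, hb⟩, n, k₀⟩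
    intro ξ
    rw [_root_.mem_closure_iff]
    intro O hO hξO
    obtain ⟨O', hO', rfl⟩ := isOpen_induced_iff.1 hO
    have h1 : (ξ : ∀ Q, X Q) ∈ closure (V ∩ {ξ | s.IsSlow b ξ}) := by
      rw [hdense b hb]
      exact ξ.2
    obtain ⟨ζ, hζO, hζV, hζs⟩ := _root_.mem_closure_iff.1 h1 O' hO' hξO
    refine ⟨⟨ζ, hζV⟩, hζO, ?_⟩
    have h2 : ∀ᶠ m in (UU : Filter ℕ), dist (s.mg b m ζ s.root) (ζ s.root) < 1 / ((n : ℝ) + 1) :=
      (hζs s.root).eventually (Metric.ball_mem_nhds _ (by positivity))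
    obtain ⟨k, h3, h4⟩ := (h2.and (UU_ge k₀)).exists
    exact ⟨k, h4, by rwa [dist_comm]⟩
  obtain ⟨ξ, hξ⟩ := (dense_iInter_of_isOpen hWo hWd).nonempty
  refine ⟨ξ.1, hVV₀ ξ.2, fun b hb ε hε k₀ => ?_⟩
  obtain ⟨n, hn⟩ := exists_nat_one_div_lt hε
  obtain ⟨k, hk, hd⟩ := mem_iInter.1 hξ (⟨b, hb⟩, n, k₀)
  exact ⟨k, hk, hd.trans hn⟩

end Sys

end Vale.Agent.P116.Slow
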