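import Mathlib
import Vale.Agent.P116.PBC.Top
import Vale.Agent.P116.H906.Nodes

/-!
Comeagre sets of complementary components.
-/

open Set Filter Topology Metric Bornology OnePoint

namespace Vale.Agent.P116.Slow

open PBC

variable {G : Set (OnePoint ℂ)}

/-- points of the same component -/
lemma mk_eq_iff (hi : ∞ ∈ G) {x y : ℂ} (hx : (x : OnePoint ℂ) ∈ Gᶜ) (hy : (y : OnePoint ℂ) ∈ Gᶜ) :
    (ConnectedComponents.mk (⟨x, hx⟩ : ↥Gᶜ) = ConnectedComponents.mk (⟨y, hy⟩ : ↥Gᶜ)) ↔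
      x ∈ connectedComponentIn (pl G) y := by
  have h1 : (x : OnePoint ℂ) ∈ connectedComponentIn Gᶜ (y : OnePoint ℂ) ↔
      x ∈ connectedComponentIn (pl G) y := by
    have h2 := connectedComponentIn_coe (L := pl G) (w := y) hy
    have h3 : ((fun z : ℂ => (z : OnePoint ℂ)) '' pl G) = Gᶜ := by
      conv_rhs => rw [eq_compl_pl hi]
      rw [compl_compl]
    rw [h3] at h2
    rw [h2]
    constructor
    · rintro ⟨z, hz, hzx⟩
      have : z = x := OnePoint.coe_injective hzx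
      exact this ▸ hz
    · intro h
      exact ⟨x, h, rfl⟩
  rw [← h1, connectedComponentIn_eq_image hy, ConnectedComponents.coe_eq_coe']
  constructor
  · intro h
    exact ⟨_, h, rfl⟩
  · rintro ⟨z, hz, hzx⟩
    have : z = ⟨(x : OnePoint ℂ), hx⟩ := Subtype.ext hzx
    exact this ▸ hz

/-- a sequence of open dense sets of components gives a comeagre set of components -/
theorem exists_residual (hG : IsDom G) (hi : ∞ ∈ G) {A : ℕ → Set ℂ}
    (ho : ∀ n, ∀ x ∈ pl G, x ∈ A n → ∃ m, ∀ y ∈ pl G, y ∈ H906.nd (pl G) m x → y ∈ A n)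
    (hd : ∀ x ∈ pl G, ∀ m, ∃ y ∈ pl G, y ∈ H906.nd (pl G) m x ∧ ∀ n, y ∈ A n) :
    ∃ 𝒰 ∈ residual (ConnectedComponents (↥Gᶜ)), ∀ p : ↥Gᶜ, ConnectedComponents.mk p ∈ 𝒰 →
      ∃ x ∈ pl G, (x : OnePoint ℂ) = p ∧ ∀ n, x ∈ A n := by
  have hK : IsCompact (pl G) := isCompact_pl hG.1 hi
  have hc : IsPreconnected (pl G)ᶜ := preconn_compl_pl hG.1 hG.2 hi
  have hf : H906.Full (pl G) := H906.full_of_isPreconnected_compl hc hK.isBounded
  set V : ℕ → Set (ConnectedComponents (↥Gᶜ)) := fun n =>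
    {c | ∃ (x : ℂ) (hx : (x : OnePoint ℂ) ∈ Gᶜ), x ∈ A n ∧
      ConnectedComponents.mk (⟨x, hx⟩ : ↥Gᶜ) = c} with hV
  have hfin : ∀ p : ↥Gᶜ, ∃ (x : ℂ) (hx : (x : OnePoint ℂ) ∈ Gᶜ), p = ⟨x, hx⟩ := by
    rintro ⟨p, hp⟩
    induction p using OnePoint.rec with
    | infty => exact absurd hi hp
    | coe z => exact ⟨z, hp, rfl⟩
  have hmemV : ∀ n (x : ℂ) (hx : (x : OnePoint ℂ) ∈ Gᶜ),
      ConnectedComponents.mk (⟨x, hx⟩ : ↥Gᶜ) ∈ V n → x ∈ A n := by
    rintro n x hx ⟨y, hy, hyA, hyx⟩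
    obtain ⟨m, hm⟩ := ho n y hy hyA
    have h1 := (mk_eq_iff hi hx hy).1 hyx.symm
    exact hm x hx (connectedComponentIn_mono _ (H906.subset_lev m) h1)
  have hVo : ∀ n, IsOpen (V n) := by
    intro n
    rw [← ConnectedComponents.isQuotientMap_coe.isOpen_preimage, isOpen_iff_mem_nhds]
    intro p hp
    obtain ⟨x, hx, rfl⟩ := hfin p
    have hxA := hmemV n x hx hp
    obtain ⟨m, hm⟩ := ho n x hx hxA
    have h1 : IsOpen ((fun z : ℂ => (z : OnePoint ℂ)) '' ball x (H906.lr m)) :=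
      OnePoint.isOpenEmbedding_coe.isOpenMap _ isOpen_ball
    refine mem_nhds_iff.2 ⟨Subtype.val ⁻¹' ((fun z : ℂ => (z : OnePoint ℂ)) '' ball x (H906.lr m)),
      ?_, h1.preimage continuous_subtype_val, ⟨x, mem_ball_self (H906.lr_pos m), rfl⟩⟩
    intro q hq
    obtain ⟨y, hy, rfl⟩ := hfin q
    obtain ⟨z, hz, hzy⟩ := hq
    have hzy' : z = y := OnePoint.coe_injective hzy
    subst hzy'
    refine ⟨z, hy, hm z hy ?_, rfl⟩
    exact H906.closedBall_subset_nd hx (H906.mem_nd hx m) (ball_subset_closedBall hz)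
  have hVd : ∀ n, Dense (V n) := by
    intro n
    rw [dense_iff_inter_open]
    rintro O hO ⟨c, hc⟩
    obtain ⟨p, rfl⟩ := ConnectedComponents.surjective_coe c
    obtain ⟨x, hx, rfl⟩ := hfin p
    have h1 : IsOpen ((fun p : ↥Gᶜ => ConnectedComponents.mk p) ⁻¹' O) :=
      hO.preimage ConnectedComponents.continuous_coe
    obtain ⟨W, hW, hWO⟩ := isOpen_induced_iff.1 h1
    have hWp : IsOpen ((fun z : ℂ => (z : OnePoint ℂ)) ⁻¹' W) :=
      hW.preimage OnePoint.continuous_coe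
    have hWmem : ∀ (y : ℂ) (hy : (y : OnePoint ℂ) ∈ Gᶜ), (y : OnePoint ℂ) ∈ W ↔
        ConnectedComponents.mk (⟨y, hy⟩ : ↥Gᶜ) ∈ O := by
      intro y hy
      have := Set.ext_iff.1 hWO ⟨y, hy⟩
      exact this
    have hsub : connectedComponentIn (pl G) x ⊆ (fun z : ℂ => (z : OnePoint ℂ)) ⁻¹' W := by
      intro y hy
      have hyK : y ∈ pl G := connectedComponentIn_subset _ _ hy
      have h2 := (mk_eq_iff hi hyK hx).2 hy
      refine (hWmem y hyK).2 ?_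
      rw [h2]
      exact hc
    obtain ⟨m, hm⟩ := H906.exists_nd_subset hK hf hx hWp hsub
    obtain ⟨y, hy, hym, hyA⟩ := hd x hx m
    refine ⟨ConnectedComponents.mk (⟨y, hy⟩ : ↥Gᶜ), ?_, y, hy, hyA n, rfl⟩
    exact (hWmem y hy).1 (hm hym)
  refine ⟨⋂ n, V n, countable_iInter_mem.2 fun n => residual_of_dense_open (hVo n) (hVd n), ?_⟩
  intro p hp
  obtain ⟨x, hx, rfl⟩ := hfin p
  exact ⟨x, hx, rfl, fun n => hmemV n x hx (mem_iInter.1 hp n)⟩

end Vale.Agent.P116.Slow
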