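import Mathlib
import Vale.Agent.P116.Bdl.B1
import Vale.Agent.P116.Slow.Resid

/-!
Normalization: a Moebius map which moves a point of the domain to infinity.
-/

open Set Filter Topology Metric Bornology OnePoint

namespace Vale.Agent.P116.Slow

/-- a homeomorphism of the sphere such that composition with it preserves holomorphy -/
def Conf (m : OnePoint ℂ ≃ₜ OnePoint ℂ) : Prop :=
  ∀ (f : OnePoint ℂ → OnePoint ℂ) (p : OnePoint ℂ), HolAt f (m p) → HolAt (f ∘ m) p

lemma conf_recip : Conf recipHomeo := by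
  intro f p hf
  obtain ⟨φ, hφ, ψ, hψ, a, g, h1, hg, hev⟩ := hf
  refine ⟨fun z => recip (φ z), ?_, ψ, hψ, a, g, ?_, hg, ?_⟩
  · rcases hφ with rfl | rfl
    · exact Or.inr rfl
    · left
      funext z
      exact recip_recip _
  · show recip (φ a) = p
    rw [h1]
    exact recip_recip p
  · filter_upwards [hev] with z hz
    show f (recip (recip (φ z))) = ψ (g z)
    rw [recip_recip]
    exact hz

/-- holomorphy at a finite point, in the finite chart -/
lemma holAt_fin {f : OnePoint ℂ → OnePoint ℂ} {w : ℂ} (hf : HolAt f (w : OnePoint ℂ)) :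
    ∃ ψ ∈ charts, ∃ g : ℂ → ℂ, AnalyticAt ℂ g w ∧
      ∀ᶠ z : ℂ in 𝓝 w, f (z : OnePoint ℂ) = ψ (g z) := by
  obtain ⟨φ, hφ, ψ, hψ, a, g, h1, hg, hev⟩ := hf
  rcases hφ with rfl | rfl
  · have : a = w := OnePoint.coe_injective h1
    subst this
    exact ⟨ψ, hψ, g, hg, hev⟩
  · have h1' : recip (a : OnePoint ℂ) = (w : OnePoint ℂ) := h1
    have ha : a ≠ 0 := by
      rintro rfl
      rw [recip_coe_zero] at h1'
      exact OnePoint.coe_ne_infty w h1'.symm
    rw [recip_coe ha] at h1'
    have haw : a⁻¹ = w := OnePoint.coe_injective h1'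
    have hw : w ≠ 0 := by
      rw [← haw]
      exact inv_ne_zero ha
    have hwa : w⁻¹ = a := by rw [← haw, inv_inv]
    refine ⟨ψ, hψ, fun z => g z⁻¹, ?_, ?_⟩
    · have h2 : AnalyticAt ℂ (fun z : ℂ => z⁻¹) w := analyticAt_inv hw
      rw [← hwa] at hg
      exact hg.comp h2
    · have h2 : Tendsto (fun z : ℂ => z⁻¹) (𝓝 w) (𝓝 a) := by
        rw [← hwa]
        exact continuousAt_inv₀ hw
      filter_upwards [h2.eventually hev, (isOpen_ne (x := (0:ℂ))).mem_nhds hw] with z hz hz0
      rw [← hz]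
      show f (z : OnePoint ℂ) = f (recip ((z⁻¹ : ℂ) : OnePoint ℂ))
      rw [recip_coe (inv_ne_zero hz0), inv_inv]

/-- holomorphy at infinity, in the chart at infinity -/
lemma holAt_infty {f : OnePoint ℂ → OnePoint ℂ} (hf : HolAt f ∞) :
    ∃ ψ ∈ charts, ∃ g : ℂ → ℂ, AnalyticAt ℂ g 0 ∧
      ∀ᶠ z : ℂ in 𝓝 (0 : ℂ), f (recip (z : OnePoint ℂ)) = ψ (g z) := by
  obtain ⟨φ, hφ, ψ, hψ, a, g, h1, hg, hev⟩ := hf
  rcases hφ with rfl | rfl
  · exact absurd h1 (OnePoint.coe_ne_infty a)
  · have h1' : recip (a : OnePoint ℂ) = ∞ := h1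
    have ha : a = 0 := by
      by_contra ha
      rw [recip_coe ha] at h1'
      exact OnePoint.coe_ne_infty _ h1'
    subst ha
    exact ⟨ψ, hψ, g, hg, hev⟩

/-- translations of the sphere -/
noncomputable def trans (a : ℂ) : OnePoint ℂ ≃ₜ OnePoint ℂ :=
  (Homeomorph.addRight a).onePointCongr

lemma trans_coe (a z : ℂ) : trans a (z : OnePoint ℂ) = ((z + a : ℂ) : OnePoint ℂ) := rfl

lemma trans_infty (a : ℂ) : trans a ∞ = ∞ := rfl

lemma conf_trans (a : ℂ) : Conf (trans a) := by
  intro f p hf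
  induction p using OnePoint.rec with
  | infty =>
    rw [trans_infty] at hf
    obtain ⟨ψ, hψ, g, hg, hev⟩ := holAt_infty hf
    -- `1 / z + a = 1 / (z / (1 + a z))`
    have hk : AnalyticAt ℂ (fun z : ℂ => z / (1 + a * z)) 0 := by
      refine AnalyticAt.div analyticAt_id
        (analyticAt_const.add (analyticAt_const.mul analyticAt_id)) ?_
      simp
    refine ⟨fun z => recip (z : OnePoint ℂ), Or.inr rfl, ψ, hψ, 0,
      fun z => g (z / (1 + a * z)), recip_coe_zero, ?_, ?_⟩
    · exact AnalyticAt.comp_of_eq hg hk (by simp)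
    · have h2 : Tendsto (fun z : ℂ => z / (1 + a * z)) (𝓝 0) (𝓝 0) := by
        have := hk.continuousAt.tendsto
        simpa using this
      have h3 : ∀ᶠ z : ℂ in 𝓝 0, 1 + a * z ≠ 0 := by
        have : ContinuousAt (fun z : ℂ => 1 + a * z) 0 := by fun_prop
        refine this.eventually_ne ?_
        simp
      filter_upwards [h2.eventually hev, h3] with z hz hz1
      rw [← hz]
      show f (trans a (recip (z : OnePoint ℂ))) = f (recip ((z / (1 + a * z) : ℂ) : OnePoint ℂ))
      congr 1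
      by_cases hz0 : z = 0
      · subst hz0
        rw [recip_coe_zero, trans_infty, zero_div, recip_coe_zero]
      · rw [recip_coe hz0, trans_coe, recip_coe (div_ne_zero hz0 hz1)]
        congr 1
        field_simp
        try ring
  | coe w =>
    rw [trans_coe] at hf
    obtain ⟨ψ, hψ, g, hg, hev⟩ := holAt_fin hf
    refine ⟨fun z => (z : OnePoint ℂ), Or.inl rfl, ψ, hψ, w, fun z => g (z + a), rfl, ?_, ?_⟩
    · have h2 : AnalyticAt ℂ (fun z : ℂ => z + a) w := by fun_prop
      exact AnalyticAt.comp_of_eq hg h2 rfl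
    · have h2 : Tendsto (fun z : ℂ => z + a) (𝓝 w) (𝓝 (w + a)) := by
        have : Continuous fun z : ℂ => z + a := by fun_prop
        exact this.continuousAt
      filter_upwards [h2.eventually hev] with z hz
      exact hz

lemma Conf.comp {m m' : OnePoint ℂ ≃ₜ OnePoint ℂ} (h : Conf m) (h' : Conf m') :
    Conf (m.trans m') := by
  intro f p hf
  exact h (f ∘ m') p (h' f (m p) hf)

/-- a domain can be moved so that it contains infinity -/
theorem exists_conf {G : Set (OnePoint ℂ)} (hG : IsDom G) :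
    ∃ m : OnePoint ℂ ≃ₜ OnePoint ℂ, Conf m ∧ ∞ ∈ m '' G := by
  obtain ⟨p, hp⟩ := hG.2.nonempty
  induction p using OnePoint.rec with
  | infty =>
    refine ⟨(trans 0), conf_trans 0, ∞, hp, trans_infty 0⟩
  | coe a =>
    refine ⟨(trans (-a)).trans recipHomeo, (conf_trans (-a)).comp conf_recip, a, hp, ?_⟩
    show recip (trans (-a) (a : OnePoint ℂ)) = ∞
    rw [trans_coe, add_neg_cancel, recip_coe_zero]

/-- homeomorphisms and comeagre sets of components -/
theorem residual_cc {X Y : Type*} [TopologicalSpace X] [TopologicalSpace Y] (e : X ≃ₜ Y)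
    {𝒱 : Set (ConnectedComponents Y)} (h : 𝒱 ∈ residual (ConnectedComponents Y)) :
    ∃ 𝒰 ∈ residual (ConnectedComponents X), ∀ x : X, ConnectedComponents.mk x ∈ 𝒰 →
      ConnectedComponents.mk (e x) ∈ 𝒱 := by
  set E := e.isQuotientMap.isCoinducing.connectedComponentsHomeomorph (fun y => by
    have : e ⁻¹' {y} = {e.symm y} := by
      ext x
      simp [eq_comm, Homeomorph.eq_symm_apply]
    rw [this]
    exact isConnected_singleton) with hE
  refine ⟨E ⁻¹' 𝒱, ?_, fun x hx => hx⟩
  exact tendsto_residual_of_isOpenMap E.continuous E.isOpenMap h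

/-- the complement of the image -/
noncomputable def complHomeo (m : OnePoint ℂ ≃ₜ OnePoint ℂ) (G : Set (OnePoint ℂ)) :
    ↥Gᶜ ≃ₜ ↥(m '' G)ᶜ :=
  m.subtype (fun x => by
    constructor
    · rintro hx ⟨y, hy, hyx⟩
      exact hx (m.injective hyx ▸ hy)
    · intro hx hx'
      exact hx ⟨x, hx', rfl⟩)

lemma complHomeo_coe (m : OnePoint ℂ ≃ₜ OnePoint ℂ) (G : Set (OnePoint ℂ)) (p : ↥Gᶜ) :
    ((complHomeo m G p : ↥(m '' G)ᶜ) : OnePoint ℂ) = m p := rfl

lemma comp_image (m : OnePoint ℂ ≃ₜ OnePoint ℂ) {G : Set (OnePoint ℂ)} {p : OnePoint ℂ}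
    (hp : p ∈ Gᶜ) : comp (m '' G) (m p) = m '' comp G p := by
  unfold comp
  rw [m.image_connectedComponentIn hp]
  congr 1
  rw [← image_compl_eq m.bijective]

end Vale.Agent.P116.Slow
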